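import Vale.Agent.P354XN.Cur
import Vale.Agent.P354XH.Defs

/-!
Identities on curves at a real frequency: the chain, the commutation with D = De d_r - i K,
the current of the multiplier 2 b u' - 2 i ch u + h u for the operator of spin t.
-/

open scoped ContDiff InnerProductSpace ComplexConjugate
open Complex (I)
open Vale.Agent.P354BF Vale.Agent.P354XN
open Vale.Agent.P354XH (K ka)

noncomputable section

namespace Vale.Agent.P354RP

variable {S : Type} [NormedAddCommGroup S] [InnerProductSpace ℂ S] {A : Ang S}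

theorem Kf_real (a om m r : ℝ) : Kf a om m r = (K a r om m : ℝ) := by
  simp only [Kf, K]; push_cast; ring

theorem der_K (a om m r : ℝ) : HasDerivAt (fun t => K a t om m) (2 * r * om) r := by
  have := ((((hasDerivAt_id r).pow 2).add_const (a ^ 2)).const_mul om).sub_const (a * m)
  exact this.congr_deriv (by simp; ring)

theorem cd_De (M a : ℝ) : ContDiff ℝ ∞ (De M a) := by unfold De; fun_prop

theorem cd_K (a om m : ℝ) : ContDiff ℝ ∞ fun t => K a t om m := by unfold K; fun_prop

theorem cd_ka (M a om m : ℝ) : ContDiff ℝ ∞ fun t => ka M a t om m := by unfold ka; fun_prop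

theorem cd_C {c : ℝ → ℝ} (hc : ContDiff ℝ ∞ c) : ContDiff ℝ ∞ fun r => (c r : ℂ) :=
  Complex.ofRealCLM.contDiff.comp hc

theorem ka_eq (M a r om m : ℝ) :
    ka M a r om m = 2 * r * om * De M a r - K a r om m * (r - M) := by
  simp only [ka, K, De]; ring

theorem ri_add_l (u v z : S) : ri (u + v) z = ri u z + ri v z := by
  rw [ri_comm, ri_add, ri_comm z, ri_comm z]

theorem ri_sub_l (u v z : S) : ri (u - v) z = ri u z - ri v z := by
  rw [ri_comm, ri_sub, ri_comm z, ri_comm z]

theorem ri_real_l (c : ℝ) (u v : S) : ri ((c : ℂ) • u) v = c * ri u v := by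
  rw [ri_comm, ri_real, ri_comm]

theorem ri_neg (u v : S) : ri u (-v) = -ri u v := by rw [ri, inner_neg_right, Complex.neg_re, ri]

theorem ri_neg_l (u v : S) : ri (-u) v = -ri u v := by rw [ri_comm, ri_neg, ri_comm]

theorem ri_zero (u : S) : ri u 0 = 0 := by simp [ri]

theorem ri_I (u v : S) : ri u (I • v) = -ri (I • u) v := by
  simp [ri]

theorem ri_II (u v : S) : ri (I • u) (I • v) = ri u v := by
  rw [ri_I, smul_smul, Complex.I_mul_I, neg_smul, one_smul, ri_neg_l, neg_neg]

theorem ri_I_self (u : S) : ri (I • u) u = 0 := by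
  have := ri_I u u
  rw [ri_comm] at this; linarith

theorem norm_I (u : S) : ‖I • u‖ = ‖u‖ := by rw [norm_smul, Complex.norm_I, one_mul]

theorem norm_real (c : ℝ) (u : S) : ‖(c : ℂ) • u‖ = |c| * ‖u‖ := by
  rw [norm_smul, Complex.norm_real, Real.norm_eq_abs]

/-- The spheroidal operator is symmetric at a real frequency. -/
theorem lop_sym (h : A.Is) (k a om m : ℝ) (u v : S) :
    ⟪A.lop k a om m u, v⟫_ℂ = ⟪u, A.lop k a om m v⟫_ℂ := by
  have := h.lop_symm k a om m u v
  rwa [Complex.conj_ofReal] at this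

theorem ri_lop (h : A.Is) (k a om m : ℝ) (u v : S) :
    ri (A.lop k a om m u) v = ri u (A.lop k a om m v) := by rw [ri, lop_sym h, ri]

theorem ri_I_lop (h : A.Is) (k a om m : ℝ) (u : S) : ri (I • u) (A.lop k a om m u) = 0 := by
  have e1 := ri_lop h k a om m (I • u) u
  rw [map_smul, ← neg_neg (ri (I • _) u), ← ri_I, ri_comm] at e1
  linarith

variable (A) in
/-- The quadratic form of the spheroidal operator. -/
def ell (k a om m : ℝ) (u : S) : ℝ := ri u (A.lop k a om m u)

variable {u v y : ℝ → S}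

theorem der_ell (h : A.Is) (hu : A.Sm u) (k a om m r : ℝ) :
    HasDerivAt (fun t => ell A k a om m (u t)) (2 * ri (deriv u r) (A.lop k a om m (u r))) r := by
  have := der_ri (hu.has r) ((h.sm_lop hu k a om m).has r)
  refine this.congr_deriv ?_
  rw [h.deriv_lop hu, ← ri_lop h, ri_comm]; ring

/-- The operator of spin t at a real frequency, in real form. -/
theorem P_real (t k M a om m : ℝ) (v : ℝ → S) (r : ℝ) : A.P t k M a om m v r =
    (De M a r : ℂ) • deriv (deriv v) r + (((1 - t) * (2 * r - 2 * M) : ℝ) : ℂ) • deriv v r -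
      ((2 * K a r om m : ℝ) : ℂ) • I • deriv v r - ((2 * om * r * (1 - 2 * t) : ℝ) : ℂ) • I • v r +
      ((t ^ 2 - t : ℝ) : ℂ) • v r - A.lop k a om m (v r) := by
  rw [Ang.P, Kf_real]; push_cast; module

/-- The chain: d_r maps the spin s to the spin s - 1. -/
theorem dP (h : A.Is) (hv : A.Sm v) (s k M a : ℝ) (om : ℂ) (m r : ℝ) :
    deriv (A.P s k M a om m v) r =
      A.P (s - 1) k M a om m (deriv v) r - (2 * I * om * (1 - 2 * s : ℝ)) • v r := by
  have h1 := h.sm_deriv hv
  have h2 := h.sm_deriv h1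
  have c1 : HasDerivAt (fun t : ℝ => (t : ℂ)) 1 r := Complex.ofRealCLM.hasDerivAt
  have a1 : HasDerivAt (fun t : ℝ => ((((1 - s) * (2 * t - 2 * M) : ℝ) : ℂ) - 2 * I * Kf a om m t))
      ((((1 - s) * 2 : ℝ) : ℂ) - 2 * I * (om * (2 * r))) r := by
    refine HasDerivAt.sub (HasDerivAt.ofReal_comp ?_) (HasDerivAt.const_mul _ ?_)
    · simpa using (((hasDerivAt_id r).const_mul 2).sub_const (2 * M)).const_mul (1 - s)
    · exact ((((c1.pow 2).add_const ((a : ℂ) ^ 2)).const_mul om).sub_const (a * m : ℂ)).congr_deriv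
        (by simp)
  have a2 : HasDerivAt (fun t : ℝ => (2 * I * om * t * (1 - 2 * s : ℝ) - (s ^ 2 - s : ℝ) : ℂ))
      (2 * I * om * 1 * (1 - 2 * s : ℝ)) r :=
    ((c1.const_mul _).mul_const _).sub_const _
  have : HasDerivAt (A.P s k M a om m v) _ r :=
    ((((der_De M a r).ofReal_comp.smul (h2.has r)).add (a1.smul (h1.has r))).sub
      (a2.smul (hv.has r))).sub ((h.sm_lop hv k a om m).has r)
  rw [this.deriv, h.deriv_lop hv, Ang.P]
  push_cast; module

/-- The operator D = De d_r - i K. -/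
def D (M a om m : ℝ) (y : ℝ → S) (r : ℝ) : S :=
  (De M a r : ℂ) • deriv y r - (K a r om m : ℂ) • I • y r

theorem sm_D (h : A.Is) (hy : A.Sm y) (M a om m : ℝ) : A.Sm (D M a om m y) :=
  ((h.sm_deriv hy).smul (cd_C (cd_De M a))).sub ((hy.cmul I).smul (cd_C (cd_K a om m)))

theorem md_D (h : A.Is) {m : ℝ} (hy : A.Md m y) (M a om m' : ℝ) : A.Md m (D M a om m' y) :=
  ⟨sm_D h hy.1 M a om m', fun r => by
    simp only [D, map_sub, map_smul, hy.2, (h.md_deriv hy).2]; module⟩

theorem deriv_D (h : A.Is) (hy : A.Sm y) (M a om m r : ℝ) : deriv (D M a om m y) r =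
    D M a om m (deriv y) r + ((2 * r - 2 * M : ℝ) : ℂ) • deriv y r -
      ((2 * r * om : ℝ) : ℂ) • I • y r := by
  have : HasDerivAt (D M a om m y) _ r :=
    ((der_De M a r).ofReal_comp.smul ((h.sm_deriv hy).has r)).sub
      ((der_K a om m r).ofReal_comp.smul ((hy.has r).const_smul I))
  rw [this.deriv, D]
  module

/-- The commutation of D with the operators. -/
theorem P_D (h : A.Is) (hy : A.Sm y) (s k M a om m r : ℝ) :
    A.P (s + 1) k M a om m (D M a om m y) r = D M a om m (A.P s k M a om m y) r +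
      ((2 * ka M a r om m : ℝ) : ℂ) • I • deriv y r - ((4 * s * (M ^ 2 - a ^ 2) : ℝ) : ℂ) • deriv y r +
      ((2 * s * (om * r * (2 * r - 2 * M) - K a r om m - 2 * om * De M a r) : ℝ) : ℂ) • I • y r := by
  have h1 := h.sm_deriv hy
  have c1 : HasDerivAt (fun t : ℝ => 2 * t - 2 * M) 2 r := by
    simpa using ((hasDerivAt_id r).const_mul 2).sub_const (2 * M)
  have c2 : HasDerivAt (fun t : ℝ => 2 * t * om) (2 * om) r := by
    simpa using ((hasDerivAt_id r).const_mul 2).mul_const om
  have e1 : deriv (D M a om m y) = _ := funext (deriv_D h hy M a om m)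
  have e2 : deriv (deriv (D M a om m y)) r = deriv (D M a om m (deriv y)) r +
      (((2 * r - 2 * M : ℝ) : ℂ) • deriv (deriv y) r + ((2 : ℝ) : ℂ) • deriv y r) -
      (((2 * r * om : ℝ) : ℂ) • I • deriv y r + ((2 * om : ℝ) : ℂ) • I • y r) := by
    rw [e1]
    exact ((((sm_D h h1 M a om m).has r).add (c1.ofReal_comp.smul (h1.has r))).sub
      (c2.ofReal_comp.smul ((hy.has r).const_smul I))).deriv
  rw [P_real, e2, deriv_D h h1, deriv_D h hy]
  simp only [D, dP h hy, P_real, map_sub, map_smul, ka_eq, smul_add, smul_sub, smul_smul]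
  simp only [K, De]
  push_cast
  match_scalars <;> ring_nf

/-- The multiplier. -/
def X (b ch h : ℝ) (u u1 : S) : S :=
  ((2 * b : ℝ) : ℂ) • u1 - ((2 * ch : ℝ) : ℂ) • I • u + (h : ℂ) • u

/-- The current of the multiplier 2 b u' - 2 i ch u + h u for the operator of spin t. -/
theorem cur3 (hA : A.Is) (hu : A.Sm u) (t k M a om m : ℝ) {r : ℝ} {b ch h : ℝ → ℝ} {b1 ch1 h1 : ℝ}
    (hb : HasDerivAt b b1 r) (hc : HasDerivAt ch ch1 r) (hh : HasDerivAt h h1 r) :
    HasDerivAt (fun x => b x * De M a x * ‖deriv u x‖ ^ 2 - b x * ell A k a om m (u x) +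
      b x * (t ^ 2 - t) * ‖u x‖ ^ 2 -
      2 * ch x * (De M a x * ri (I • u x) (deriv u x) - K a x om m * ‖u x‖ ^ 2) +
      h x * De M a x * ri (u x) (deriv u x))
      (ri (X (b r) (ch r) (h r) (u r) (deriv u r)) (A.P t k M a om m u r) +
        ((b1 * De M a r - b r * (1 - 2 * t) * (2 * r - 2 * M) + h r * De M a r) * ‖deriv u r‖ ^ 2 +
        (h r - b1) * ell A k a om m (u r) +
        2 * (b r * (2 * om * r * (1 - 2 * t)) - ch1 * De M a r - ch r * t * (2 * r - 2 * M) -
          h r * K a r om m) * ri (I • u r) (deriv u r) +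
        ((b1 - h r) * (t ^ 2 - t) + 2 * ch1 * K a r om m + 8 * t * om * r * ch r) * ‖u r‖ ^ 2 +
        (h1 * De M a r + h r * t * (2 * r - 2 * M)) * ri (u r) (deriv u r))) r := by
  have d1 := hu.has r
  have d2 := (hA.sm_deriv hu).has r
  have dD := der_De M a r
  have dj : HasDerivAt (fun x => ri (I • u x) (deriv u x)) _ r := der_ri (d1.const_smul I) d2
  have := (((((hb.mul dD).mul (der_sq d2)).sub (hb.mul (der_ell hA hu k a om m r))).add
    ((hb.mul_const (t ^ 2 - t)).mul (der_sq d1))).sub ((hc.const_mul 2).mul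
    ((dD.mul dj).sub ((der_K a om m r).mul (der_sq d1))))).add ((hh.mul dD).mul (der_ri d1 d2))
  refine this.congr_deriv ?_
  simp only [X, P_real, ri_sub, ri_add, ri_real, ri_sub_l, ri_add_l, ri_real_l, ri_II, ri_I_self,
    ri_I_lop hA, ri_self, Pi.mul_apply, Pi.sub_apply, ell, ri_I (u r), ri_I (deriv u r),
    ri_comm (I • deriv u r) (u r), ri_comm (deriv u r) (u r), norm_I]
  ring

end Vale.Agent.P354RP
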