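import Vale.Agent.P354RP.Blk

/-!
The left sides and the terms of lower order in terms of the bulks of the three levels.
-/

open scoped ContDiff InnerProductSpace
open Complex (I)
open Set MeasureTheory intervalIntegral Filter Topology
open Vale.Agent.P354BF Vale.Agent.P354XN Vale.Agent.P354XT
open Vale.Agent.P354XH (K ka)
open Vale.Agent.P354RM (cd_der V cont_V V_nonneg Wn_nonneg cont_Wn cont_d1)
open Vale.Agent.P354M0 (cont_D)
open Vale.Agent.P354ME (d1_nonneg)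

noncomputable section

namespace Vale.Agent.P354RP

theorem rec3 {M0 a0 x2 x3 x4 y4 y3 y2 : ℝ} (ha : |a0| < M0) (h1 : rp M0 a0 < x2) (h2 : x2 < x3)
    (h3 : x3 < x4) (h4 : x4 ≤ y4) (h5 : y4 < y3) (h6 : y3 < y2) : ∃ C dl : ℝ, 0 ≤ C ∧ 0 < dl ∧
    ∀ M a : ℝ, |M - M0| < dl → |a - a0| < dl →
    ∀ (S : Type) [NormedAddCommGroup S] [InnerProductSpace ℂ S] (G : Ang S), G.Is → |G.s| = 2 →
    ∀ (j : ℕ) (om m : ℝ) (v : ℝ → S), G.Md m v → ∀ p0 p1 p2 p3 q0 q q3 : ℝ, p0 ≤ x2 → p1 ≤ x2 →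
      p2 ≤ x3 → p3 ≤ x2 → y2 ≤ q0 → y2 ≤ q → y2 ≤ q3 →
      (∫ r in x4..y4, lam om m ^ (j + 4) * d1 G om m v r) ≤
        C * ((∫ r in p1..q, lam om m ^ (j + 3) * ‖D M a om m (deriv v) r‖ ^ 2) +
          (∫ r in p0..q0, lam om m ^ (j + 2) * d1 G om m (deriv (deriv v)) r) +
          (∫ r in p2..q, lam om m ^ (j + 4) * ‖D M a om m v r‖ ^ 2) +
          ∫ r in p3..q3, Lo G j om m v (G.P 2 G.s M a om m v) r) := by
  obtain ⟨C, dl, c0, d0, H⟩ := rec2 ha h1 h2 h3 h4 h5 h6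
  refine ⟨C, dl, c0, d0, fun M a hM ha' S _ _ G hG hs j om m v hv p0 p1 p2 p3 q0 q q3 e0 e1 e2 e3
    f0 f1 f3 => (H M a hM ha' S G hG hs j om m v hv).trans ?_⟩
  have l0 := lam_pos om m
  have hy := hG.sm_deriv hv.1
  have k4 := cont_D hv.1.cd M a om m
  have k5 := cont_D hy.cd M a om m
  have k10 := cont_d1 (om := om) (m := m) (hG.sm_deriv hy)
  have xy : x2 ≤ y2 := by linarith
  exact mul_le_mul_of_nonneg_left (add_le_add (add_le_add (add_le_add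
    (int_sub (by fun_prop) (fun r _ => by positivity) e1 xy f1)
    (int_sub (by fun_prop) (fun r _ => mul_nonneg (by positivity) (d1_nonneg _ _ _ _)) e0 xy f0))
    (int_sub (by fun_prop) (fun r _ => by positivity) e2 (by linarith) (h6.le.trans f1)))
    (int_sub (cont_Lo hG hv.1 (hG.sm_P hv.1 2 G.s M a om m)).continuousOn (fun r _ => Lo_nonneg)
      e3 xy f3)) c0

theorem D_ud {S : Type} [NormedAddCommGroup S] [InnerProductSpace ℂ S] {z : ℝ → S}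
    (hz : ContDiff ℝ ∞ z) (n : ℕ) (M a om m : ℝ) {p q : ℝ} (h : p ≤ q) :
    ∫ r in p..q, lam om m ^ n * ‖D M a om m z r‖ ^ 2 ≤ ∫ r in p..q, lam om m ^ n * ud M a om m z r := by
  have l0 := lam_pos om m
  have k1 := cont_D hz M a om m
  have k2 := cont_ud (M := M) (a := a) (om := om) (m := m) hz
  exact integral_mono_on h (Continuous.intervalIntegrable (by fun_prop) _ _)
    (Continuous.intervalIntegrable (by fun_prop) _ _) fun r _ =>
      mul_le_mul_of_nonneg_left (le_add_of_nonneg_right (by positivity)) (by positivity)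

/-- The two left sides. -/
theorem lhs {M0 a0 x2 x3 r1 q2 q2' q3' R0 : ℝ} (h0 : a0 ≠ 0) (ha : |a0| < M0) (h1 : rp M0 a0 < x2)
    (h2 : x2 < x3) (h3 : x3 < r1) (h4 : r1 ≤ q2) (h5 : q2 < q2') (h6 : q2' ≤ q3') (h7 : q3' + 2 ≤ R0)
    (e1 e2 : ℝ) : ∃ C dl : ℝ, 0 ≤ C ∧ 0 < dl ∧ ∀ M a : ℝ, |M - M0| < dl → |a - a0| < dl →
    ∀ (S : Type) [NormedAddCommGroup S] [InnerProductSpace ℂ S] (G : Ang S), G.Is → |G.s| = 2 →
    ∀ (j : ℕ) (om m : ℝ) (v : ℝ → S), G.Md m v → ∀ r0 R1 : ℝ, r0 ≤ x2 → 4 * R0 ≤ R1 →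
      ((∫ r in r1..q2, lam om m ^ (j + 4) * d1 G om m v r) +
        (∫ r in (q3' + 2)..(3 * R0), lam om m ^ (j + 4) * d1 G om m v r) +
        (∫ r in r1..(3 * R0), lam om m ^ (j + 3) * d1 G om m v r) ≤
        C * (T1 (j + 3) a0 e1 M a om m x2 (5 * R1 / 4) (deriv v) + T1 (j + 4) a0 e2 M a om m x3 R1 v +
          ((∫ r in rp M0 a0..q2', lam om m ^ (j + 2) * d1 G om m (deriv (deriv v)) r) +
            ∫ r in q3'..(4 * R0), lam om m ^ (j + 2) * d1 G om m (deriv (deriv v)) r) +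
          ∫ r in r0..(2 * R1), Lo G j om m v (G.P 2 G.s M a om m v) r)) ∧
      (∫ r in r1..(3 * R0), lam om m ^ (j + 4) * d1 G om m v r) ≤
        C * ((∫ r in x2..(4 * R0), lam om m ^ (j + 3) * ‖D M a om m (deriv v) r‖ ^ 2) +
          (∫ r in rp M0 a0..(4 * R0), lam om m ^ (j + 2) * d1 G om m (deriv (deriv v)) r) +
          (∫ r in x3..(4 * R0), lam om m ^ (j + 4) * ‖D M a om m v r‖ ^ 2) +
          ∫ r in r0..(2 * R1), Lo G j om m v (G.P 2 G.s M a om m v) r) := by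
  have rp0 : 0 < rp M0 a0 := ((abs_nonneg _).trans_lt ha).trans (P354XH.rp_gt ha)
  have x0 : 0 < x2 := rp0.trans h1
  have R2 : 2 ≤ R0 := by linarith
  obtain ⟨C1, d1', c1, p1, H1⟩ := rec3 (y3 := (q2 + q2') / 2) (y2 := q2') ha h1 h2 h3 h4 (by linarith)
    (by linarith)
  obtain ⟨C2, d2, c2, p2, H2⟩ := rec3 (x2 := q3') (x3 := q3' + 1) (x4 := q3' + 2) (y4 := 3 * R0)
    (y3 := 7 * R0 / 2) (y2 := 4 * R0) ha (by linarith) (by linarith) (by linarith) (by linarith)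
    (by linarith) (by linarith)
  obtain ⟨C3, d3, c3, p3, H3⟩ := rec1 (y4 := 3 * R0) (y3 := 4 * R0) ha (h1.trans h2) h3 (by linarith)
    (by linarith)
  obtain ⟨C4, d4, c4, p4, H4⟩ := rec3 (y4 := 3 * R0) (y3 := 7 * R0 / 2) (y2 := 4 * R0) ha h1 h2 h3
    (by linarith) (by linarith) (by linarith)
  obtain ⟨E1, a1, A1⟩ := cmp1 (Z := 4 * R0) h0 e1 x0 (by linarith)
  obtain ⟨E2, a2, A2⟩ := cmp1 (Z := 4 * R0) h0 e2 x0 (by linarith)
  refine ⟨(C1 + C2 + C3) * (1 + E1 + E2) + C4, min (min d1' d2) (min d3 d4), by positivity,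
    lt_min (lt_min p1 p2) (lt_min p3 p4), fun M a hM ha' S _ _ G hG hs j om m v hv r0 R1 hr hR => ?_⟩
  simp only [lt_min_iff] at hM ha'
  have l0 := lam_pos om m
  have hy := hG.sm_deriv hv.1
  have b1 := H1 M a hM.1.1 ha'.1.1 S G hG hs j om m v hv (rp M0 a0) x2 x3 r0 q2' (4 * R0) (2 * R1)
    h1.le le_rfl le_rfl hr le_rfl (by linarith) (by linarith)
  have b2 := H2 M a hM.1.2 ha'.1.2 S G hG hs j om m v hv q3' x2 x3 r0 (4 * R0) (4 * R0) (2 * R1)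
    le_rfl (by linarith) (by linarith) (by linarith) le_rfl le_rfl (by linarith)
  have b3 := (H3 M a hM.2.1 ha'.2.1 S G hG hs j om m v hv).trans (mul_le_mul_of_nonneg_left
    (int_sub (cont_Lo hG hv.1 (hG.sm_P hv.1 2 G.s M a om m)).continuousOn (fun r _ => Lo_nonneg)
      (hr.trans h2.le) (by linarith) (by linarith : 4 * R0 ≤ 2 * R1)) c3)
  have b4 := H4 M a hM.2.2 ha'.2.2 S G hG hs j om m v hv (rp M0 a0) x2 x3 r0 (4 * R0) (4 * R0)
    (2 * R1) h1.le le_rfl le_rfl hr le_rfl le_rfl (by linarith)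
  have u1 := (D_ud hy.cd (j + 3) M a om m (by linarith : x2 ≤ 4 * R0)).trans (A1 S (j + 3) M a om m
    x2 x2 (4 * R0) (5 * R1 / 4) _ hy.cd le_rfl le_rfl (by linarith) (by linarith) le_rfl)
  have u2 := (D_ud hv.1.cd (j + 4) M a om m (by linarith : x3 ≤ 4 * R0)).trans (A2 S (j + 4) M a om m
    x3 x3 (4 * R0) R1 _ hv.1.cd h2.le le_rfl (by linarith) hR le_rfl)
  have t1 : 0 ≤ T1 (j + 3) a0 e1 M a om m x2 (5 * R1 / 4) (deriv v) :=
    integral_nonneg (by linarith) fun r hr => nn1 h0 (x0.trans_le hr.1)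
  have t2 : 0 ≤ T1 (j + 4) a0 e2 M a om m x3 R1 v :=
    integral_nonneg (by linarith) fun r hr => nn1 h0 ((x0.trans h2).trans_le hr.1)
  have nn : ∀ p q : ℝ, p ≤ q → 0 ≤ ∫ r in p..q, lam om m ^ (j + 2) * d1 G om m (deriv (deriv v)) r :=
    fun p q h => integral_nonneg h fun r _ => mul_nonneg (by positivity) (d1_nonneg _ _ _ _)
  have t3 := nn (rp M0 a0) q2' (by linarith)
  have t4 := nn q3' (4 * R0) (by linarith)
  have t5 : 0 ≤ ∫ r in r0..(2 * R1), Lo G j om m v (G.P 2 G.s M a om m v) r :=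
    integral_nonneg (by linarith) fun r _ => Lo_nonneg
  have t6 := nn (rp M0 a0) (4 * R0) (by linarith)
  have t7 : 0 ≤ ∫ r in x2..(4 * R0), lam om m ^ (j + 3) * ‖D M a om m (deriv v) r‖ ^ 2 :=
    integral_nonneg (by linarith) fun r _ => by positivity
  have t8 : 0 ≤ ∫ r in x3..(4 * R0), lam om m ^ (j + 4) * ‖D M a om m v r‖ ^ 2 :=
    integral_nonneg (by linarith) fun r _ => by positivity
  refine ⟨(add_le_add (add_le_add b1 b2) b3).trans ?_, b4.trans (mul_le_mul_of_nonneg_right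
    (le_add_of_nonneg_left (by positivity)) (by positivity))⟩
  generalize T1 (j + 3) a0 e1 M a om m x2 (5 * R1 / 4) (deriv v) = T at *
  generalize T1 (j + 4) a0 e2 M a om m x3 R1 v = T' at *
  generalize (∫ r in r0..(2 * R1), Lo G j om m v (G.P 2 G.s M a om m v) r) = L at *
  generalize (∫ r in rp M0 a0..q2', lam om m ^ (j + 2) * d1 G om m (deriv (deriv v)) r) = N at *
  generalize (∫ r in q3'..(4 * R0), lam om m ^ (j + 2) * d1 G om m (deriv (deriv v)) r) = N' at *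
  generalize (∫ r in x2..(4 * R0), lam om m ^ (j + 3) * ‖D M a om m (deriv v) r‖ ^ 2) = W at *
  generalize (∫ r in x3..(4 * R0), lam om m ^ (j + 4) * ‖D M a om m v r‖ ^ 2) = W' at *
  have s : W + W' + (N + N') + L ≤ (1 + E1 + E2) * (T + T' + (N + N') + L) := by
    linarith only [u1, u2, t1, t2, mul_nonneg a1 (by positivity : 0 ≤ T' + (N + N') + L),
      mul_nonneg a2 (by positivity : 0 ≤ T + (N + N') + L)]
  linarith only [mul_le_mul_of_nonneg_left s (by positivity : 0 ≤ C1 + C2 + C3), mul_nonneg c1 t4,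
    mul_nonneg c2 t3, mul_nonneg c3 (by positivity : 0 ≤ W + W' + (N + N')),
    mul_nonneg c4 (by positivity : 0 ≤ T + T' + (N + N') + L)]

/-- The terms of lower order of the bulk estimate. -/
theorem loB {M0 a0 x2 x3 r1 q1 q4 R0 ε : ℝ} (h0 : a0 ≠ 0) (ha : |a0| < M0) (h1 : rp M0 a0 < x2)
    (h2 : x2 < x3) (h3 : x3 < r1) (h4 : r1 < q1) (h5 : q1 ≤ q4) (h6 : q4 < R0) (h7 : 1 ≤ R0)
    (hε : 0 < ε) (e1 e2 : ℝ) : ∃ C dl : ℝ, 0 ≤ C ∧ 0 < dl ∧ ∀ M a : ℝ, |M - M0| < dl →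
    |a - a0| < dl → ∀ (S : Type) [NormedAddCommGroup S] [InnerProductSpace ℂ S] (G : Ang S), G.Is →
    ∀ (j : ℕ) (om m : ℝ) (v H : ℝ → S), G.Sm v → G.Sm H → ∀ r0 R1 : ℝ, r0 ≤ r1 → R0 ≤ R1 →
      ∫ r in r0..(2 * R1), Lo G j om m v H r ≤
        ε * (T0 (j + 2) M a om m (rp M0 a0) (3 * R1 / 2) (deriv (deriv v)) +
          T1 (j + 3) a0 e1 M a om m x2 (5 * R1 / 4) (deriv v) + T1 (j + 4) a0 e2 M a om m x3 R1 v) +
        C * ((∫ r in r0..q1, Wn G om m (j + 4) v r) + (∫ r in q4..(2 * R1), Wn G om m (j + 4) v r) +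
          ∫ r in r0..(2 * R1), (Wn G om m (j + 3) v r + Wn G om m (j + 3) H r)) := by
  have rp0 : 0 < rp M0 a0 := ((abs_nonneg _).trans_lt ha).trans (P354XH.rp_gt ha)
  have x0 : 0 < x2 := rp0.trans h1
  obtain ⟨E1, a1, A1⟩ := cmp1 h0 e1 x0 h7
  obtain ⟨E2, a2, A2⟩ := cmp1 h0 e2 x0 h7
  have z0 : 0 < R0 ^ 6 + E1 + E2 := by positivity
  obtain ⟨C, dl, c0, d0, A⟩ := unc3 h0 ha (h1.trans (h2.trans h3)) h4 h5 h6 (div_pos hε z0)
  refine ⟨1 + C, dl, by positivity, d0, fun M a hM ha' S _ _ G hG j om m v H hv hH r0 R1 hr hR => ?_⟩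
  have l0 := lam_pos om m
  have hy := hG.sm_deriv hv
  have hu := hG.sm_deriv hy
  have rR : r1 ≤ R0 := by linarith
  have u0 := cmp0 (n := j + 2) (M := M) (a := a) (om := om) (m := m) hu.cd rp0
    (h1.trans (h2.trans h3)).le rR (by linarith : R0 ≤ 3 * R1 / 2) le_rfl h7
  have u1 := A1 S (j + 3) M a om m x2 r1 R0 (5 * R1 / 4) _ hy.cd le_rfl (h2.trans h3).le rR
    (by linarith) le_rfl
  have u2 := A2 S (j + 4) M a om m x3 r1 R0 R1 _ hv.cd h2.le h3.le rR hR le_rfl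
  have t0 : 0 ≤ T0 (j + 2) M a om m (rp M0 a0) (3 * R1 / 2) (deriv (deriv v)) :=
    integral_nonneg (by linarith) fun r _ => by positivity
  have t1 : 0 ≤ T1 (j + 3) a0 e1 M a om m x2 (5 * R1 / 4) (deriv v) :=
    integral_nonneg (by linarith) fun r hr => nn1 h0 (x0.trans_le hr.1)
  have t2 : 0 ≤ T1 (j + 4) a0 e2 M a om m x3 R1 v :=
    integral_nonneg (by linarith) fun r hr => nn1 h0 ((x0.trans h2).trans_le hr.1)
  have k1 := cont_V (om := om) (m := m) hv.cd 2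
  have k2 := cont_Wn (om := om) (m := m) hG hv (j + 3)
  have k3 := cont_Wn (om := om) (m := m) hG hH (j + 3)
  have k4 := cont_Wn (om := om) (m := m) hG hv (j + 4)
  have k5 : Continuous fun r => lam om m ^ (j + 2) * V om m 2 v r := by fun_prop
  have w : ∀ p q : ℝ, p ≤ q → ∫ r in p..q, lam om m ^ (j + 2) * V om m 2 v r ≤
      ∫ r in p..q, Wn G om m (j + 4) v r := fun p q h =>
    integral_mono_on h (k5.intervalIntegrable _ _) (k4.intervalIntegrable _ _) fun r _ =>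
      V2_Wn hG hv (j + 1)
  have w3 : ∫ r in r1..R0, Wn G om m (j + 3) v r ≤
      ∫ r in r0..(2 * R1), (Wn G om m (j + 3) v r + Wn G om m (j + 3) H r) :=
    nest hr rR (by linarith) k2.continuousOn (k2.add k3).continuousOn
      (fun r _ => add_nonneg (Wn_nonneg _) (Wn_nonneg _)) fun r _ =>
        le_add_of_nonneg_right (Wn_nonneg _)
  have n1 : 0 ≤ ∫ r in r0..q1, Wn G om m (j + 4) v r :=
    integral_nonneg (by linarith) fun r _ => Wn_nonneg _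
  have n2 : 0 ≤ ∫ r in q4..(2 * R1), Wn G om m (j + 4) v r :=
    integral_nonneg (by linarith) fun r _ => Wn_nonneg _
  have b := (A M a hM ha' S G hG j om m v hv).trans (add_le_add (mul_le_mul_of_nonneg_left
    (add_le_add (add_le_add u0 u1) u2) (div_pos hε z0).le) (mul_le_mul_of_nonneg_left w3 c0))
  simp only [Lo]
  rw [P354M0.int_add (g := fun r => Wn G om m (j + 3) v r + Wn G om m (j + 3) H r) k5 (k2.add k3),
    ← integral_add_adjacent_intervals (k5.intervalIntegrable r0 q1)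
    (k5.intervalIntegrable q1 _), ← integral_add_adjacent_intervals (k5.intervalIntegrable q1 q4)
    (k5.intervalIntegrable q4 _)]
  refine (add_le_add (add_le_add (w r0 q1 (by linarith)) (add_le_add b (w q4 _ (by linarith))))
    le_rfl).trans ?_
  generalize T0 (j + 2) M a om m (rp M0 a0) (3 * R1 / 2) (deriv (deriv v)) = T at *
  generalize T1 (j + 3) a0 e1 M a om m x2 (5 * R1 / 4) (deriv v) = T' at *
  generalize T1 (j + 4) a0 e2 M a om m x3 R1 v = T'' at *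
  have s : ε / (R0 ^ 6 + E1 + E2) * (R0 ^ 6 * T + E1 * T' + E2 * T'') ≤ ε * (T + T' + T'') := by
    rw [div_mul_eq_mul_div, div_le_iff₀ z0, mul_assoc]
    refine mul_le_mul_of_nonneg_left ?_ hε.le
    linarith only [mul_nonneg (by positivity : 0 ≤ R0 ^ 6) (add_nonneg t1 t2),
      mul_nonneg a1 (add_nonneg t0 t2), mul_nonneg a2 (add_nonneg t0 t1)]
  linarith only [s, mul_nonneg c0 n1, mul_nonneg c0 n2]

theorem finB {X T0 T1 T2 N P0 P1 P2 g L L1 K A0 A1 A2 E0 F0 c1 C1 F1 c2 C2 F2 F3 ε : ℝ}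
    (b0 : T0 + N ≤ -P0 + E0 * g + F0 * L) (b1 : c1 * T1 ≤ -P1 + C1 * T0 + C1 * g + F1 * L)
    (b2 : c2 * T2 ≤ -P2 + C2 * T1 + C2 * g + F2 * L) (hX : X ≤ K * (T1 + T2 + N + L))
    (hL : L ≤ ε * (T0 + T1 + T2) + F3 * L1) (t0 : 0 ≤ T0) (t1 : 0 ≤ T1) (t2 : 0 ≤ T2) (n0 : 0 ≤ N)
    (a0 : 0 ≤ A0) (a1 : 0 ≤ A1) (a2 : 0 ≤ A2) (k0 : 0 ≤ K) (h2 : K + 1 ≤ A2 * c2)
    (h1 : K + 1 + A2 * C2 ≤ A1 * c1) (h0 : K + 1 + A1 * C1 ≤ A0) (h3 : K ≤ A0)
    (f0 : 0 ≤ A0 * F0 + A1 * F1 + A2 * F2 + K) (hε : (A0 * F0 + A1 * F1 + A2 * F2 + K) * ε ≤ 1) :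
    X ≤ -(A0 * P0 + A1 * P1 + A2 * P2) + (A0 * E0 + A1 * C1 + A2 * C2) * g +
      (A0 * F0 + A1 * F1 + A2 * F2 + K) * F3 * L1 := by
  linarith only [mul_le_mul_of_nonneg_left b0 a0, mul_le_mul_of_nonneg_left b1 a1,
    mul_le_mul_of_nonneg_left b2 a2, hX, mul_le_mul_of_nonneg_left hL f0,
    mul_le_mul_of_nonneg_right hε (add_nonneg (add_nonneg t0 t1) t2), mul_le_mul_of_nonneg_right h2 t2,
    mul_le_mul_of_nonneg_right h1 t1, mul_le_mul_of_nonneg_right h0 t0,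
    mul_le_mul_of_nonneg_right h3 n0, mul_nonneg k0 t0]

theorem finE {X N W1 W2 P0 P1 P2 L E K A0 A1 A2 F0 c1 F1 c2 F2 : ℝ} (b0 : N ≤ -P0 + F0 * E)
    (b1 : c1 * W1 ≤ -P1 + F1 * E) (b2 : c2 * W2 ≤ -P2 + F2 * E) (hX : X ≤ K * (W1 + N + W2 + L))
    (hL : L ≤ 2 * E) (t1 : 0 ≤ W1) (t2 : 0 ≤ W2) (n0 : 0 ≤ N) (a0 : 0 ≤ A0) (a1 : 0 ≤ A1)
    (a2 : 0 ≤ A2) (k0 : 0 ≤ K) (h2 : K ≤ A2 * c2) (h1 : K ≤ A1 * c1) (h0 : K ≤ A0) :
    X ≤ -(A0 * P0 + A1 * P1 + A2 * P2) + (A0 * F0 + A1 * F1 + A2 * F2 + 2 * K) * E := by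
  linarith only [mul_le_mul_of_nonneg_left b0 a0, mul_le_mul_of_nonneg_left b1 a1,
    mul_le_mul_of_nonneg_left b2 a2, hX, mul_le_mul_of_nonneg_left hL k0,
    mul_le_mul_of_nonneg_right h2 t2, mul_le_mul_of_nonneg_right h1 t1,
    mul_le_mul_of_nonneg_right h0 n0]

theorem big {c c' : ℝ} (hc : 0 < c) (hc' : 0 < c') (x : ℝ) (hx : 0 ≤ x) :
    ∃ A, 0 ≤ A ∧ x ≤ A * c ∧ x ≤ A * c' :=
  ⟨x / c + x / c', by positivity, by
    rw [add_mul, div_mul_cancel₀ _ hc.ne']; exact le_add_of_nonneg_right (by positivity), by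
    rw [add_mul, div_mul_cancel₀ _ hc'.ne']; exact le_add_of_nonneg_left (by positivity)⟩

end Vale.Agent.P354RP
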