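import Vale.Agent.P354RP.Eng
import Vale.Agent.P354RP.Fin
import Vale.Agent.P354M0.Main

/-!
The estimates at one real frequency for the spin 2.
-/

open scoped ContDiff InnerProductSpace
open Complex (I)
open Set MeasureTheory intervalIntegral Filter Topology
open Vale.Agent.P354BF Vale.Agent.P354XN Vale.Agent.P354XT
open Vale.Agent.P354RM (cd_der Wn_nonneg cd_Nc Oks tsc tcp pair_app pair_sc pair_cp)
open Vale.Agent.P354M0 (MODE0)
open Vale.Agent.P354ME (d1_nonneg)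

noncomputable section

namespace Vale.Agent.P354RP

/-- The multiplier. -/
def lT (l0 l1 l2 : List Tm) (A0 A1 A2 : ℝ) : List Tm :=
  ((l0.map (tcp (.R (.R .one)) (.R (.R .one)))).map (tsc A0) ++ l1.map (tsc A1)) ++ l2.map (tsc A2)

theorem oks_lT {l0 l1 l2 : List Tm} {n : ℕ} {x y : ℝ} (h0 : Oks l0 n x y) (h1 : Oks l1 (n + 2) x y)
    (h2 : Oks l2 (n + 2) x y) (A0 A1 A2 : ℝ) : Oks (lT l0 l1 l2 A0 A1 A2) (n + 2) x y :=
  (((h0.cp (e := .R (.R .one)) (e' := .R (.R .one)) trivial trivial le_rfl le_rfl).sc A0).app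
    (h1.sc A1)).app (h2.sc A2)

theorem pair_lT {S : Type} [NormedAddCommGroup S] [InnerProductSpace ℂ S] (l0 l1 l2 : List Tm)
    (A0 A1 A2 M a om m x y : ℝ) (H v : ℝ → S) : pair (lT l0 l1 l2 A0 A1 A2) M a om m x y H v =
      A0 * pair l0 M a om m x y (deriv (deriv H)) (deriv (deriv v)) + A1 * pair l1 M a om m x y H v +
        A2 * pair l2 M a om m x y H v := by
  rw [lT, pair_app, pair_app, pair_sc, pair_sc, pair_sc, pair_cp]; rfl

theorem mode_of (h : MODE0) : MODE true := by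
  intro M0 a0 rm h0 ha f hf γ hγ hγ1
  obtain ⟨n, rb, q2', q3', Rs', hn, b1, b2, b3, b4, b5, H0⟩ := h M0 a0 rm h0 ha f hf
  obtain ⟨j, rfl⟩ : ∃ j, n = j + 2 := ⟨n - 2, by omega⟩
  have rp0 : 0 < rp M0 a0 := ((abs_nonneg _).trans_lt ha).trans (P354XH.rp_gt ha)
  obtain ⟨q2, b6, b7⟩ := exists_between b3
  obtain ⟨q1, b8, b9⟩ := exists_between b6
  refine ⟨j + 4, rb, q1, q2, q3' + 2, q3' + 3, Rs' + 4, by omega, b1, b2, b8, b9, by linarith,
    by linarith, by linarith, fun r0 r1 R0 g1 g2 g3 g4 g5 eH he => ?_⟩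
  obtain ⟨x3, s3, s4⟩ := exists_between g3
  obtain ⟨x2, s2, s3⟩ := exists_between s3
  obtain ⟨x1, s1, s2'⟩ := exists_between s2
  obtain ⟨E0, e0, H0⟩ := H0 r0 R0 g1 g2 (by linarith)
  obtain ⟨K, dK, k0, pK, HK⟩ := lhs (R0 := R0) h0 ha s2 s3 s4 (g4.trans b9).le b7 b4 (by linarith)
    (γ / 2 - (3 + 2 * 1)) (γ / 2 - (3 + 2 * 2))
  obtain ⟨c1, C1, p1, C1', H1⟩ := blk1 h0 ha hγ hγ1 s1 s2' j
  obtain ⟨c2, C2, p2, C2', H2⟩ := blk2 h0 ha hγ hγ1 s2 s3 j
  obtain ⟨c3, p3, H3⟩ := engK (y0 := 4 * R0) (s := 1) h0 ha hf s1 s2' (by linarith) (d := .R .one)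
    trivial (i := 2) (i' := 0) le_rfl rfl (by norm_num) (γ / 2 - (3 + 2 * 1)) j
  obtain ⟨c4, p4, H4⟩ := engK (y0 := 4 * R0) (s := 2) h0 ha hf s2 s3 (by linarith) (d := .one)
    trivial (i := 1) (i' := 1) le_rfl rfl (by norm_num) (γ / 2 - (3 + 2 * 2)) j
  obtain ⟨A2, a2, u2, w2⟩ := big p2 p4 (K + 1) (by positivity)
  obtain ⟨A1, a1, u1, w1⟩ := big p1 p3 (K + 1 + A2 * C2) (by positivity)
  obtain ⟨A0, hA⟩ : ∃ A0, A0 = K + 1 + A1 * C1 := ⟨_, rfl⟩
  have a0' : 0 ≤ A0 := by rw [hA]; positivity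
  have kA : K ≤ A0 := by rw [hA]; linarith only [mul_nonneg a1 C1']
  refine ⟨A0 * (E0 * (4 * (1 + (|a0| + 2 + 2 * (|a0| + 2) ^ 2) ^ 2))) + A1 * C1 + A2 * C2,
    fun R1 hR => ?_⟩
  have R4 : 4 ≤ R0 := by linarith
  obtain ⟨l0, F0, d0, f0, y0, o0, H0⟩ := H0 R1 hR
  obtain ⟨F1, d1', f1, y1, H1⟩ := H1 r0 R1 (by linarith) (by linarith)
  obtain ⟨F2, d2, f2, y2, H2⟩ := H2 r0 R1 (by linarith) (by linarith)
  obtain ⟨F3, d3, f3, y3, H3⟩ := H3 (5 * R1 / 4) (3 * R1 / 2) r0 (2 * R1) (by linarith) (by linarith)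
    (by linarith) (by linarith) (by linarith)
  obtain ⟨F4, d4, f4, y4, H4⟩ := H4 R1 (5 * R1 / 4) r0 (2 * R1) hR (by linarith)
    (by linarith) (by linarith) (by linarith)
  obtain ⟨F5, f5, H5⟩ := eng0 hf.sm M0 a0 (by linarith : r0 ≤ 2 * R1)
  obtain ⟨F, hF⟩ : ∃ F, F = A0 * (E0 * (4 * (245 + 4 * (2 * R1) ^ 2)) + 9 * F0) + A1 * F1 + A2 * F2 +
    K := ⟨_, rfl⟩
  have F' : 0 ≤ F := by rw [hF]; positivity
  obtain ⟨F6, d6, f6, y6, H6⟩ := loB (q4 := q3' + 3) (R0 := R0) (ε := 1 / (F + 1)) h0 ha s2 s3 s4 g4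
    (by linarith) (by linarith) (by linarith) (by positivity) (γ / 2 - (3 + 2 * 1))
    (γ / 2 - (3 + 2 * 2))
  refine ⟨lT l0 (lK a0 (γ / 2 - (3 + 2 * 1)) x1 x2 (5 * R1 / 4) (3 * R1 / 2) (.R .one) (j + 2))
    (lK a0 (γ / 2 - (3 + 2 * 2)) x2 x3 R1 (5 * R1 / 4) .one (j + 3)) A0 A1 A2,
    F * F6 + (A0 * (F0 * F5) + A1 * F3 + A2 * F4 + 2 * K),
    min (min (min dK d0) (min d1' d2)) (min (min d3 d4) (min d6 1)), by positivity, oks_lT o0 ?_ ?_ _ _ _,
    fun M a hM ha' S _ _ G hG hs om m v hv => ?_⟩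
  · have := oks_lK (p := r0) (q := 2 * R1) h0 (γ / 2 - (3 + 2 * 1)) (by linarith) s2'
      (by linarith : 5 * R1 / 4 < 3 * R1 / 2) (by linarith) (d := .R .one) trivial (j + 2)
    rwa [show (Op.R .one).ord + 1 + (j + 2) = j + 2 + 2 by simp only [Op.ord]; omega] at this
  · have := oks_lK (p := r0) (q := 2 * R1) h0 (γ / 2 - (3 + 2 * 2)) (by linarith) s3
      (by linarith : R1 < 5 * R1 / 4) (by linarith) (d := .one) trivial (j + 3)
    rwa [show Op.one.ord + 1 + (j + 3) = j + 2 + 2 by simp only [Op.ord]; omega] at this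
  simp only [lt_min_iff] at hM ha'
  obtain ⟨⟨⟨mK, m0⟩, m1, m2⟩, ⟨m3, m4⟩, m6, m7⟩ := hM
  obtain ⟨⟨⟨nK, n0⟩, n1, n2⟩, ⟨n3, n4⟩, n6, n7⟩ := ha'
  have hs : G.s = 2 := hs
  have hs' : |G.s| = 2 := by rw [hs]; exact abs_two
  rw [show G.P G.s G.s = G.P 2 G.s from congrArg (fun s => G.P s G.s) hs, pair_lT, pair_lT]
  have hy := hG.md_deriv hv
  have hu := hG.md_deriv hy
  have sH := hG.sm_P hv.1 2 G.s M a om m
  have sN := cd_Nc (G := G) (M := M) (a := a) (om := om) (m := m) hf.sm hv.1.cd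
  have l0' := lam_pos om m
  obtain ⟨z1, z2, z3, -, z5⟩ := H0 M a m0 n0 S G hG hs' om m
  obtain ⟨zB, zE⟩ := HK M a mK nK S G hG hs' j om m v hv r0 R1 (by linarith) hR
  have nn : ∀ p q : ℝ, p ≤ q → 0 ≤ ∫ r in p..q, lam om m ^ (j + 2) * d1 G om m (deriv (deriv v)) r :=
    fun p q h => integral_nonneg h fun r _ => mul_nonneg (by positivity) (d1_nonneg _ _ _ _)
  have nW : ∀ (k : ℕ) (p q : ℝ), p ≤ q → 0 ≤ ∫ r in p..q, Wn G om m k v r :=
    fun k p q h => integral_nonneg h fun r _ => Wn_nonneg _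
  have nE : 0 ≤ A0 * (F0 * F5) + A1 * F3 + A2 * F4 + 2 * K := by positivity
  constructor
  · have i0 := blk0 (B := |a0| + 2) (γ := γ) hG hv.1 (by linarith [abs_nonneg a0])
      (by linarith [abs_sub_abs_le_abs_sub a a0]) hγ.le (by linarith) (by linarith) e0 f0
      ((add_assoc _ _ _).ge.trans (z1 _ hu)) (z3 _ hy.1.cd) z5
    have := finB i0 (H1 M a m1 n1 S G hG hs' om m v hv) (H2 M a m2 n2 S G hG hs' om m v hv) zB
      (H6 M a m6 n6 S G hG j om m v _ hv.1 sH r0 R1 (by linarith) (by linarith))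
      (integral_nonneg (by linarith) fun r _ => by positivity)
      (integral_nonneg (by linarith) fun r hr => nn1 h0 ((rp0.trans s2).trans_le hr.1))
      (integral_nonneg (by linarith) fun r hr => nn1 h0 ((rp0.trans (s2.trans s3)).trans_le hr.1))
      (add_nonneg (nn _ _ b3.le) (nn _ _ (by linarith))) a0' a1 a2 k0 u2 u1 hA.ge kA (hF ▸ F')
      (by rw [← hF, mul_one_div, div_le_one (by positivity)]; linarith only)
    rw [← hF] at this
    refine this.trans (add_le_add (le_add_of_nonneg_right (mul_nonneg he.le (nW _ _ _ (by linarith))))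
      (mul_le_mul_of_nonneg_right (le_add_of_nonneg_right nE) (add_nonneg (add_nonneg
        (nW _ _ _ (by linarith)) (nW _ _ _ (by linarith))) (integral_nonneg (by linarith)
          fun r _ => add_nonneg (Wn_nonneg _) (Wn_nonneg _)))))
  · have i0 := (z2 _ _ hu (cd_der (cd_der sN))).trans (add_le_add le_rfl (mul_le_mul_of_nonneg_left
      (H5 M a m7.le n7.le S G hG j om m v hv) f0))
    rw [← mul_assoc] at i0
    have i4 : ∫ r in r0..(2 * R1), Lo G j om m v (G.P 2 G.s M a om m v) r ≤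
        2 * ∫ r in r0..(2 * R1), Le G j om m v (G.P 2 G.s M a om m v) r := by
      rw [← intervalIntegral.integral_const_mul]
      exact integral_mono_on (by linarith) ((cont_Lo hG hv.1 sH).intervalIntegrable _ _)
        ((continuous_const.mul (cont_Le hG hv.1 sH)).intervalIntegrable _ _) fun r _ => Lo_Le hG hv.1
    have := finE i0 (H3 M a m3 n3 S G hG hs' om m v hv fun r => sg1 hG hv.1)
      (H4 M a m4 n4 S G hG hs' om m v hv fun r => (sg2 hG sH).trans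
        (mul_le_mul_of_nonneg_right (by norm_num) Lo_nonneg)) zE i4
      (integral_nonneg (by linarith) fun r _ => by positivity)
      (integral_nonneg (by linarith) fun r _ => by positivity) (nn _ _ (by linarith)) a0' a1 a2 k0
      (by linarith only [w2]) (by linarith only [w1, mul_nonneg a2 C2']) kA
    exact this.trans (add_le_add le_rfl (mul_le_mul_of_nonneg_right (le_add_of_nonneg_left
      (mul_nonneg F' f6)) (integral_nonneg (by linarith) fun r _ => Le_nonneg)))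

theorem mode_plus : MODE true := mode_of P354M0.mode0

end Vale.Agent.P354RP
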