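import Vale.Agent.P354RP.Ang

/-!
Pointwise estimates outside of the horizon: the two currents of the recovery.
-/

open scoped ContDiff InnerProductSpace
open Complex (I)
open Vale.Agent.P354BF Vale.Agent.P354XN
open Vale.Agent.P354XH (K ka)
open Vale.Agent.P354XT (lam)

noncomputable section

namespace Vale.Agent.P354RP

variable {S : Type} [NormedAddCommGroup S] [InnerProductSpace ℂ S] {A : Ang S}

/-- A point outside of the horizon. -/
structure Zn (B M a r : ℝ) : Prop where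
  B1 : 1 ≤ B
  aM : |a| ≤ M
  Mr : M ≤ r
  MB : M ≤ B
  rB : 1 ≤ B * r
  De0 : 0 ≤ De M a r

namespace Zn
variable {B M a r : ℝ} (h : Zn B M a r)
include h

theorem M0 : 0 ≤ M := (abs_nonneg a).trans h.aM
theorem B0 : 0 < B := one_pos.trans_le h.B1
theorem r0 : 0 < r := by
  by_contra c
  nlinarith [mul_nonneg h.B0.le (neg_nonneg.2 (not_lt.1 c)), h.rB]
theorem aB : |a| ≤ B := h.aM.trans h.MB
theorem a2 : a ^ 2 ≤ M ^ 2 := by rw [← sq_abs a]; exact pow_le_pow_left₀ (abs_nonneg a) h.aM 2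
theorem ar : a ^ 2 ≤ r ^ 2 := h.a2.trans (pow_le_pow_left₀ h.M0 h.Mr 2)
theorem De1 : De M a r ≤ r ^ 2 := by
  have := h.a2; have := mul_le_mul_of_nonneg_left h.Mr h.M0
  have := mul_nonneg h.M0 h.r0.le
  unfold De; nlinarith
theorem inv : 1 / r ≤ B := by rw [div_le_iff₀ h.r0]; exact h.rB
theorem le_r {x : ℝ} (hx : 0 ≤ x) : x ≤ B * (r * x) := by nlinarith [h.rB]

end Zn

/-- The square root of lam. -/
def La (om m : ℝ) : ℝ := √(lam om m)

theorem La_sq (om m : ℝ) : La om m ^ 2 = lam om m := Real.sq_sqrt (lam_pos om m).le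
theorem one_le_La (om m : ℝ) : 1 ≤ La om m := Real.one_le_sqrt.2 (one_le_lam om m)
theorem La_pos (om m : ℝ) : 0 < La om m := one_pos.trans_le (one_le_La om m)
theorem om_La (om m : ℝ) : |om| ≤ La om m := Real.abs_le_sqrt (om_sq om m)
theorem m_La (om m : ℝ) : |m| ≤ La om m := Real.abs_le_sqrt (m_sq om m)
theorem La_le (om m : ℝ) : La om m ≤ 1 + |om| + |m| := by
  refine Real.sqrt_le_iff.2 ⟨by positivity, ?_⟩
  rw [lam, ← sq_abs om, ← sq_abs m]
  nlinarith [abs_nonneg om, abs_nonneg m, mul_nonneg (abs_nonneg om) (abs_nonneg m)]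

variable {B M a r : ℝ}

theorem om_le2 (hA : A.Is) (h : Zn B M a r) (om m : ℝ) (u : S) :
    |om| * r ^ 2 * ‖u‖ ≤ |K a r om m| * ‖u‖ + B * ‖mu A a om m u‖ :=
  (om_le hA a r om m u).trans
    (add_le_add le_rfl (mul_le_mul_of_nonneg_right h.aB (norm_nonneg _)))

theorem om_le3 (hA : A.Is) (h : Zn B M a r) (om m : ℝ) (u : S) :
    |om| * ‖u‖ ≤ B ^ 3 * (|K a r om m| * ‖u‖ + ‖mu A a om m u‖) := by
  have e1 := h.le_r (x := |om| * ‖u‖) (by positivity)
  have e2 := h.le_r (x := r * (|om| * ‖u‖)) (by have := h.r0; positivity)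
  have e3 := om_le2 hA h om m u
  have b := h.B0
  have e4 : |K a r om m| * ‖u‖ ≤ B * (|K a r om m| * ‖u‖) :=
    le_mul_of_one_le_left (by positivity) h.B1
  calc _ ≤ B * (B * (|om| * r ^ 2 * ‖u‖)) := by nlinarith
    _ ≤ B * (B * (B * (|K a r om m| * ‖u‖) + B * ‖mu A a om m u‖)) := by gcongr; linarith
    _ = _ := by ring

theorem La_mul (hA : A.Is) (h : Zn B M a r) (om m : ℝ) (u : S) :
    La om m * ‖u‖ ≤ ‖u‖ + 3 * B ^ 4 * (|K a r om m| * ‖u‖ + ‖mu A a om m u‖) := by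
  have e1 := mul_le_mul_of_nonneg_right (La_le om m) (norm_nonneg u)
  have e2 := om_le3 hA h om m u
  have e3 := m_le hA a om m u
  have b := h.B0
  have e4 : |a| * (|om| * ‖u‖) ≤ B * (B ^ 3 * (|K a r om m| * ‖u‖ + ‖mu A a om m u‖)) :=
    mul_le_mul h.aB e2 (by positivity) b.le
  have b3 : B ^ 3 ≤ B ^ 4 := pow_le_pow_right₀ h.B1 (by norm_num)
  have b4 : 1 ≤ B ^ 4 := one_le_pow₀ h.B1
  set y := |K a r om m| * ‖u‖
  have y0 : 0 ≤ y := by positivity
  nlinarith [norm_nonneg (mu A a om m u), mul_le_mul_of_nonneg_right b3 y0,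
    mul_le_mul_of_nonneg_right b3 (norm_nonneg (mu A a om m u)),
    mul_le_mul_of_nonneg_right b4 y0, mul_le_mul_of_nonneg_right b4 (norm_nonneg (mu A a om m u))]

theorem ka_mul (hA : A.Is) (h : Zn B M a r) (om m : ℝ) (u : S) :
    |ka M a r om m| * ‖u‖ ≤ 3 * B * r * (|K a r om m| * ‖u‖ + ‖mu A a om m u‖) := by
  have r0 := h.r0
  have e1 : |ka M a r om m| ≤ 2 * r * (|om| * r ^ 2) + |K a r om m| * r := by
    rw [ka_eq]
    refine (abs_sub _ _).trans (add_le_add ?_ ?_)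
    · rw [abs_mul, abs_mul, abs_of_nonneg h.De0, abs_of_pos (by positivity : 0 < 2 * r), mul_assoc]
      gcongr; exact h.De1
    · rw [abs_mul, abs_of_nonneg (sub_nonneg.2 h.Mr)]
      gcongr; linarith [h.M0]
  have e2 := mul_le_mul_of_nonneg_right e1 (norm_nonneg u)
  have e3 := mul_le_mul_of_nonneg_left (om_le2 hA h om m u) r0.le
  have e4 : r * (|K a r om m| * ‖u‖) ≤ B * (r * (|K a r om m| * ‖u‖)) :=
    le_mul_of_one_le_left (by positivity) h.B1
  nlinarith [mul_nonneg (mul_nonneg h.B0.le r0.le) (norm_nonneg (mu A a om m u))]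

theorem mu_le2 (hA : A.Is) (hs : |A.s| = 2) (h : Zn B M a r) (om m : ℝ) {u : S}
    (hu : A.L 2 u = (I * m) • u) : ‖mu A a om m u‖ ^ 2 -
      8 * B ^ 4 * ((|K a r om m| * ‖u‖ + ‖mu A a om m u‖) * ‖u‖) ≤ ell A A.s a om m u := by
  have e1 := mu_le hA A.s a om m hu
  have e2 : |a| * (|om| * ‖u‖) ≤ B * (B ^ 3 * (|K a r om m| * ‖u‖ + ‖mu A a om m u‖)) :=
    mul_le_mul h.aB (om_le3 hA h om m u) (by positivity) h.B0.le
  rw [hs, abs_mul] at e1
  nlinarith [mul_le_mul_of_nonneg_right e2 (norm_nonneg u)]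

theorem abs_j (u v : S) : |ri (I • u) v| ≤ ‖u‖ * ‖v‖ := by simpa only [norm_I] using abs_ri (I • u) v

variable {w : ℝ → S}

/-- The current of the Lagrangian. -/
def QL (M a : ℝ) (h : ℝ → ℝ) (w : ℝ → S) (x : ℝ) : ℝ := h x * De M a x * ri (w x) (deriv w x)

theorem curL (hA : A.Is) (hw : A.Sm w) (hz : Zn B M a r) {t : ℝ} (t0 : 0 ≤ t) (t3 : t ≤ 3)
    (k om m : ℝ) {h : ℝ → ℝ} {h1 : ℝ} (hh : HasDerivAt h h1 r) (h0 : 0 ≤ h r) :
    ∃ q, HasDerivAt (QL M a h w) q r ∧ h r * (ell A k a om m (w r) -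
      2 * (|K a r om m| * ‖w r‖) * ‖deriv w r‖ - ‖w r‖ * ‖A.P t k M a om m w r‖ - 6 * ‖w r‖ ^ 2) -
      (|h1| * r ^ 2 + 6 * h r * r) * (‖w r‖ * ‖deriv w r‖) ≤ q := by
  have := cur3 hA hw t k M a om m (hasDerivAt_const r (0 : ℝ)) (hasDerivAt_const r (0 : ℝ)) hh
  refine ⟨_, (this.congr_of_eventuallyEq (Filter.Eventually.of_forall fun x => ?_)), ?_⟩
  · simp only [QL]; ring
  simp only [X, mul_zero, zero_mul, Complex.ofReal_zero, zero_smul, sub_zero, zero_add, zero_sub,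
    ri_real_l, add_zero]
  have r0 := hz.r0
  have e1 := mul_le_mul_of_nonneg_left (le_ri (w r) (A.P t k M a om m w r)) h0
  have e2 : |K a r om m * ri (I • w r) (deriv w r)| ≤ |K a r om m| * (‖w r‖ * ‖deriv w r‖) := by
    rw [abs_mul]; exact mul_le_mul_of_nonneg_left (abs_j _ _) (abs_nonneg _)
  have e3 : |(h1 * De M a r + h r * t * (2 * r - 2 * M)) * ri (w r) (deriv w r)| ≤
      (|h1| * r ^ 2 + 6 * h r * r) * (‖w r‖ * ‖deriv w r‖) := by
    rw [abs_mul]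
    refine mul_le_mul ((abs_add_le _ _).trans (add_le_add ?_ ?_)) (abs_ri _ _) (abs_nonneg _)
      (by positivity)
    · rw [abs_mul, abs_of_nonneg hz.De0]; gcongr; exact hz.De1
    · have : 0 ≤ 2 * r - 2 * M := by linarith [hz.Mr]
      rw [abs_of_nonneg (by positivity)]
      nlinarith [mul_le_mul t3 (by linarith [hz.M0] : 2 * r - 2 * M ≤ 2 * r) this (by norm_num)]
  have e4 : 0 ≤ h r * De M a r * ‖deriv w r‖ ^ 2 := by have := hz.De0; positivity
  have e5 : 0 ≤ h r * ((6 - (t ^ 2 - t)) * ‖w r‖ ^ 2) :=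
    mul_nonneg h0 (mul_nonneg (by nlinarith) (sq_nonneg _))
  nlinarith [(abs_le.1 e3).1, mul_le_mul_of_nonneg_left (abs_le.1 e2).2 h0]

/-- The current of the multiplier g K. -/
def QK (M a om m : ℝ) (g : ℝ → ℝ) (w : ℝ → S) (x : ℝ) : ℝ :=
  -(g x * K a x om m * (De M a x * ri (I • w x) (deriv w x) - K a x om m * ‖w x‖ ^ 2))

theorem curK (hA : A.Is) (hw : A.Sm w) (hz : Zn B M a r) {t : ℝ} (t0 : 0 ≤ t) (t3 : t ≤ 3)
    (k om m : ℝ) {g : ℝ → ℝ} {g1 g2 : ℝ} (hg : HasDerivAt g (g1 + g2) r) (g0 : 0 ≤ g r) :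
    ∃ q, HasDerivAt (QK M a om m g w) q r ∧
      (g1 + g2 + (2 + 4 * t) * r * g r / (r ^ 2 + a ^ 2)) * (|K a r om m| * ‖w r‖) ^ 2 -
      g r / r * (14 * B * (|K a r om m| * ‖w r‖) * ‖mu A a om m (w r)‖ +
        (8 * (|K a r om m| * ‖w r‖) + 2 * B * ‖mu A a om m (w r)‖) * (r ^ 2 * ‖deriv w r‖)) -
      (|g1| + |g2|) * (|K a r om m| * ‖w r‖) * (r ^ 2 * ‖deriv w r‖) -
      g r * K a r om m * ri (I • w r) (A.P t k M a om m w r) ≤ q := by
  have hc := (hg.mul (der_K a om m r)).div_const 2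
  have := cur3 hA hw t k M a om m (hasDerivAt_const r (0 : ℝ)) hc (hasDerivAt_const r (0 : ℝ))
  refine ⟨_, (this.congr_of_eventuallyEq (Filter.Eventually.of_forall fun x => ?_)), ?_⟩
  · simp only [QK, Pi.mul_apply]; ring
  simp only [X, mul_zero, zero_mul, Complex.ofReal_zero, zero_smul, sub_zero, zero_add, zero_sub,
    ri_real_l, add_zero, ri_neg_l, Pi.mul_apply]
  have r0 := hz.r0
  have b0 := hz.B0
  have D0 := hz.De0
  have D1 := hz.De1
  have d0 : 0 ≤ 2 * r - 2 * M := by linarith [hz.Mr]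
  set κ := K a r om m
  set j := ri (I • w r) (deriv w r)
  set n := ‖w r‖
  set n1 := ‖deriv w r‖
  set μ := ‖mu A a om m (w r)‖
  have n0 : 0 ≤ n := norm_nonneg _
  have n10 : 0 ≤ n1 := norm_nonneg _
  have μ0 : 0 ≤ μ := norm_nonneg _
  have hj : |j| ≤ n * n1 := abs_j _ _
  have e1 : |(g1 + g2) * κ * De M a r * j| ≤ (|g1| + |g2|) * (|κ| * n) * (r ^ 2 * n1) := by
    rw [abs_mul, abs_mul, abs_mul, abs_of_nonneg D0]
    calc _ ≤ (|g1| + |g2|) * |κ| * r ^ 2 * (n * n1) := by gcongr; exact abs_add_le _ _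
      _ = _ := by ring
  have e2 : |om * De M a r * j| ≤ (|κ| * n + B * μ) * n1 := by
    rw [abs_mul, abs_mul, abs_of_nonneg D0]
    calc _ ≤ |om| * r ^ 2 * (n * n1) := by gcongr
      _ = |om| * r ^ 2 * n * n1 := by ring
      _ ≤ _ := mul_le_mul_of_nonneg_right (om_le2 hA hz om m _) n10
  have e3 : |κ * (t * (2 * r - 2 * M)) * j| ≤ 6 * r * (|κ| * n) * n1 := by
    rw [abs_mul, abs_mul, abs_of_nonneg (mul_nonneg t0 d0)]
    have : t * (2 * r - 2 * M) ≤ 3 * (2 * r) := mul_le_mul t3 (by linarith [hz.M0]) d0 (by norm_num)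
    calc _ ≤ |κ| * (3 * (2 * r)) * (n * n1) := by gcongr
      _ = _ := by ring
  have e4 := mul_le_mul_of_nonneg_left (omK_ge hA a om m r0 (w r))
    (by positivity : 0 ≤ (2 + 4 * t) * r * g r)
  have e5 : (2 + 4 * t) * r * g r * (|a| * (|κ| * n) * μ / r ^ 2) ≤
      g r / r * (14 * B * (|κ| * n) * μ) := by
    have : (2 + 4 * t) * |a| ≤ 14 * B := mul_le_mul (by linarith) hz.aB (abs_nonneg _) (by norm_num)
    calc _ = g r / r * ((2 + 4 * t) * |a| * (|κ| * n) * μ) := by field_simp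
      _ ≤ _ := by gcongr
  have e6 : g r / r * ((8 * (|κ| * n) + 2 * B * μ) * (r ^ 2 * n1)) =
      g r * r * ((8 * (|κ| * n) + 2 * B * μ) * n1) := by field_simp
  have e7 := mul_le_mul_of_nonneg_left (abs_le.1 e2).2 (by positivity : 0 ≤ 2 * r * g r)
  have e8 := mul_le_mul_of_nonneg_left (abs_le.1 e3).2 g0
  have e9 : (2 + 4 * t) * r * g r / (r ^ 2 + a ^ 2) * (|κ| * n) ^ 2 =
      (2 + 4 * t) * r * g r * (κ ^ 2 * n ^ 2 / (r ^ 2 + a ^ 2)) := by
    rw [mul_pow, sq_abs]; ring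
  have e10 : (|κ| * n) ^ 2 = κ ^ 2 * n ^ 2 := by rw [mul_pow, sq_abs]
  rw [mul_add (g r / r), e6, add_mul _ _ ((|κ| * n) ^ 2), e9, e10]
  linarith [(abs_le.1 e1).2]

/-- The derivatives of ka. -/
def ka1 (M a r om m : ℝ) : ℝ := om * (3 * r ^ 2 - 6 * M * r + a ^ 2) + a * m

theorem der_ka (M a om m r : ℝ) : HasDerivAt (fun t => ka M a t om m) (ka1 M a r om m) r := by
  have i := hasDerivAt_id r
  have := ((((((i.pow 3).sub ((i.pow 2).const_mul (3 * M))).add (i.const_mul (a ^ 2))).add_const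
    (a ^ 2 * M)).const_mul om).add ((i.sub_const M).const_mul (a * m)))
  exact this.congr_deriv (by simp only [ka1, id]; push_cast; ring)

theorem der_ka1 (M a om m r : ℝ) :
    HasDerivAt (fun t => ka1 M a t om m) (om * (6 * r - 6 * M)) r := by
  have i := hasDerivAt_id r
  have := ((((i.pow 2).const_mul 3).sub (i.const_mul (6 * M))).add_const (a ^ 2)).const_mul om
  exact (this.add_const (a * m)).congr_deriv (by simp only [id]; push_cast; ring)

/-- The curve ka y. -/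
def kz (M a om m : ℝ) (y : ℝ → S) (r : ℝ) : S := (ka M a r om m : ℂ) • y r

theorem md_kz {m : ℝ} {y : ℝ → S} (hy : A.Md m y) (M a om m' : ℝ) : A.Md m (kz M a om m' y) :=
  hy.smul (cd_C (cd_ka M a om m'))

theorem deriv_kz {y : ℝ → S} (hy : A.Sm y) (M a om m r : ℝ) : deriv (kz M a om m y) r =
    (ka M a r om m : ℂ) • deriv y r + (ka1 M a r om m : ℂ) • y r :=
  ((der_ka M a om m r).ofReal_comp.smul (hy.has r)).deriv

theorem P_kz (h : A.Is) {y : ℝ → S} (hy : A.Sm y) (s k M a om m r : ℝ) :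
    A.P s k M a om m (kz M a om m y) r = (ka M a r om m : ℂ) • A.P s k M a om m y r +
      ((2 * ka1 M a r om m : ℝ) : ℂ) • D M a om m y r +
      ((De M a r * (om * (6 * r - 6 * M)) + (1 - s) * (2 * r - 2 * M) * ka1 M a r om m : ℝ) : ℂ) •
        y r := by
  have h1 := h.sm_deriv hy
  have e1 : deriv (kz M a om m y) = _ := funext (deriv_kz hy M a om m)
  have e2 : deriv (deriv (kz M a om m y)) r =
      ((ka M a r om m : ℂ) • deriv (deriv y) r + (ka1 M a r om m : ℂ) • deriv y r) +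
      ((ka1 M a r om m : ℂ) • deriv y r + ((om * (6 * r - 6 * M) : ℝ) : ℂ) • y r) := by
    rw [e1]
    exact (((der_ka M a om m r).ofReal_comp.smul (h1.has r)).add
      ((der_ka1 M a om m r).ofReal_comp.smul (hy.has r))).deriv
  rw [P_real, e2, deriv_kz hy, P_real]
  simp only [kz, D, map_smul]
  push_cast
  module

end Vale.Agent.P354RP
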