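import Vale.Agent.P354RP.Id
import Vale.Agent.P354XT.Mode

/-!
Angular inequalities at a real frequency. mu = a om sin^2 - m, and om Sigma = K - a mu.
-/

open scoped ContDiff InnerProductSpace ComplexConjugate
open Complex (I)
open Vale.Agent.P354BF Vale.Agent.P354XN
open Vale.Agent.P354XH (K ka)
open Vale.Agent.P354XT (lam)

noncomputable section

namespace Vale.Agent.P354RP

variable {S : Type} [NormedAddCommGroup S] [InnerProductSpace ℂ S] {A : Ang S}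

variable (A) in
/-- The operator a om sin^2 - m. -/
def mu (a om m : ℝ) (u : S) : S := ((a * om : ℝ) : ℂ) • (u - A.w 2 (A.w 2 u)) - (m : ℂ) • u

theorem ri_ww (h : A.Is) (u : S) : ri u (A.w 2 (A.w 2 u)) = ‖A.w 2 u‖ ^ 2 := by
  rw [ri, ← h.symm, ← ri, ri_self]

theorem sin_le (h : A.Is) (u : S) : ‖u - A.w 2 (A.w 2 u)‖ ≤ ‖u‖ := by
  have e : ‖u - A.w 2 (A.w 2 u)‖ ^ 2 = ‖u‖ ^ 2 - 2 * ‖A.w 2 u‖ ^ 2 + ‖A.w 2 (A.w 2 u)‖ ^ 2 := by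
    rw [← ri_self, ri_sub, ri_sub_l, ri_sub_l, ri_self, ri_self, ri_comm (A.w 2 _) u, ri_ww h]; ring
  have e4 := h.w_le 2 (A.w 2 u)
  have : ‖u - A.w 2 (A.w 2 u)‖ ^ 2 ≤ ‖u‖ ^ 2 := by
    nlinarith [norm_nonneg (A.w 2 (A.w 2 u)), norm_nonneg (A.w 2 u)]
  exact (pow_le_pow_iff_left₀ (norm_nonneg _) (norm_nonneg _) two_ne_zero).1 this

/-- The quadratic form of the spheroidal operator. -/
theorem ell_eq (h : A.Is) (k a om m : ℝ) (u : S) : ell A k a om m u =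
    An A u + (a * om) ^ 2 * (‖u‖ ^ 2 - ‖A.w 2 u‖ ^ 2) - 2 * (a * om) * m * ‖u‖ ^ 2 +
      2 * k * (a * om) * ri u (A.w 2 u) := by
  have e : ⟪u, A.lop k a om m u⟫_ℂ = ((An A u + (a * om) ^ 2 * (‖u‖ ^ 2 - ‖A.w 2 u‖ ^ 2) -
      2 * (a * om) * m * ‖u‖ ^ 2 + 2 * k * (a * om) * ri u (A.w 2 u) : ℝ) : ℂ) := by
    rw [h.lop_form, An, ri]; push_cast; ring
  rw [ell, ri, e, Complex.ofReal_re]

theorem abs_ri_w (h : A.Is) (u : S) : |ri u (A.w 2 u)| ≤ ‖u‖ ^ 2 := h.w_re_le 2 u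

/-- The form of the spheroidal operator bounds mu. -/
theorem mu_le (h : A.Is) (k a om m : ℝ) {u : S} (hu : A.L 2 u = (I * m) • u) :
    ‖mu A a om m u‖ ^ 2 ≤ ell A k a om m u + 2 * (|k| + |A.s|) * |a * om| * ‖u‖ ^ 2 := by
  have one := h.one
  have sp := h.spin
  rw [ell_eq h, An]
  simp only [Fin.sum_univ_three] at one sp ⊢
  set c := a * om with hc
  set z := A.w 2 u with hz
  have em : ‖mu A a om m u‖ = ‖A.L 2 u + (c * I : ℂ) • (A.w 2 z - u)‖ := by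
    rw [← norm_I, ← norm_neg, hu, mu, ← hc, ← hz]; congr 1; module
  have ci : conj ((c : ℂ) * I) = -(c * I) := by simp
  have cm : conj (I * (m : ℂ)) = -(I * m) := by simp
  have cs : conj (I * (A.s : ℂ)) = -(I * A.s) := by simp
  have i2 : I ^ 2 = -1 := Complex.I_sq
  have e : ⟪A.L 0 u + (c * I : ℂ) • A.w 0 z, A.L 0 u + (c * I : ℂ) • A.w 0 z⟫_ℂ +
      ⟪A.L 1 u + (c * I : ℂ) • A.w 1 z, A.L 1 u + (c * I : ℂ) • A.w 1 z⟫_ℂ +
      ⟪A.L 2 u + (c * I : ℂ) • (A.w 2 z - u), A.L 2 u + (c * I : ℂ) • (A.w 2 z - u)⟫_ℂ =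
      ⟪A.L 0 u, A.L 0 u⟫_ℂ + ⟪A.L 1 u, A.L 1 u⟫_ℂ + ⟪A.L 2 u, A.L 2 u⟫_ℂ +
        c ^ 2 * (⟪u, u⟫_ℂ - ⟪z, z⟫_ℂ) - 2 * c * m * ⟪u, u⟫_ℂ -
        c * A.s * (⟪u, z⟫_ℂ + ⟪z, u⟫_ℂ) := by
    have e1 := congrArg (fun x => ⟪z, x⟫_ℂ) (sp u)
    have e2 := congrArg (fun x => ⟪x, z⟫_ℂ) (sp u)
    have e3 := congrArg (fun x => ⟪z, x⟫_ℂ) (one z)
    have e4 : ⟪u, A.w 2 z⟫_ℂ = ⟪z, z⟫_ℂ := (h.symm 2 u z).symm
    have e5 := congrArg (fun x => ⟪u, x⟫_ℂ) hu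
    have e6 := congrArg (fun x => ⟪x, u⟫_ℂ) hu
    have e7 : ⟪A.w 2 z, u⟫_ℂ = ⟪z, z⟫_ℂ := h.symm 2 z u
    simp only [inner_add_right, inner_smul_right, inner_add_left, inner_smul_left, map_neg, cs, cm,
      h.symm] at e1 e2 e3 e5 e6
    simp only [inner_add_right, inner_smul_right, inner_add_left, inner_smul_left, ci,
      inner_sub_left, inner_sub_right, e7, e4, h.symm 0, h.symm 1, h.symm 2 z (A.L 2 u),
      h.symm 2 z (A.w 2 z)]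
    linear_combination (c * I) * e2 - (c * I) * e1 - (c * I) ^ 2 * e3 - (c * I) * e6 +
      (c * I) * e5 + (-(c : ℂ) ^ 2 * (⟪u, u⟫_ℂ - ⟪z, z⟫_ℂ) + 2 * c * m * ⟪u, u⟫_ℂ +
        c * A.s * (⟪u, z⟫_ℂ + ⟪z, u⟫_ℂ)) * i2
  have zu : ⟪z, u⟫_ℂ = ⟪u, z⟫_ℂ := h.symm 2 u u
  rw [zu, h.w_real 2 u] at e
  simp only [ip_self] at e
  have e' : ‖A.L 0 u + (c * I : ℂ) • A.w 0 z‖ ^ 2 + ‖A.L 1 u + (c * I : ℂ) • A.w 1 z‖ ^ 2 +
      ‖A.L 2 u + (c * I : ℂ) • (A.w 2 z - u)‖ ^ 2 = ‖A.L 0 u‖ ^ 2 + ‖A.L 1 u‖ ^ 2 +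
      ‖A.L 2 u‖ ^ 2 + c ^ 2 * (‖u‖ ^ 2 - ‖z‖ ^ 2) - 2 * c * m * ‖u‖ ^ 2 -
      c * A.s * (ri u z + ri u z) := by exact_mod_cast e
  have b4 := abs_ri_w h u
  have b5 : ∀ t : ℝ, |t * c * ri u z| ≤ |t| * |c| * ‖u‖ ^ 2 := fun t => by
    rw [abs_mul, abs_mul]; exact mul_le_mul_of_nonneg_left b4 (by positivity)
  rw [em]
  nlinarith [sq_nonneg ‖A.L 0 u + (c * I : ℂ) • A.w 0 z‖, abs_le.1 (b5 k), abs_le.1 (b5 A.s),
    sq_nonneg ‖A.L 1 u + (c * I : ℂ) • A.w 1 z‖]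

/-- om Sigma = K - a mu. -/
theorem sig_eq (a r om m : ℝ) (u : S) :
    (om : ℂ) • (((r ^ 2 : ℝ) : ℂ) • u + ((a ^ 2 : ℝ) : ℂ) • A.w 2 (A.w 2 u)) =
      (K a r om m : ℂ) • u - (a : ℂ) • mu A a om m u := by
  simp only [K, mu]; push_cast; module

theorem sig_ri (h : A.Is) (a r om m : ℝ) (u : S) :
    om * (r ^ 2 * ‖u‖ ^ 2 + a ^ 2 * ‖A.w 2 u‖ ^ 2) =
      K a r om m * ‖u‖ ^ 2 - a * ri u (mu A a om m u) := by
  have := congrArg (ri u) (sig_eq (A := A) a r om m u)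
  rwa [ri_real, ri_add, ri_real, ri_real, ri_sub, ri_real, ri_real, ri_self, ri_ww h] at this

theorem om_le (h : A.Is) (a r om m : ℝ) (u : S) :
    |om| * r ^ 2 * ‖u‖ ≤ |K a r om m| * ‖u‖ + |a| * ‖mu A a om m u‖ := by
  rcases (norm_nonneg u).eq_or_lt with e | e
  · rw [← e]; simp only [mul_zero, zero_add]; positivity
  refine le_of_mul_le_mul_right ?_ e
  have e1 := congrArg abs (sig_ri h a r om m u)
  rw [abs_mul, abs_of_nonneg (by positivity : 0 ≤ r ^ 2 * ‖u‖ ^ 2 + a ^ 2 * ‖A.w 2 u‖ ^ 2)] at e1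
  have e2 := abs_sub (K a r om m * ‖u‖ ^ 2) (a * ri u (mu A a om m u))
  rw [abs_mul, abs_mul, abs_of_nonneg (sq_nonneg ‖u‖)] at e2
  have e3 := mul_le_mul_of_nonneg_left (abs_ri u (mu A a om m u)) (abs_nonneg a)
  have e4 : 0 ≤ |om| * (a ^ 2 * ‖A.w 2 u‖ ^ 2) := by positivity
  nlinarith

theorem m_le (h : A.Is) (a om m : ℝ) (u : S) :
    |m| * ‖u‖ ≤ |a| * |om| * ‖u‖ + ‖mu A a om m u‖ := by
  have e : (m : ℂ) • u = ((a * om : ℝ) : ℂ) • (u - A.w 2 (A.w 2 u)) - mu A a om m u := by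
    rw [mu]; abel
  rw [← norm_real, e]
  refine (norm_sub_le _ _).trans (add_le_add ?_ le_rfl)
  rw [norm_real, abs_mul]
  exact mul_le_mul_of_nonneg_left (sin_le h u) (by positivity)

/-- The sign of om K. -/
theorem omK_ge (h : A.Is) (a om m : ℝ) {r : ℝ} (hr : 0 < r) (u : S) :
    K a r om m ^ 2 * ‖u‖ ^ 2 / (r ^ 2 + a ^ 2) -
      |a| * (|K a r om m| * ‖u‖) * ‖mu A a om m u‖ / r ^ 2 ≤ om * K a r om m * ‖u‖ ^ 2 := by
  have e1 := sig_ri h a r om m u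
  set κ := K a r om m
  have e2 : |κ * (a * ri u (mu A a om m u))| ≤ |a| * (|κ| * ‖u‖) * ‖mu A a om m u‖ := by
    rw [abs_mul, abs_mul]
    have := mul_le_mul_of_nonneg_left (abs_ri u (mu A a om m u)) (by positivity : 0 ≤ |κ| * |a|)
    linarith
  have e3 := (abs_le.1 e2).2
  have w1 : ‖A.w 2 u‖ ^ 2 ≤ ‖u‖ ^ 2 := pow_le_pow_left₀ (norm_nonneg _) (h.w_le 2 u) 2
  set y := |a| * (|κ| * ‖u‖) * ‖mu A a om m u‖
  have y0 : 0 ≤ y := by positivity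
  have e4 : κ ^ 2 * ‖u‖ ^ 2 - y ≤ om * κ * (r ^ 2 * ‖u‖ ^ 2 + a ^ 2 * ‖A.w 2 u‖ ^ 2) := by
    have : om * κ * (r ^ 2 * ‖u‖ ^ 2 + a ^ 2 * ‖A.w 2 u‖ ^ 2) =
        κ ^ 2 * ‖u‖ ^ 2 - κ * (a * ri u (mu A a om m u)) := by linear_combination κ * e1
    linarith
  have r2 : 0 < r ^ 2 := by positivity
  have s2 : 0 < r ^ 2 + a ^ 2 := by positivity
  rcases le_total 0 (om * κ) with e | e
  · have f1 : y / (r ^ 2 + a ^ 2) ≤ y / r ^ 2 := div_le_div_of_nonneg_left y0 r2 (by nlinarith)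
    have f2 : (κ ^ 2 * ‖u‖ ^ 2 - y) / (r ^ 2 + a ^ 2) ≤ om * κ * ‖u‖ ^ 2 := by
      rw [div_le_iff₀ s2]
      nlinarith [mul_le_mul_of_nonneg_left w1 (mul_nonneg e (sq_nonneg a))]
    rw [sub_div] at f2; linarith
  · have f1 : κ ^ 2 * ‖u‖ ^ 2 / (r ^ 2 + a ^ 2) ≤ κ ^ 2 * ‖u‖ ^ 2 / r ^ 2 :=
      div_le_div_of_nonneg_left (by positivity) r2 (by nlinarith)
    have f2 : (κ ^ 2 * ‖u‖ ^ 2 - y) / r ^ 2 ≤ om * κ * ‖u‖ ^ 2 := by
      rw [div_le_iff₀ r2]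
      nlinarith [mul_nonneg (neg_nonneg.2 e) (by positivity : 0 ≤ a ^ 2 * ‖A.w 2 u‖ ^ 2)]
    rw [sub_div] at f2; linarith

theorem lam_pos (om m : ℝ) : 0 < lam om m := by unfold lam; positivity

theorem one_le_lam (om m : ℝ) : 1 ≤ lam om m := by unfold lam; nlinarith [sq_nonneg om, sq_nonneg m]

theorem om_sq (om m : ℝ) : om ^ 2 ≤ lam om m := by unfold lam; nlinarith [sq_nonneg m]

theorem m_sq (om m : ℝ) : m ^ 2 ≤ lam om m := by unfold lam; nlinarith [sq_nonneg om]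

/-- The angular form is bounded by the form of the spheroidal operator. -/
theorem An_le (h : A.Is) {B k a : ℝ} (hk : |k| ≤ B) (ha : |a| ≤ B) (om m : ℝ) (u : S) :
    An A u ≤ ell A k a om m u + (B + B ^ 2) * lam om m * ‖u‖ ^ 2 := by
  have w1 : ‖A.w 2 u‖ ^ 2 ≤ ‖u‖ ^ 2 := pow_le_pow_left₀ (norm_nonneg _) (h.w_le 2 u) 2
  have B0 : 0 ≤ B := (abs_nonneg _).trans hk
  have e1 : |2 * (a * om) * m| ≤ B * lam om m := by
    rw [abs_mul, abs_mul, abs_mul, abs_two, lam, ← sq_abs om, ← sq_abs m]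
    have := mul_le_mul_of_nonneg_right ha (mul_nonneg (abs_nonneg om) (abs_nonneg m))
    nlinarith [mul_nonneg B0 (sq_nonneg (|om| - |m|))]
  have e2 : |2 * k * (a * om) * ri u (A.w 2 u)| ≤ B ^ 2 * lam om m * ‖u‖ ^ 2 := by
    rw [abs_mul]
    refine mul_le_mul ?_ (abs_ri_w h u) (abs_nonneg _) (by have := lam_pos om m; positivity)
    rw [abs_mul, abs_mul, abs_mul, abs_two, lam, ← sq_abs om]
    have := mul_le_mul_of_nonneg_right (mul_le_mul hk ha (abs_nonneg _) B0) (abs_nonneg om)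
    nlinarith [mul_nonneg (sq_nonneg B) (sq_nonneg (|om| - 1)), mul_nonneg (sq_nonneg B) (sq_nonneg m)]
  rw [ell_eq h]
  nlinarith [mul_nonneg (sq_nonneg (a * om)) (sub_nonneg.2 w1), (abs_le.1 e2).1,
    mul_le_mul_of_nonneg_right (abs_le.1 e1).2 (sq_nonneg ‖u‖)]

/-- The spheroidal operator is bounded by the Casimir operator. -/
theorem lop_le (h : A.Is) {B k a : ℝ} (hk : |k| ≤ B) (ha : |a| ≤ B) (om m : ℝ) (u : S) :
    ‖A.lop k a om m u‖ ≤ ‖A.cas u‖ + (B + 2 * B ^ 2) * lam om m * ‖u‖ := by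
  have B0 : 0 ≤ B := (abs_nonneg _).trans hk
  have e : A.lop k a om m u = A.cas u + (((a * om) ^ 2 : ℝ) : ℂ) • (u - A.w 2 (A.w 2 u)) -
      ((2 * (a * om) * m : ℝ) : ℂ) • u + ((2 * k * (a * om) : ℝ) : ℂ) • A.w 2 u := by
    rw [A.lop_apply]; push_cast; module
  have e1 : |2 * (a * om) * m| ≤ B * (om ^ 2 + m ^ 2) := by
    rw [abs_mul, abs_mul, abs_mul, abs_two, ← sq_abs om, ← sq_abs m]
    have := mul_le_mul_of_nonneg_right ha (mul_nonneg (abs_nonneg om) (abs_nonneg m))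
    nlinarith [mul_nonneg B0 (sq_nonneg (|om| - |m|))]
  have e2 : |2 * k * (a * om)| ≤ B ^ 2 * (1 + om ^ 2) := by
    rw [abs_mul, abs_mul, abs_mul, abs_two, ← sq_abs om]
    have := mul_le_mul_of_nonneg_right (mul_le_mul hk ha (abs_nonneg _) B0) (abs_nonneg om)
    nlinarith [mul_nonneg (sq_nonneg B) (sq_nonneg (|om| - 1))]
  have e3 : |(a * om) ^ 2| ≤ B ^ 2 * om ^ 2 := by
    rw [abs_of_nonneg (sq_nonneg _), mul_pow, ← sq_abs a]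
    exact mul_le_mul_of_nonneg_right (pow_le_pow_left₀ (abs_nonneg _) ha 2) (sq_nonneg _)
  have f1 := mul_le_mul e3 (sin_le h u) (norm_nonneg _) (by positivity)
  have f2 := mul_le_mul_of_nonneg_right e1 (norm_nonneg u)
  have f3 := mul_le_mul e2 (h.w_le 2 u) (norm_nonneg _) (by positivity)
  rw [← norm_real] at f1 f2 f3
  rw [e]
  refine (norm_add_le _ _).trans ((add_le_add ((norm_sub_le _ _).trans
    (add_le_add (norm_add_le _ _) le_rfl)) le_rfl).trans ?_)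
  unfold lam
  nlinarith [mul_nonneg (mul_nonneg (sq_nonneg B) (sq_nonneg m)) (norm_nonneg u),
    mul_nonneg B0 (norm_nonneg u), mul_nonneg (sq_nonneg B) (norm_nonneg u)]

end Vale.Agent.P354RP
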