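import Vale.Agent.P354RP.Rec

/-!
The bulk estimates and the energy estimates of the three levels of the chain of spin 2.
-/

open scoped ContDiff InnerProductSpace
open Complex (I)
open Set MeasureTheory intervalIntegral Filter Topology
open Vale.Agent.P354BF Vale.Agent.P354XN Vale.Agent.P354XT
open Vale.Agent.P354XH (K ka)
open Vale.Agent.P354RM (cd_der V V_one V_two cont_V V_nonneg Wn_nonneg cont_Wn cont_d1 cd_Nc oD
  oD_sm oD_ord cv_oD cd_cv)
open Vale.Agent.P354M0 (Lv cont_D cont_Lv)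
open Vale.Agent.P354ME (Er d1_nonneg cont_Er)

noncomputable section

namespace Vale.Agent.P354RP

section
variable {S : Type} [NormedAddCommGroup S] [InnerProductSpace ℂ S]

/-- The degenerate bulk of the last member and of the other members of the chain. -/
def T0 (n : ℕ) (M a om m x y : ℝ) (u : ℝ → S) : ℝ := ∫ r in x..y, lam om m ^ n *
  (‖D M a om m u r‖ ^ 2 / r ^ 4 + ka M a r om m ^ 2 * ‖u r‖ ^ 2 / r ^ 6)
def T1 (n : ℕ) (a0 e M a om m x y : ℝ) (z : ℝ → S) : ℝ :=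
  ∫ r in x..y, ph a0 e r / r ^ 3 * (lam om m ^ n * bd M a om m z r)

variable {n : ℕ} {a0 e M a om m x y : ℝ} {z : ℝ → S}

theorem co0 (hz : ContDiff ℝ ∞ z) (x0 : 0 < x) : ContinuousOn (fun r => lam om m ^ n *
    (‖D M a om m z r‖ ^ 2 / r ^ 4 + ka M a r om m ^ 2 * ‖z r‖ ^ 2 / r ^ 6)) (Icc x y) := by
  have := cont_D hz M a om m
  have := hz.continuous
  have := (cd_ka M a om m).continuous
  have nz : ∀ k, ∀ r ∈ Icc x y, r ^ k ≠ 0 := fun k r hr => pow_ne_zero k (x0.trans_le hr.1).ne'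
  exact continuousOn_const.mul ((ContinuousOn.div (by fun_prop) (by fun_prop) (nz 4)).add
    (ContinuousOn.div (by fun_prop) (by fun_prop) (nz 6)))

theorem co1 (h0 : a0 ≠ 0) (hz : ContDiff ℝ ∞ z) (x0 : 0 < x) : ContinuousOn
    (fun r => ph a0 e r / r ^ 3 * (lam om m ^ n * bd M a om m z r)) (Icc x y) :=
  ((ph_sm h0 e).continuous.continuousOn.div (by fun_prop) fun r hr =>
    pow_ne_zero 3 (x0.trans_le hr.1).ne').mul (continuous_const.mul (cont_bd hz M a om m)).continuousOn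

theorem nn1 (h0 : a0 ≠ 0) {r : ℝ} (r0 : 0 < r) :
    0 ≤ ph a0 e r / r ^ 3 * (lam om m ^ n * bd M a om m z r) := by
  have := ph_pos h0 e r; have := lam_pos om m; have := bd_nonneg M a om m z r; positivity

theorem cont_ud (hz : ContDiff ℝ ∞ z) : Continuous (ud M a om m z) := by
  have := cont_D hz M a om m
  have := hz.continuous
  have := (cd_ka M a om m).continuous
  unfold ud; fun_prop

theorem cmp0 {p q Z : ℝ} (hz : ContDiff ℝ ∞ z) (x0 : 0 < x) (h1 : x ≤ p) (h2 : p ≤ q) (h3 : q ≤ y)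
    (h4 : q ≤ Z) (h5 : 1 ≤ Z) :
    ∫ r in p..q, lam om m ^ n * ud M a om m z r ≤ Z ^ 6 * T0 n M a om m x y z := by
  have l0 := lam_pos om m
  rw [T0, ← intervalIntegral.integral_const_mul]
  refine nest h1 h2 h3 (continuous_const.mul (cont_ud hz)).continuousOn
    (continuousOn_const.mul (co0 hz x0)) (fun r _ => by positivity) fun r hr => ?_
  have r0 : 0 < r := x0.trans_le (h1.trans hr.1)
  have e1 : r ^ 6 ≤ Z ^ 6 := pow_le_pow_left₀ r0.le (hr.2.trans h4) 6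
  have e2 : r ^ 4 ≤ Z ^ 6 := (pow_le_pow_left₀ r0.le (hr.2.trans h4) 4).trans
    (pow_le_pow_right₀ h5 (by norm_num))
  rw [mul_left_comm, ud, mul_add (Z ^ 6), ← mul_div_assoc, ← mul_div_assoc]
  gcongr <;> rw [le_div_iff₀ (by positivity), mul_comm] <;> gcongr

end

theorem cmp1 {a0 x0 Z : ℝ} (h0 : a0 ≠ 0) (e : ℝ) (p0 : 0 < x0) (h5 : 1 ≤ Z) : ∃ C : ℝ, 0 ≤ C ∧
    ∀ (S : Type) [NormedAddCommGroup S] [InnerProductSpace ℂ S] (n : ℕ) (M a om m x p q y : ℝ)
      (z : ℝ → S), ContDiff ℝ ∞ z → x0 ≤ x → x ≤ p → p ≤ q → q ≤ y → q ≤ Z →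
      ∫ r in p..q, lam om m ^ n * ud M a om m z r ≤ C * T1 n a0 e M a om m x y z := by
  obtain ⟨c, c0, H⟩ := low_bd (ph_sm h0 e).continuous (ph_pos h0 e) x0 Z
  refine ⟨Z ^ 3 / c, by positivity, fun S _ _ n M a om m x p q y z hz h1 h2 h3 h4 h6 => ?_⟩
  have l0 := lam_pos om m
  have x1 := p0.trans_le h1
  rw [T1, ← intervalIntegral.integral_const_mul]
  refine nest h2 h3 h4 (continuous_const.mul (cont_ud hz)).continuousOn
    (continuousOn_const.mul (co1 h0 hz x1))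
    (fun r hr => mul_nonneg (by positivity) (nn1 h0 (x1.trans_le hr.1))) fun r hr => ?_
  have r0 : 0 < r := x1.trans_le (h2.trans hr.1)
  have rZ := hr.2.trans h6
  have e0 := H r ⟨h1.trans (h2.trans hr.1), rZ⟩
  have e1 : r ^ 3 * ud M a om m z r ≤ Z ^ 3 * bd M a om m z r := by
    have c1 : r ^ 3 ≤ Z ^ 3 := pow_le_pow_left₀ r0.le rZ 3
    have c2 : r ≤ Z ^ 3 := rZ.trans (le_self_pow₀ h5 (by norm_num))
    have c3 := mul_le_mul_of_nonneg_right c2 (mul_nonneg (sq_nonneg r) (sq_nonneg ‖D M a om m z r‖))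
    have c4 := mul_le_mul_of_nonneg_right c1 (mul_nonneg (sq_nonneg (ka M a r om m)) (sq_nonneg ‖z r‖))
    rw [ud, bd]; linarith only [c3, c4]
  have := bd_nonneg M a om m z r
  calc _ = lam om m ^ n * (r ^ 3 * ud M a om m z r) / r ^ 3 := by field_simp
    _ ≤ lam om m ^ n * (Z ^ 3 * bd M a om m z r) / r ^ 3 := by gcongr
    _ = Z ^ 3 / c * (c / r ^ 3 * (lam om m ^ n * bd M a om m z r)) := by field_simp
    _ ≤ _ := by gcongr

theorem cont_gc {S : Type} [NormedAddCommGroup S] [InnerProductSpace ℂ S] {G : Ang S} (hG : G.Is)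
    {v : ℝ → S} (hv : G.Sm v) (n : ℕ) (M a γ R1 om m : ℝ) :
    Continuous (gc G true n M a γ R1 om m v) :=
  (continuous_const.mul (cont_Wn hG (hG.sm_deriv hv) n)).add
    (continuous_const.mul (cont_Wn hG hv _))

theorem blk1 {M0 a0 γ x1 x2 : ℝ} (h0 : a0 ≠ 0) (ha : |a0| < M0) (hγ : 0 < γ) (h1 : γ ≤ 1)
    (hx : rp M0 a0 < x1) (hx' : x1 < x2) (j : ℕ) : ∃ c C : ℝ, 0 < c ∧ 0 ≤ C ∧ ∀ r0 R1 : ℝ, r0 ≤ x1 →
    x2 ≤ R1 → ∃ C1 dl : ℝ, 0 ≤ C1 ∧ 0 < dl ∧ ∀ M a : ℝ, |M - M0| < dl → |a - a0| < dl →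
    ∀ (S : Type) [NormedAddCommGroup S] [InnerProductSpace ℂ S] (G : Ang S), G.Is → |G.s| = 2 →
    ∀ (om m : ℝ) (v : ℝ → S), G.Md m v →
      c * T1 (j + 3) a0 (γ / 2 - (3 + 2 * 1)) M a om m x2 (5 * R1 / 4) (deriv v) ≤
      -pair (lK a0 (γ / 2 - (3 + 2 * 1)) x1 x2 (5 * R1 / 4) (3 * R1 / 2) (.R .one) (j + 2)) M a om m
        r0 (2 * R1) (G.P 2 G.s M a om m v) v +
      C * T0 (j + 2) M a om m (rp M0 a0) (3 * R1 / 2) (deriv (deriv v)) +
      C * (∫ r in R1..(2 * R1), gc G true (j + 4) M a γ R1 om m v r) +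
      C1 * ∫ r in r0..(2 * R1), Lo G j om m v (G.P 2 G.s M a om m v) r := by
  obtain ⟨c, C, c0, C0, H⟩ := step2 h0 ha hγ h1 zero_le_one one_le_two hx hx' (j + 1)
  obtain ⟨B, d2, -, p2, q2, HZ⟩ := zn_near ha hx
  have rp0 : 0 < rp M0 a0 := ((abs_nonneg _).trans_lt ha).trans (P354XH.rp_gt ha)
  have x0 : 0 < x1 := rp0.trans hx
  have w0 : 0 < x1 ^ (γ - 3) := Real.rpow_pos_of_pos x0 _
  refine ⟨c, C + C * x1 ^ (γ - 3), c0, by positivity, fun r0 R1 hr hR => ?_⟩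
  have R0 : 0 < R1 := by linarith
  obtain ⟨C1, dl, c1, d0, H⟩ := H R1 (5 * R1 / 4) (3 * R1 / 2) hR (by linarith) (by linarith)
    (by linarith) (by linarith)
  obtain ⟨Y, -, HY⟩ := cr_ex 0 M0 a0 x1 (3 * R1 / 2)
  refine ⟨C1 * (245 + 72 * Y ^ 2), min dl d2, by positivity, lt_min d0 p2,
    fun M a hM ha' S _ _ G hG hs om m v hv => ?_⟩
  have hM2 := hM.trans_le (min_le_right _ _)
  have ha2 := ha'.trans_le (min_le_right _ _)
  have hy := hG.md_deriv hv
  have hu := hG.sm_deriv hy.1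
  have sH := hG.sm_P hv.1 2 G.s M a om m
  have kZ := cont_D (cd_der sH.cd) M a om m
  have H := H M a (hM.trans_le (min_le_left _ _)) (ha'.trans_le (min_le_left _ _)) S G hG hs om m _
    _ hy kZ
  have l0 := lam_pos om m
  have k1 := (ph_sm h0 (γ / 2 - (3 + 2 * 1))).continuous
  have k2 := cont_bd hu.cd M a om m
  have k3 := cont_V (om := om) (m := m) hy.1.cd 1
  have k4 := cont_sg hy.1.cd (hG.sm_P hy.1 1 G.s M a om m).cd om m
  have k5 := cont_D (hG.sm_P hy.1 1 G.s M a om m).cd M a om m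
  have k6 := cont_Lo (j := j) (om := om) (m := m) hG hv.1 sH
  have a1 : ∫ r in x1..(3 * R1 / 2), ph a0 (γ / 2 - (3 + 2 * 1)) r * r *
      (lam om m ^ (j + 1 + 1) * bd M a om m (deriv (deriv v)) r) ≤
      x1 ^ (γ - 3) * T0 (j + 2) M a om m (rp M0 a0) (3 * R1 / 2) (deriv (deriv v)) := by
    rw [T0, ← intervalIntegral.integral_const_mul]
    refine nest hx.le (by linarith) le_rfl (by fun_prop) (continuousOn_const.mul (co0 hu.cd rp0))
      (fun r _ => by positivity) fun r hr => ?_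
    have r0 : 0 < r := x0.trans_le hr.1
    have e : ph a0 (γ / 2 - (3 + 2 * 1)) r * r ^ 7 ≤ x1 ^ (γ - 3) :=
      calc _ ≤ r ^ (2 * (γ / 2 - (3 + 2 * 1))) * r ^ 7 := by
            gcongr; exact ph_le (by linarith) r0 le_rfl
        _ = r ^ (γ - 3) := by
            rw [← Real.rpow_natCast, ← Real.rpow_add r0]; congr 1; push_cast; ring
        _ ≤ _ := Real.rpow_le_rpow_of_nonpos x0 hr.1 (by linarith)
    calc _ = ph a0 (γ / 2 - (3 + 2 * 1)) r * r ^ 7 * (lam om m ^ (j + 2) *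
          (‖D M a om m (deriv (deriv v)) r‖ ^ 2 / r ^ 4 +
            ka M a r om m ^ 2 * ‖deriv (deriv v) r‖ ^ 2 / r ^ 6)) := by rw [bd]; field_simp
      _ ≤ _ := by gcongr
  have a2 : ∫ r in R1..(2 * R1), R1 ^ (γ + 1 - 4 * 1) * (lam om m ^ (j + 1 + 2) *
      V om m 1 (deriv v) r) ≤ ∫ r in R1..(2 * R1), gc G true (j + 4) M a γ R1 om m v r :=
    integral_mono_on (by linarith) (Continuous.intervalIntegrable (by fun_prop) _ _)
      ((cont_gc hG hv.1 _ _ _ _ _ _ _).intervalIntegrable _ _) fun r _ => by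
        rw [show γ + 1 - 4 * 1 = γ - 3 by ring]
        exact le_add_of_le_of_nonneg (mul_le_mul_of_nonneg_left (V1_Wn hG hy.1 (j + 1))
          (by positivity)) (mul_nonneg (by positivity) (Wn_nonneg _))
  have a3 := nest (ψ := fun r => (245 + 72 * Y ^ 2) * Lo G j om m v (G.P 2 G.s M a om m v) r)
    (φ := fun r => lam om m ^ (j + 1 + 1) * (sg om m (deriv v) (G.P 1 G.s M a om m (deriv v)) r ^ 2 +
      ‖D M a om m (G.P 1 G.s M a om m (deriv v)) r -
        D M a om m (deriv (G.P 2 G.s M a om m v)) r‖ ^ 2))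
    hr (by linarith : x1 ≤ 3 * R1 / 2) (by linarith : 3 * R1 / 2 ≤ 2 * R1) (by fun_prop)
    (by fun_prop) (fun r _ => mul_nonneg (by positivity) Lo_nonneg) fun r hr => by
      have e1 := D_V1 (HZ M a hM2 ha2 r hr.1) (HY M a r (hM2.le.trans q2) (ha2.le.trans q2) hr om m) v
      have e2 : lam om m ^ (j + 2) * (lam om m * V om m 1 v r) ≤
          Lo G j om m v (G.P 2 G.s M a om m v) r :=
        (mul_le_mul_of_nonneg_left (P354RM.lam_V 1) (pow_pos l0 _).le).trans Lo_a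
      have e3 := mul_le_mul (om_sq om m) e1 (sq_nonneg _) l0.le
      simp only [DP1 hG hv.1, norm_real, norm_I, mul_pow, sq_abs]
      linarith only [sg1 (j := j) (k := G.s) (M := M) (a := a) (om := om) (m := m) (r := r) hG hv.1,
        mul_le_mul_of_nonneg_left e3 (pow_pos l0 (j + 2)).le,
        mul_le_mul_of_nonneg_left e2 (sq_nonneg Y)]
  have n1 : 0 ≤ T0 (j + 2) M a om m (rp M0 a0) (3 * R1 / 2) (deriv (deriv v)) :=
    integral_nonneg (by linarith) fun r _ => by positivity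
  have n2 := le_trans (integral_nonneg (by linarith) fun r _ =>
    mul_nonneg (by positivity) (mul_nonneg (by positivity) (V_nonneg 1))) a2
  rw [intervalIntegral.integral_const_mul (245 + 72 * Y ^ 2)] at a3
  rw [pair_lK h0 _ hr hx' (by linarith) (by linarith) (d := .R .one) trivial _ sH.cd hv.1.cd, neg_neg]
  simp only [Op.cv, T1]
  rw [show j + 1 + 2 = j + 3 from rfl] at H a2
  rw [show j + 1 + 1 = j + 2 from rfl] at H a1 a3
  refine (H.trans (add_le_add (add_le_add (add_le_add le_rfl (mul_le_mul_of_nonneg_left a1 C0))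
    (mul_le_mul_of_nonneg_left a2 C0)) (mul_le_mul_of_nonneg_left a3 c1))).trans ?_
  linarith only [mul_nonneg C0 n1, mul_nonneg (mul_nonneg C0 w0.le) n2]

theorem blk2 {M0 a0 γ x2 x3 : ℝ} (h0 : a0 ≠ 0) (ha : |a0| < M0) (hγ : 0 < γ) (h1 : γ ≤ 1)
    (hx : rp M0 a0 < x2) (hx' : x2 < x3) (j : ℕ) : ∃ c C : ℝ, 0 < c ∧ 0 ≤ C ∧ ∀ r0 R1 : ℝ, r0 ≤ x2 →
    x3 ≤ R1 → ∃ C1 dl : ℝ, 0 ≤ C1 ∧ 0 < dl ∧ ∀ M a : ℝ, |M - M0| < dl → |a - a0| < dl →
    ∀ (S : Type) [NormedAddCommGroup S] [InnerProductSpace ℂ S] (G : Ang S), G.Is → |G.s| = 2 →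
    ∀ (om m : ℝ) (v : ℝ → S), G.Md m v →
      c * T1 (j + 4) a0 (γ / 2 - (3 + 2 * 2)) M a om m x3 R1 v ≤
      -pair (lK a0 (γ / 2 - (3 + 2 * 2)) x2 x3 R1 (5 * R1 / 4) .one (j + 3)) M a om m
        r0 (2 * R1) (G.P 2 G.s M a om m v) v +
      C * T1 (j + 3) a0 (γ / 2 - (3 + 2 * 1)) M a om m x2 (5 * R1 / 4) (deriv v) +
      C * (∫ r in R1..(2 * R1), gc G true (j + 4) M a γ R1 om m v r) +
      C1 * ∫ r in r0..(2 * R1), Lo G j om m v (G.P 2 G.s M a om m v) r := by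
  obtain ⟨c, C, c0, C0, H⟩ := step2 h0 ha hγ h1 zero_le_two le_rfl hx hx' (j + 2)
  have x0 : 0 < x2 := (((abs_nonneg _).trans_lt ha).trans (P354XH.rp_gt ha)).trans hx
  refine ⟨c, C, c0, C0, fun r0 R1 hr hR => ?_⟩
  have R0 : 0 < R1 := by linarith
  obtain ⟨C1, dl, c1, d0, H⟩ := H R1 R1 (5 * R1 / 4) hR le_rfl (by linarith) (by linarith)
    (by linarith)
  refine ⟨C1 * 4, dl, by positivity, d0, fun M a hM ha' S _ _ G hG hs om m v hv => ?_⟩
  have hy := hG.sm_deriv hv.1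
  have sH := hG.sm_P hv.1 2 G.s M a om m
  have H := H M a hM ha' S G hG hs om m _ _ hv (cont_D sH.cd M a om m)
  have l0 := lam_pos om m
  have k1 := (ph_sm h0 (γ / 2 - (3 + 2 * 2))).continuous
  have k2 := cont_bd hy.cd M a om m
  have k3 := cont_V (om := om) (m := m) hv.1.cd 1
  have k4 := cont_sg hv.1.cd sH.cd om m
  have k6 := cont_Lo (j := j) (om := om) (m := m) hG hv.1 sH
  have a1 : ∫ r in x2..(5 * R1 / 4), ph a0 (γ / 2 - (3 + 2 * 2)) r * r *
      (lam om m ^ (j + 2 + 1) * bd M a om m (deriv v) r) ≤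
      T1 (j + 3) a0 (γ / 2 - (3 + 2 * 1)) M a om m x2 (5 * R1 / 4) (deriv v) := by
    refine integral_mono_on (by linarith) (Continuous.intervalIntegrable (by fun_prop) _ _)
      (ii (by linarith) (co1 h0 hy.cd x0)) fun r hr => ?_
    have r0 : 0 < r := x0.trans_le hr.1
    refine mul_le_mul_of_nonneg_right ?_ (mul_nonneg (by positivity) (bd_nonneg _ _ _ _ _ _))
    have s0 : 0 < r ^ 2 + a0 ^ 2 := by positivity
    have e : ph a0 (γ / 2 - (3 + 2 * 1)) r = ph a0 (γ / 2 - (3 + 2 * 2)) r * (r ^ 2 + a0 ^ 2) ^ 2 := by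
      rw [ph, ph, ← Real.rpow_natCast (r ^ 2 + a0 ^ 2) 2, ← Real.rpow_add s0]; congr 1; push_cast; ring
    have := ph_pos h0 (γ / 2 - (3 + 2 * 2)) r
    rw [e, le_div_iff₀ (by positivity), mul_assoc, show r * r ^ 3 = (r ^ 2) ^ 2 by ring]
    gcongr; linarith [sq_nonneg a0]
  have a2 : ∫ r in R1..(2 * R1), R1 ^ (γ + 1 - 4 * 2) * (lam om m ^ (j + 2 + 2) * V om m 1 v r) ≤
      ∫ r in R1..(2 * R1), gc G true (j + 4) M a γ R1 om m v r :=
    integral_mono_on (by linarith) (Continuous.intervalIntegrable (by fun_prop) _ _)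
      ((cont_gc hG hv.1 _ _ _ _ _ _ _).intervalIntegrable _ _) fun r _ => by
        rw [show γ + 1 - 4 * 2 = γ - 7 by ring]
        exact le_add_of_nonneg_of_le (mul_nonneg (by positivity) (Wn_nonneg _))
          (mul_le_mul_of_nonneg_left (V1_Wn hG hv.1 (j + 2)) (by positivity))
  have a3 := nest (ψ := fun r => 4 * Lo G j om m v (G.P 2 G.s M a om m v) r)
    (φ := fun r => lam om m ^ (j + 2 + 1) * sg om m v (G.P 2 G.s M a om m v) r ^ 2)
    hr (by linarith : x2 ≤ 5 * R1 / 4) (by linarith : 5 * R1 / 4 ≤ 2 * R1) (by fun_prop)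
    (by fun_prop) (fun r _ => mul_nonneg (by positivity) Lo_nonneg) fun r _ => sg2 hG sH
  rw [intervalIntegral.integral_const_mul 4] at a3
  rw [pair_lK h0 _ hr hx' (by linarith) (by linarith) (d := .one) trivial _ sH.cd hv.1.cd, neg_neg]
  simp only [sub_self, norm_zero, ne_eq, OfNat.ofNat_ne_zero, not_false_eq_true, zero_pow,
    add_zero] at H
  simp only [Op.cv]
  rw [T1]
  rw [show j + 2 + 2 = j + 4 from rfl] at H a2
  rw [show j + 2 + 1 = j + 3 from rfl] at H a1 a3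
  refine (H.trans (add_le_add (add_le_add (add_le_add le_rfl (mul_le_mul_of_nonneg_left a1 C0))
    (mul_le_mul_of_nonneg_left a2 C0)) (mul_le_mul_of_nonneg_left a3 c1))).trans_eq ?_
  rw [mul_assoc C1]

end Vale.Agent.P354RP
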