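import Vale.Agent.P354RP.Rec

/-!
The last member of the chain and the energy estimates of the three levels.
-/

open scoped ContDiff InnerProductSpace
open Complex (I)
open Set MeasureTheory intervalIntegral Filter Topology
open Vale.Agent.P354BF Vale.Agent.P354XN Vale.Agent.P354XT
open Vale.Agent.P354XH (K ka)
open Vale.Agent.P354RM (cd_der V V_one V_two cont_V V_nonneg Wn_nonneg cont_Wn cont_d1 cd_Nc oD
  oD_sm oD_ord cv_oD cd_cv md_cv)
open Vale.Agent.P354M0 (Lv cont_D cont_Lv)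
open Vale.Agent.P354ME (Er d1_nonneg cont_Er)

noncomputable section

namespace Vale.Agent.P354RP

section
variable {S : Type} [NormedAddCommGroup S] [InnerProductSpace ℂ S] {G : Ang S} {v H : ℝ → S}
  {M a om m r : ℝ} {j : ℕ}

variable (G) in
/-- The terms of lower order of the energy estimate. -/
def Le (j : ℕ) (om m : ℝ) (v H : ℝ → S) (r : ℝ) : ℝ := Wn G om m (j + 4) v r + Wn G om m (j + 3) H r

theorem Le_a : Wn G om m (j + 4) v r ≤ Le G j om m v H r := le_add_of_nonneg_right (Wn_nonneg _)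

theorem Le_nonneg : 0 ≤ Le G j om m v H r := (Wn_nonneg _).trans Le_a

theorem cont_Le (hG : G.Is) (hv : G.Sm v) (hH : G.Sm H) : Continuous (Le G j om m v H) :=
  (cont_Wn hG hv _).add (cont_Wn hG hH _)

theorem Lo_Le (hG : G.Is) (hv : G.Sm v) : Lo G j om m v H r ≤ 2 * Le G j om m v H r := by
  have e1 : lam om m ^ (j + 2) * V om m 2 v r ≤ Wn G om m (j + 4) v r := V2_Wn hG hv (j + 1)
  have e2 : Wn G om m (j + 3) v r ≤ Wn G om m (j + 4) v r := Wn_mono _
  rw [Lo, Le]; linarith only [e1, e2, Wn_nonneg (G := G) (om := om) (m := m) (v := H) (r := r) (j + 3)]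

theorem cont_gc' (hG : G.Is) (hv : G.Sm v) (n : ℕ) (M a γ R1 om m : ℝ) :
    Continuous (gc G true n M a γ R1 om m v) :=
  (continuous_const.mul (cont_Wn hG (hG.sm_deriv hv) n)).add
    (continuous_const.mul (cont_Wn hG hv _))

theorem blk0 (hG : G.Is) (hv : G.Sm v) {l : List Tm} {X B r0 R1 C0 C1 γ : ℝ} (hk : |G.s| ≤ B)
    (ha : |a| ≤ B) (hγ : 0 ≤ γ) (R1' : 1 ≤ R1) (hr : r0 ≤ R1) (c0 : 0 ≤ C0) (c1 : 0 ≤ C1)
    (h1 : X ≤ -pair l M a om m r0 (2 * R1) (G.P 0 G.s M a om m (deriv (deriv v))) (deriv (deriv v)) +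
      C0 * (∫ r in R1..(2 * R1), R1 ^ (-3 : ℝ) * (lam om m ^ (j + 2) *
        ‖Lv M a om m (deriv (deriv v)) r‖ ^ 2)) + C1 * ∫ r in r0..(2 * R1), (lam om m ^ (j + 2) *
        ‖deriv (deriv v) r‖ ^ 2 + d1 G om m (deriv (deriv v)) r))
    (h3 : |pair l M a om m r0 (2 * R1) (fun r => (om : ℂ) • I • deriv v r) (deriv (deriv v))| ≤
      C1 * ∫ r in r0..(2 * R1), lam om m ^ (j + 2) *
        (‖deriv (deriv v) r‖ ^ 2 + lam om m * ‖deriv v r‖ ^ 2))
    (h5 : ∀ H H' u : ℝ → S, ContDiff ℝ ∞ H → ContDiff ℝ ∞ H' → ContDiff ℝ ∞ u → ∀ p q : ℝ,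
      pair l M a om m r0 (2 * R1) (fun r => (p : ℂ) • H r + (q : ℂ) • H' r) u =
        p * pair l M a om m r0 (2 * R1) H u + q * pair l M a om m r0 (2 * R1) H' u) :
    X ≤ -pair l M a om m r0 (2 * R1) (deriv (deriv (G.P 2 G.s M a om m v))) (deriv (deriv v)) +
      C0 * (4 * (1 + (B + 2 * B ^ 2) ^ 2)) *
        (∫ r in R1..(2 * R1), gc G true (j + 4) M a γ R1 om m v r) +
      (C0 * (4 * (245 + 4 * (2 * R1) ^ 2)) + 9 * C1) *
        ∫ r in r0..(2 * R1), Lo G j om m v (G.P 2 G.s M a om m v) r := by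
  have hy := hG.sm_deriv hv
  have hu := hG.sm_deriv hy
  have sH := hG.sm_P hv 2 G.s M a om m
  have l0 := lam_pos om m
  have R0 : 0 < R1 := by linarith
  have k1 := hy.cont
  have k2 := hu.cont
  have k3 := cont_d1 (om := om) (m := m) hu
  have k4 := cont_Lv hu.cd M a om m
  have k5 := cont_gc' hG hv (j + 4) M a γ R1 om m
  have k6 := cont_Lo (j := j) (om := om) (m := m) hG hv sH
  have e := h5 _ _ _ (cd_der (cd_der sH.cd)) ((hy.cd.const_smul I).const_smul (om : ℂ)) hu.cd 1 (-8)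
  rw [show G.P 0 G.s M a om m (deriv (deriv v)) = fun r => ((1 : ℝ) : ℂ) •
    deriv (deriv (G.P 2 G.s M a om m v)) r + ((-8 : ℝ) : ℂ) • (om : ℂ) • I • deriv v r from
      funext fun r => by rw [P0_eq hG hv]; push_cast; module, e] at h1
  have a1 : ∫ r in r0..(2 * R1), lam om m ^ (j + 2) *
      (‖deriv (deriv v) r‖ ^ 2 + lam om m * ‖deriv v r‖ ^ 2) ≤ _ :=
    nest le_rfl (by linarith) le_rfl (by fun_prop) k6.continuousOn (fun r _ => Lo_nonneg) fun r _ =>
      le_trans (mul_le_mul_of_nonneg_left (by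
        rw [V_two]; linarith [mul_nonneg (sq_nonneg (lam om m)) (sq_nonneg ‖v r‖)])
        (pow_pos l0 _).le) Lo_a
  have a2 : ∫ r in r0..(2 * R1), (lam om m ^ (j + 2) * ‖deriv (deriv v) r‖ ^ 2 +
      d1 G om m (deriv (deriv v)) r) ≤ _ :=
    nest le_rfl (by linarith) le_rfl (by fun_prop) k6.continuousOn (fun r _ => Lo_nonneg) fun r _ =>
      add_le_add (mul_le_mul_of_nonneg_left (by rw [V_two]; exact le_add_of_nonneg_left (by positivity))
        (pow_pos l0 _).le) (le_add_of_le_of_nonneg ((le_mul_of_one_le_left (d1_nonneg _ _ _ _)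
          (one_le_pow₀ (one_le_lam om m))).trans (d1u_Wn hG hv j)) (Wn_nonneg _))
  have a3 := le3 (l := 1) (c := 4 * (245 + 4 * (2 * R1) ^ 2)) (by linarith : R1 ≤ 2 * R1)
    (f := fun r => R1 ^ (-3 : ℝ) * (lam om m ^ (j + 2) * ‖Lv M a om m (deriv (deriv v)) r‖ ^ 2))
    (g1 := fun r => 4 * (1 + (B + 2 * B ^ 2) ^ 2) * gc G true (j + 4) M a γ R1 om m v r)
    (g2 := fun _ => 0) (by fun_prop) (by fun_prop) (by fun_prop) k6 fun r hr => by
      have e1 := Lv_le (j := j) (M := M) (om := om) (m := m) hG hv hk ha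
        (show |r| ≤ 2 * R1 by rw [abs_of_nonneg (by linarith [hr.1])]; exact hr.2)
      have e2 : R1 ^ (-3 : ℝ) ≤ R1 ^ (γ - 3) := Real.rpow_le_rpow_of_exponent_le R1' (by linarith)
      have e3 : R1 ^ (-3 : ℝ) ≤ 1 := Real.rpow_le_one_of_one_le_of_nonpos R1' (by norm_num)
      have e4 : R1 ^ (-3 : ℝ) * Wn G om m (j + 4) (deriv v) r ≤
          gc G true (j + 4) M a γ R1 om m v r :=
        le_add_of_le_of_nonneg (mul_le_mul_of_nonneg_right e2 (Wn_nonneg _))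
          (mul_nonneg (by positivity) (Wn_nonneg _))
      have e5 := mul_le_mul_of_nonneg_right e3 (Lo_nonneg (G := G) (j := j) (om := om) (m := m)
        (v := v) (H := G.P 2 G.s M a om m v) (r := r))
      linarith only [mul_le_mul_of_nonneg_left e1 (by positivity : 0 ≤ R1 ^ (-3 : ℝ)),
        mul_le_mul_of_nonneg_left e4 (by positivity : 0 ≤ 4 * (1 + (B + 2 * B ^ 2) ^ 2)),
        mul_le_mul_of_nonneg_left e5 (by positivity : 0 ≤ 4 * (245 + 4 * (2 * R1) ^ 2))]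
  have a4 := mul_le_mul_of_nonneg_left (int_sub k6.continuousOn (fun r _ => Lo_nonneg) hr
    (by linarith : R1 ≤ 2 * R1) le_rfl) (by positivity : 0 ≤ 4 * (245 + 4 * (2 * R1) ^ 2))
  rw [intervalIntegral.integral_zero, add_zero, one_mul, intervalIntegral.integral_const_mul
    (4 * (1 + (B + 2 * B ^ 2) ^ 2))] at a3
  refine (h1.trans (add_le_add (add_le_add le_rfl (mul_le_mul_of_nonneg_left
    (a3.trans (add_le_add le_rfl a4)) c0)) (mul_le_mul_of_nonneg_left a2 c1))).trans ?_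
  linarith only [(abs_le.1 (h3.trans (mul_le_mul_of_nonneg_left a1 c1))).2]

end

theorem eng0 {f : ℝ × ℝ × ℝ → ℝ} (hf : ContDiff ℝ ∞ f) (M0 a0 : ℝ) {x y : ℝ} (hxy : x ≤ y) :
    ∃ C : ℝ, 0 ≤ C ∧ ∀ M a : ℝ, |M - M0| ≤ 1 → |a - a0| ≤ 1 →
    ∀ (S : Type) [NormedAddCommGroup S] [InnerProductSpace ℂ S] (G : Ang S), G.Is →
    ∀ (j : ℕ) (om m : ℝ) (v : ℝ → S), G.Md m v →
      ∫ r in x..y, (lam om m ^ (j + 2) *
        ‖deriv (deriv (Nc G (fun r => f (M, a, r)) M a om m v)) r -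
          Nc G (fun r => f (M, a, r)) M a om m (deriv (deriv v)) r‖ ^ 2 +
        lam om m ^ (j + 1) * (d1 G om m (deriv (deriv v)) r +
          ‖G.P 0 G.s M a om m (deriv (deriv v)) r‖ ^ 2)) ≤
      C * ∫ r in x..y, Le G j om m v (G.P 2 G.s M a om m v) r := by
  obtain ⟨C, c0, H⟩ := er_le hf M0 a0 x y (d := .R (.R .one)) trivial (i := 2) (i' := 0) le_rfl rfl
  refine ⟨C + 260, by positivity, fun M a hM ha S _ _ G hG j om m v hv => ?_⟩
  have hy := hG.sm_deriv hv.1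
  have hu := hG.sm_deriv hy
  have sH := hG.sm_P hv.1 2 G.s M a om m
  have l0 := lam_pos om m
  have k1 := (cd_der (cd_der (cd_Nc (G := G) (M := M) (a := a) (om := om) (m := m) hf
    hv.1.cd))).continuous
  have k2 := (cd_Nc (G := G) (M := M) (a := a) (om := om) (m := m) hf hu.cd).continuous
  have k3 := cont_d1 (om := om) (m := m) hu
  have k4 := (hG.sm_P hu 0 G.s M a om m).cont
  have k5 := cont_Le (j := j) (om := om) (m := m) hG hv.1 sH
  rw [← intervalIntegral.integral_const_mul]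
  refine nest le_rfl hxy le_rfl (by fun_prop) (by fun_prop)
    (fun r _ => mul_nonneg (by positivity) Le_nonneg) fun r hr => ?_
  have e1 : lam om m ^ (j + 2) * _ + lam om m ^ (j + 1) * _ ≤ _ :=
    (H M a r hM ha hr S G hG j om m v hv).trans (mul_le_mul_of_nonneg_left
      (Le_a (H := G.P 2 G.s M a om m v)) c0)
  simp only [Op.cv] at e1
  have e2 := (Lo_b (j := j) (om := om) (m := m) (v := v) (r := r) hG sH).trans (Lo_Le hG hv.1)
  have e3 := P354RM.nadd (deriv (deriv (G.P 2 G.s M a om m v)) r)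
    (-(((8 * om : ℝ) : ℂ) • I • deriv v r))
  rw [← sub_eq_add_neg, ← P0_eq hG hv.1, norm_neg, norm_real, norm_I, mul_pow, sq_abs] at e3
  have e4 := mul_le_mul_of_nonneg_right (om_sq om m) (sq_nonneg ‖deriv v r‖)
  have e5 : lam om m * ‖deriv v r‖ ^ 2 ≤ lam om m * V om m 2 v r :=
    le_trans (b := V om m 2 v r) (by
      rw [V_two]
      linarith only [mul_nonneg (sq_nonneg (lam om m)) (sq_nonneg ‖v r‖),
        sq_nonneg (‖deriv (deriv v) r‖)])
      (le_mul_of_one_le_left (V_nonneg 2) (one_le_lam om m))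
  have e6 : ‖G.P 0 G.s M a om m (deriv (deriv v)) r‖ ^ 2 ≤
      2 * ‖deriv (deriv (G.P 2 G.s M a om m v)) r‖ ^ 2 + 128 * (lam om m * V om m 2 v r) := by
    linarith only [e3, e4, e5]
  have e7 := mul_le_mul_of_nonneg_left e6 (pow_pos l0 (j + 1)).le
  have p := (pow_pos l0 j).le
  have n1 := mul_nonneg p (mul_nonneg (pow_pos l0 3).le (sq_nonneg ‖G.P 2 G.s M a om m v r‖))
  have n2 := mul_nonneg p (mul_nonneg (pow_pos l0 2).le (sq_nonneg ‖deriv (G.P 2 G.s M a om m v) r‖))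
  have n3 := mul_nonneg p (mul_nonneg l0.le (sq_nonneg ‖deriv (deriv (G.P 2 G.s M a om m v)) r‖))
  have n4 := mul_nonneg p (mul_nonneg (pow_pos l0 2).le
    (V_nonneg (om := om) (m := m) (v := v) (r := r) 2))
  rw [pow_succ _ j] at e1 e7 ⊢
  linarith only [e1, e2, e7, n1, n2, n3, n4,
    Le_nonneg (G := G) (j := j) (om := om) (m := m) (v := v) (H := G.P 2 G.s M a om m v) (r := r)]

theorem engK {M0 a0 rm x x' y0 s : ℝ} {f : ℝ × ℝ × ℝ → ℝ} (h0 : a0 ≠ 0) (ha : |a0| < M0)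
    (hf : Slope M0 a0 rm f) (hx : rp M0 a0 < x) (hx' : x < x') (hy : x' ≤ y0) {d : Op} (hd : d.Sm)
    {i i' : ℕ} (hi : d.ord + 1 ≤ i) (h2 : i + i' = 2) (hs' : |s + 1| ≤ 3) (e : ℝ) (j : ℕ) :
    ∃ c : ℝ, 0 < c ∧ ∀ R R' p q : ℝ, y0 ≤ R → R < R' → y0 + 1 ≤ R' → p ≤ x → R' ≤ q →
    ∃ C dl : ℝ, 0 ≤ C ∧ 0 < dl ∧ ∀ M a : ℝ, |M - M0| < dl → |a - a0| < dl →
    ∀ (S : Type) [NormedAddCommGroup S] [InnerProductSpace ℂ S] (G : Ang S), G.Is → |G.s| = 2 →
    ∀ (om m : ℝ) (v : ℝ → S), G.Md m v → (∀ r, lam om m ^ (j + 1 + i' + 1) *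
      sg om m (d.cv M a om m v) (G.P s G.s M a om m (d.cv M a om m v)) r ^ 2 ≤
        245 * Lo G j om m v (G.P 2 G.s M a om m v) r) →
      c * (∫ r in x'..y0, lam om m ^ (j + 1 + i' + 2) * ‖D M a om m (d.cv M a om m v) r‖ ^ 2) ≤
      -pair (lK a0 e x x' R R' d (j + 1 + i' + 1)) M a om m p q
        (Nc G (fun r => f (M, a, r)) M a om m v) v +
      C * ∫ r in p..q, Le G j om m v (G.P 2 G.s M a om m v) r := by
  obtain ⟨c, c0, H⟩ := enK (e := e) h0 ha hf hx hx' hy (j + 1 + i')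
  obtain ⟨B, d2, -, p2, q2, HZ⟩ := zn_near ha hx
  refine ⟨c, c0, fun R R' p q h3 h4 h5 h6 h7 => ?_⟩
  obtain ⟨C, dl, C0, d0, H⟩ := H R R' h3 h4 h5
  obtain ⟨Y, -, HY⟩ := cr_ex s M0 a0 x R'
  obtain ⟨C2, c2, H2⟩ := er_le hf.sm M0 a0 x R' (oD_sm hd) ((oD_ord d).le.trans hi) h2
  refine ⟨C * (C2 + 16 * Y ^ 2 * 490), min dl d2, by positivity, lt_min d0 p2,
    fun M a hM ha' S _ _ G hG hs om m v hv hσ => ?_⟩
  have hM2 := hM.trans_le (min_le_right _ _)
  have ha2 := ha'.trans_le (min_le_right _ _)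
  have sN := cd_Nc (G := G) (M := M) (a := a) (om := om) (m := m) hf.sm hv.1.cd
  have hz := md_cv (M := M) (a := a) (om := om) (m := m) hG hv d hd
  have hw := md_cv (M := M) (a := a) (om := om) (m := m) hG hv _ (oD_sm hd)
  have kZ := (cd_cv (M := M) (a := a) (om := om) (m := m) sN _ (oD_sm hd)).continuous
  have H := H M a (hM.trans_le (min_le_left _ _)) (ha'.trans_le (min_le_left _ _)) S G hG hs (s + 1)
    om m _ _ hs' hw kZ
  have l0 := lam_pos om m
  have sH := hG.sm_P hv.1 2 G.s M a om m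
  have k5 := cont_Le (j := j) (om := om) (m := m) hG hv.1 sH
  have a1 := nest (ψ := fun r => (C2 + 16 * Y ^ 2 * 490) * Le G j om m v (G.P 2 G.s M a om m v) r)
    h6 (by linarith : x ≤ R') h7 (cont_Er hG hw.1 kZ hf.sm.continuous (j + 1 + i') G.s (s + 1) M a
      om m).continuousOn (by fun_prop) (fun r _ => mul_nonneg (by positivity) Le_nonneg)
    fun r hr => by
      have e1 := (H2 M a r (hM2.le.trans q2) (ha2.le.trans q2) hr S G hG j om m v hv).trans
        (mul_le_mul_of_nonneg_left (Le_a (H := G.P 2 G.s M a om m v)) c2)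
      have e2 := mul_le_mul_of_nonneg_left (PD_sg (k := G.s) hG hz.1 (HZ M a hM2 ha2 r hr.1)
        (HY M a r (hM2.le.trans q2) (ha2.le.trans q2) hr om m)) (pow_pos l0 (j + 1 + i')).le
      have e3 := mul_le_mul_of_nonneg_left ((hσ r).trans (mul_le_mul_of_nonneg_left (Lo_Le hG hv.1)
        (by norm_num))) (by positivity : 0 ≤ 16 * Y ^ 2)
      rw [← cv_oD] at e2
      rw [pow_succ _ (j + 1 + i')] at e3
      rw [Er]
      refine (add_le_add e1 e2).trans ?_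
      linarith only [e3]
  have k1 := cont_d1 (om := om) (m := m) hw.1
  have k2 := hw.1.cont
  have a2 : ∫ r in x'..y0, lam om m ^ (j + 1 + i' + 2) * ‖(oD d).cv M a om m v r‖ ^ 2 ≤
      ∫ r in x'..y0, lam om m ^ (j + 1 + i' + 1) * d1 G om m ((oD d).cv M a om m v) r :=
    nest le_rfl hy le_rfl (by fun_prop) (by fun_prop)
      (fun r _ => mul_nonneg (by positivity) (d1_nonneg _ _ _ _)) fun r _ => by
        rw [pow_succ, mul_assoc, d1]
        exact mul_le_mul_of_nonneg_left (le_add_of_le_of_nonneg (le_add_of_nonneg_left (sq_nonneg _))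
          (by positivity)) (by positivity)
  rw [intervalIntegral.integral_const_mul (C2 + 16 * Y ^ 2 * 490)] at a1
  rw [pair_lK h0 _ h6 hx' h4 h7 hd _ sN hv.1.cd, neg_neg, ← cv_oD, ← cv_oD, mul_assoc C]
  exact (mul_le_mul_of_nonneg_left a2 c0.le).trans
    (H.trans (add_le_add le_rfl (mul_le_mul_of_nonneg_left a1 C0)))

end Vale.Agent.P354RP
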