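import Vale.Agent.P354RP.Step4

/-!
The bulk and the energy of one level of the recovery, and the terms of the multiplier.
-/

open scoped ContDiff InnerProductSpace
open Complex (I)
open Set MeasureTheory intervalIntegral Filter Topology
open Vale.Agent.P354BF Vale.Agent.P354XN Vale.Agent.P354XT
open Vale.Agent.P354XH (K ka HP)
open Vale.Agent.P354RM (box_bd cd_der cd_has V V_one cont_V V_nonneg oK oD Oks)
open Vale.Agent.P354ME (cont_ri near_box Er)

noncomputable section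

namespace Vale.Agent.P354RP

variable {S : Type} [NormedAddCommGroup S] [InnerProductSpace ℂ S]

theorem sq2 (p q : ℝ) : (p + q) ^ 2 ≤ 2 * (p ^ 2 + q ^ 2) := by linarith [sq_nonneg (p - q)]

theorem V1_ge (om m : ℝ) (y : ℝ → S) (r : ℝ) :
    (‖deriv y r‖ + La om m * ‖y r‖) ^ 2 ≤ 2 * V om m 1 y r := by
  rw [V_one, ← La_sq, ← mul_pow, add_comm ((La om m * _) ^ 2)]; exact sq2 _ _

theorem KD_le {B M a r : ℝ} (hz : Zn B M a r) (om m : ℝ) (y : ℝ → S) :
    (|K a r om m| * ‖D M a om m y r‖) ^ 2 ≤ 162 * B ^ 12 * r ^ 8 * (lam om m * V om m 1 y r) := by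
  have r0 := hz.r0
  have B0 := hz.B0
  have L0 := La_pos om m
  have b3 : 1 ≤ B ^ 3 := one_le_pow₀ hz.B1
  have e1 : |K a r om m| ≤ 3 * B ^ 3 * r ^ 2 * La om m := by
    have c1 : 1 ≤ B ^ 2 * r ^ 2 := by rw [← mul_pow]; exact one_le_pow₀ hz.rB
    have c2 : r ^ 2 + a ^ 2 ≤ 2 * B ^ 3 * r ^ 2 := by nlinarith [hz.ar, sq_nonneg r]
    have c3 : |a| ≤ B ^ 3 * r ^ 2 := by nlinarith [hz.aB]
    refine (abs_sub _ _).trans ?_
    rw [abs_mul, abs_mul, abs_of_nonneg (by positivity : 0 ≤ r ^ 2 + a ^ 2)]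
    linarith [mul_le_mul (om_La om m) c2 (by positivity) L0.le,
      mul_le_mul c3 (m_La om m) (abs_nonneg _) (by positivity)]
  have e2 : ‖D M a om m y r‖ ≤ 3 * B ^ 3 * r ^ 2 * (‖deriv y r‖ + La om m * ‖y r‖) := by
    refine (n2 _ _ _ _).trans ?_
    rw [abs_of_nonneg hz.De0]
    have : De M a r ≤ 3 * B ^ 3 * r ^ 2 := by nlinarith [hz.De1, sq_nonneg r]
    linarith [mul_le_mul_of_nonneg_right this (norm_nonneg (deriv y r)),
      mul_le_mul_of_nonneg_right e1 (norm_nonneg (y r))]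
  calc _ ≤ (3 * B ^ 3 * r ^ 2 * La om m *
        (3 * B ^ 3 * r ^ 2 * (‖deriv y r‖ + La om m * ‖y r‖))) ^ 2 := by gcongr
    _ = 81 * B ^ 12 * r ^ 8 * (La om m ^ 2 * (‖deriv y r‖ + La om m * ‖y r‖) ^ 2) := by ring
    _ ≤ 81 * B ^ 12 * r ^ 8 * (La om m ^ 2 * (2 * V om m 1 y r)) := by gcongr; exact V1_ge _ _ _ _
    _ = _ := by rw [La_sq]; ring

theorem bd_le {B Y s M a r om m : ℝ} (hz : Zn B M a r) (hc : Cr Y s M a r om m) (y H : ℝ → S) :
    bd M a om m y r ≤ 2 * Y ^ 3 * sg om m y H r ^ 2 := by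
  have L0 := La_pos om m
  have Y0 : 0 < Y := one_pos.trans_le hc.Y1
  have e0 : ‖deriv y r‖ + La om m * ‖y r‖ ≤ sg om m y H r := by
    rw [sg]; linarith [norm_nonneg (H r), div_nonneg (norm_nonneg (deriv H r)) L0.le]
  have s0 : 0 ≤ sg om m y H r := le_trans (by positivity) e0
  have e1 : ‖D M a om m y r‖ ≤ Y * sg om m y H r :=
    (D_le hz hc y).trans (mul_le_mul_of_nonneg_left e0 Y0.le)
  have e2 : |ka M a r om m| * ‖y r‖ ≤ Y * sg om m y H r :=
    (mul_le_mul_of_nonneg_right hc.ka (norm_nonneg _)).trans (by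
      rw [mul_assoc]; gcongr; linarith [norm_nonneg (deriv y r)])
  have e3 := mul_le_mul hc.r2 (pow_le_pow_left₀ (norm_nonneg _) e1 2) (sq_nonneg _) Y0.le
  have e4 := (pow_le_pow_left₀ (by positivity) e2 2).trans
    (le_mul_of_one_le_left (sq_nonneg _) hc.Y1)
  rw [mul_pow, sq_abs] at e4
  rw [bd]; linarith

theorem step2 {M0 a0 γ s x x' : ℝ} (h0 : a0 ≠ 0) (ha : |a0| < M0) (hγ : 0 < γ) (h1 : γ ≤ 1)
    (s0 : 0 ≤ s) (s2 : s ≤ 2) (hx : rp M0 a0 < x) (hx' : x < x') (j : ℕ) :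
    ∃ c C : ℝ, 0 < c ∧ 0 ≤ C ∧ ∀ ρ R R' : ℝ, x' ≤ ρ → ρ ≤ R → R < R' → R' ≤ 6 * (R' - R) →
    R' ≤ 2 * ρ → ∃ C1 dl : ℝ, 0 ≤ C1 ∧ 0 < dl ∧ ∀ M a : ℝ, |M - M0| < dl → |a - a0| < dl →
    ∀ (S : Type) [NormedAddCommGroup S] [InnerProductSpace ℂ S] (G : Ang S), G.Is → |G.s| = 2 →
    ∀ (om m : ℝ) (y Z : ℝ → S), G.Md m y → Continuous Z →
      c * (∫ r in x'..R, ph a0 (γ / 2 - (3 + 2 * s)) r / r ^ 3 *
        (lam om m ^ (j + 2) * bd M a om m y r)) ≤
      (om ^ 2 + m ^ 2) ^ (j + 1) * (∫ r in x..R', ct x x' R R' r * ph a0 (γ / 2 - (3 + 2 * s)) r *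
        K a r om m * ri (I • D M a om m y r) (Z r)) +
      C * (∫ r in x..R', ph a0 (γ / 2 - (3 + 2 * s)) r * r *
        (lam om m ^ (j + 1) * bd M a om m (deriv y) r)) +
      C * (∫ r in ρ..(2 * ρ), ρ ^ (γ + 1 - 4 * s) * (lam om m ^ (j + 2) * V om m 1 y r)) +
      C1 * ∫ r in x..R', lam om m ^ (j + 1) * (sg om m y (G.P s G.s M a om m y) r ^ 2 +
        ‖D M a om m (G.P s G.s M a om m y) r - Z r‖ ^ 2) := by
  obtain ⟨c, C, c0, C0, H⟩ := step h0 ha hγ h1 s0 s2 hx hx'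
  obtain ⟨B, d1', B2, p1, q1, HZ⟩ := zn_near ha hx
  have B0 : 0 < B := by linarith
  have x0 : 0 < x := (HZ M0 a0 (by simpa using p1) (by simpa using p1) x le_rfl).r0
  refine ⟨c, C + C * (162 * B ^ 12 * 2 ^ 7), c0, by positivity, fun ρ R R' hρ hR hR' h6 h2 => ?_⟩
  obtain ⟨C1, dl, c1, d0, H⟩ := H R R' (hρ.trans hR) hR' h6
  obtain ⟨Y, Y1, HY⟩ := cr_ex s M0 a0 x R'
  have Y0 : 0 < Y := by linarith
  obtain ⟨Φ, Φ1, HΦ⟩ := box_bd M0 a0 x R' (c := fun p => ph a0 (γ / 2 - (3 + 2 * s)) p.2.2)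
    ((ph_sm h0 _).continuous.comp (by fun_prop))
  have Φ0 : 0 < Φ := by linarith
  refine ⟨C1 + c * (j + 1) * (Φ * B ^ 3 * (2 * Y ^ 3)), min dl d1', by positivity, lt_min d0 p1,
    fun M a hM ha' S _ _ G hG hs om m y Z hy hZ => ?_⟩
  have H := H M a (hM.trans_le (min_le_left _ _)) (ha'.trans_le (min_le_left _ _)) S G hG hs om m y
    Z hy hZ
  have hM1 := hM.trans_le (min_le_right _ _)
  have ha1 := ha'.trans_le (min_le_right _ _)
  have HZ' := HZ M a hM1 ha1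
  have HΦ' := fun r hr => (abs_le.1 (HΦ M a r (hM1.le.trans q1) (ha1.le.trans q1) hr)).2
  have ρ0 : 0 < ρ := x0.trans (hx'.trans_le hρ)
  have φρ := fun r (hr : ρ ≤ r) => ph_le (a0 := a0) (show γ / 2 - (3 + 2 * s) ≤ 0 by linarith) ρ0 hr
  have k1 := (ph_sm h0 (γ / 2 - (3 + 2 * s))).continuous
  have pφ := ph_pos h0 (γ / 2 - (3 + 2 * s))
  simp only at HΦ'
  generalize ph a0 (γ / 2 - (3 + 2 * s)) = φ at *
  have xR : x ≤ R := hx'.le.trans (hρ.trans hR)
  have sH := hG.sm_P hy.1 s G.s M a om m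
  have k4 := cont_bd hy.1.cd M a om m
  have k6 := (cd_K a om m).continuous
  have k7 := P354M0.cont_D hy.1.cd M a om m
  have k8 := P354M0.cont_D sH.cd M a om m
  have k9 := cont_sg hy.1.cd sH.cd om m
  have k10 := cont_V (om := om) (m := m) hy.1.cd 1
  have l0 := lam_pos om m
  have nz : ∀ {p q : ℝ}, x ≤ p → ∀ r ∈ Icc p q, r ≠ 0 := fun e r hr =>
    (x0.trans_le (e.trans hr.1)).ne'
  have a1 : ∫ r in x'..R, φ r / r ^ 3 * (lam om m * bd M a om m y r) ≤
      ∫ r in x..R', lam om m * (Φ * B ^ 3 * (2 * Y ^ 3)) * (sg om m y (G.P s G.s M a om m y) r ^ 2 +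
        ‖D M a om m (G.P s G.s M a om m y) r - Z r‖ ^ 2) :=
    nest hx'.le (hρ.trans hR) hR'.le ((k1.continuousOn.div (by fun_prop)
      fun r hr => pow_ne_zero 3 (nz hx'.le r hr)).mul (by fun_prop)) (by fun_prop)
      (fun r _ => by positivity) fun r hr => by
        have mr : r ∈ Icc x R' := ⟨hx'.le.trans hr.1, hr.2.trans hR'.le⟩
        have hz := HZ' r mr.1
        have r0 := hz.r0
        have e1 := bd_le hz (HY M a r (hM1.le.trans q1) (ha1.le.trans q1) mr om m) y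
          (G.P s G.s M a om m y)
        have e2 : φ r / r ^ 3 ≤ Φ * B ^ 3 := by
          rw [div_eq_mul_one_div, ← one_pow 3, ← div_pow]
          exact mul_le_mul (HΦ' r mr) (pow_le_pow_left₀ (by positivity) hz.inv 3) (by positivity) Φ0.le
        calc _ ≤ Φ * B ^ 3 * (lam om m * (2 * Y ^ 3 * (sg om m y (G.P s G.s M a om m y) r ^ 2 +
              ‖D M a om m (G.P s G.s M a om m y) r - Z r‖ ^ 2))) := by
              gcongr
              · exact mul_nonneg l0.le (bd_nonneg _ _ _ _ _ _)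
              · exact e1.trans (by gcongr; exact le_add_of_nonneg_right (sq_nonneg _))
          _ = _ := by ring
  have a2 : ∫ r in R..R', φ r / r * (|K a r om m| * ‖D M a om m y r‖) ^ 2 ≤
      ∫ r in ρ..(2 * ρ), 162 * B ^ 12 * 2 ^ 7 * lam om m * (ρ ^ (γ + 1 - 4 * s) * V om m 1 y r) :=
    nest hR hR'.le h2 ((k1.continuousOn.div (by fun_prop) (nz xR)).mul (by fun_prop)) (by fun_prop)
      (fun r _ => by have := V_nonneg (om := om) (m := m) (v := y) (r := r) 1; positivity)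
      fun r hr => by
        have hz := HZ' r (xR.trans hr.1)
        have r0 := hz.r0
        have v0 := V_nonneg (om := om) (m := m) (v := y) (r := r) 1
        have e : ρ ^ (γ + 1 - 4 * s) = ρ ^ (2 * (γ / 2 - (3 + 2 * s))) * ρ ^ 7 := by
          rw [← Real.rpow_natCast, ← Real.rpow_add ρ0]; congr 1; push_cast; ring
        have := (pφ r).le
        calc _ ≤ φ r / r * (162 * B ^ 12 * r ^ 8 * (lam om m * V om m 1 y r)) := by
              gcongr; exact KD_le hz om m y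
          _ = 162 * B ^ 12 * (φ r * r ^ 7) * (lam om m * V om m 1 y r) := by field_simp
          _ ≤ 162 * B ^ 12 * (ρ ^ (2 * (γ / 2 - (3 + 2 * s))) * (2 * ρ) ^ 7) *
              (lam om m * V om m 1 y r) := by
              gcongr; exacts [φρ r (hR.trans hr.1), hr.2.trans h2]
          _ = _ := by rw [e]; ring
  have n1 : 0 ≤ ∫ r in x'..R, φ r / r ^ 3 * (lam om m * bd M a om m y r) :=
    integral_nonneg (hρ.trans hR) fun r hr => by
      have := pφ r; have := x0.trans (hx'.trans_le hr.1); have := bd_nonneg M a om m y r; positivity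
  have n2 : 0 ≤ ∫ r in x..R', φ r * r * bd M a om m (deriv y) r :=
    integral_nonneg (xR.trans hR'.le) fun r hr => by
      have := pφ r; have := x0.trans_le hr.1; have := bd_nonneg M a om m (deriv y) r; positivity
  have n3 : 0 ≤ ∫ r in ρ..(2 * ρ), ρ ^ (γ + 1 - 4 * s) * V om m 1 y r :=
    integral_nonneg (by linarith) fun r _ => by
      have := V_nonneg (om := om) (m := m) (v := y) (r := r) 1; positivity
  have n4 : 0 ≤ ∫ r in x..R', (sg om m y (G.P s G.s M a om m y) r ^ 2 +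
      ‖D M a om m (G.P s G.s M a om m y) r - Z r‖ ^ 2) :=
    integral_nonneg (xR.trans hR'.le) fun r _ => by positivity
  have t1 : ∀ r, φ r / r ^ 3 * (lam om m ^ (j + 2) * bd M a om m y r) =
      lam om m ^ (j + 1) * (φ r / r ^ 3 * (lam om m * bd M a om m y r)) := fun r => by ring
  have t2 : ∀ r, φ r * r * (lam om m ^ (j + 1) * bd M a om m (deriv y) r) =
      lam om m ^ (j + 1) * (φ r * r * bd M a om m (deriv y) r) := fun r => by ring
  have t3 : ∀ r, ρ ^ (γ + 1 - 4 * s) * (lam om m ^ (j + 2) * V om m 1 y r) =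
      lam om m ^ (j + 2) * (ρ ^ (γ + 1 - 4 * s) * V om m 1 y r) := fun r => by ring
  simp only [t1, t2, t3, intervalIntegral.integral_const_mul (lam om m ^ _)]
  rw [intervalIntegral.integral_const_mul] at a1 a2
  have u0 : 0 ≤ (om ^ 2 + m ^ 2) ^ (j + 1) := by positivity
  have u1 : (om ^ 2 + m ^ 2) ^ (j + 1) ≤ lam om m ^ (j + 1) :=
    pow_le_pow_left₀ (by positivity) (by rw [lam]; linarith) _
  have u2 : lam om m ^ (j + 1) ≤ (om ^ 2 + m ^ 2) ^ (j + 1) + (j + 1) * lam om m ^ j := by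
    have := P354ME.lam_le j (show 0 ≤ om ^ 2 + m ^ 2 by positivity)
    rwa [← add_assoc] at this
  have H' := H.trans (add_le_add (add_le_add le_rfl (mul_le_mul_of_nonneg_left a2 C0)) le_rfl)
  have u3 := mul_le_mul_of_nonneg_left H' u0
  have u4 := mul_le_mul_of_nonneg_left (mul_le_mul_of_nonneg_right u2 n1) c0.le
  have u5 := mul_le_mul_of_nonneg_left a1 (by positivity : 0 ≤ c * ((j + 1) * lam om m ^ j))
  have u6 := mul_le_mul_of_nonneg_left (mul_le_mul_of_nonneg_right u1 n2) C0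
  have u7 := mul_le_mul_of_nonneg_left (mul_le_mul_of_nonneg_right u1 n3)
    (by positivity : 0 ≤ C * (162 * B ^ 12 * 2 ^ 7 * lam om m))
  have u8 := mul_le_mul_of_nonneg_left (mul_le_mul_of_nonneg_right u1 n4) c1
  have u9 := mul_nonneg (by positivity : 0 ≤ C * (162 * B ^ 12 * 2 ^ 7) * lam om m ^ (j + 1)) n2
  have u10 := mul_nonneg (by positivity : 0 ≤ C * lam om m ^ (j + 2)) n3
  simp only [pow_succ (lam om m)] at u4 u6 u7 u8 u9 u10 ⊢
  linarith only [u3, u4, u5, u6, u7, u8, u9, u10]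

theorem low_bd {φ : ℝ → ℝ} (h : Continuous φ) (p : ∀ r, 0 < φ r) (x y : ℝ) :
    ∃ c, 0 < c ∧ ∀ r ∈ Icc x y, c ≤ φ r := by
  rcases le_or_gt x y with e | e
  · obtain ⟨ρ, -, k⟩ := isCompact_Icc.exists_isMinOn (nonempty_Icc.2 e) h.continuousOn
    exact ⟨_, p ρ, fun r hr => k hr⟩
  · exact ⟨1, one_pos, fun r hr => absurd (hr.1.trans hr.2) (not_le.2 e)⟩

/-- The energy of the multiplier of one level. -/
theorem enK {M0 a0 rm e x x' y0 : ℝ} {f : ℝ × ℝ × ℝ → ℝ} (h0 : a0 ≠ 0) (ha : |a0| < M0)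
    (hf : Slope M0 a0 rm f) (hx : rp M0 a0 < x) (hx' : x < x') (hy : x' ≤ y0) (N : ℕ) :
    ∃ c : ℝ, 0 < c ∧ ∀ R R' : ℝ, y0 ≤ R → R < R' → y0 + 1 ≤ R' → ∃ C dl : ℝ, 0 ≤ C ∧ 0 < dl ∧
    ∀ M a : ℝ, |M - M0| < dl → |a - a0| < dl →
    ∀ (S : Type) [NormedAddCommGroup S] [InnerProductSpace ℂ S] (G : Ang S), G.Is → |G.s| = 2 →
    ∀ (τ om m : ℝ) (w H : ℝ → S), |τ| ≤ 3 → G.Md m w → Continuous H →
      c * (∫ r in x'..y0, lam om m ^ (N + 1) * d1 G om m w r) ≤
      (om ^ 2 + m ^ 2) ^ (N + 1) * (∫ r in x..R', ct x x' R R' r * ph a0 e r * K a r om m *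
        ri (I • w r) (H r)) + C * ∫ r in x..R', Er G N f G.s τ M a om m w H r := by
  have hM : 0 < M0 := (abs_nonneg _).trans_lt ha
  obtain ⟨c1, c0, H⟩ := P354ME.ene (N := N) (HP.zero _) (((HP.lam.pow (N + 1)).mul HP.K).cast
    (by ring)) (HP.zero _) hf.sm 3 (hx'.le.trans hy) fun r hr => by
      have r1 := hx.trans_le hr
      have := hf.adm r (hf.hi.le.trans r1.le)
      exact P354ME.pos_K _ (hM.trans ((P354XH.rp_gt ha).trans r1)) (P354XH.De_pos ha r1) this.1 this.2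
  obtain ⟨c2, p2, H2⟩ := low_bd (ph_sm h0 e).continuous (ph_pos h0 e) x' y0
  refine ⟨c1 * c2 / 2, by positivity, fun R R' hR hR' h1 => ?_⟩
  obtain ⟨c3, C, dl, p3, C0, d0, H⟩ := H R' h1 (fun r => ct x x' R R' r * ph a0 e r)
    ((ct_sm _ _ _ _).mul (ph_sm h0 e)) (fun r => mul_nonneg (ct_nonneg _ _ _ _ _) (ph_pos h0 e r).le)
    (by simp [ct_l R R' hx' le_rfl]) (by simp [ct_r x x' hR' le_rfl])
  refine ⟨C / 2, dl, by positivity, d0, fun M a hM' ha' S _ _ G hG hs τ om m w Z hτ hw hZ => ?_⟩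
  have H := H M a hM' ha' S G hG (by linarith) G.s τ (by linarith) hτ om m w Z hw hZ
  have k1 := (ph_sm h0 e).continuous
  have k2 := (ct_sm x x' R R').continuous
  have k3 := P354RM.cont_d1 (om := om) (m := m) hw.1
  have l0 := lam_pos om m
  have nn : ∀ r, 0 ≤ ct x x' R R' r * ph a0 e r * (lam om m ^ (N + 1) * d1 G om m w r) := fun r => by
    have := ct_nonneg x x' R R' r; have := ph_pos h0 e r; have := P354ME.d1_nonneg (G := G) om m w r
    positivity
  have a1 : ∫ r in x'..y0, c2 * (lam om m ^ (N + 1) * d1 G om m w r) ≤ _ :=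
    nest hx'.le hy le_rfl (by fun_prop) (by fun_prop) (fun r _ => nn r) fun r hr => by
      rw [ct_one hx' hR' ⟨hr.1, hr.2.trans hR⟩, one_mul]
      exact mul_le_mul_of_nonneg_right (H2 r hr) (mul_nonneg (by positivity)
        (P354ME.d1_nonneg om m w r))
  have a2 := integral_nonneg (μ := volume) (by linarith : x ≤ R') fun r _ => nn r
  have t : ∀ r, ct x x' R R' r * ph a0 e r * ri (Z r) (X 0 ((om ^ 2 + m ^ 2) ^ (N + 1) * K a r om m)
      0 (w r) (deriv w r)) = -2 * (om ^ 2 + m ^ 2) ^ (N + 1) *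
      (ct x x' R R' r * ph a0 e r * K a r om m * ri (I • w r) (Z r)) := fun r => by
    simp only [X, ri_add, ri_sub, ri_real, ri_comm (Z r) (I • w r)]; ring
  simp only [t, intervalIntegral.integral_const_mul (-2 * _ : ℝ)] at H
  rw [intervalIntegral.integral_const_mul] at a1
  linarith only [H, mul_le_mul_of_nonneg_left a1 c0.le, mul_nonneg p3.le a2]

/-- Multiplication by om^2 + m^2. -/
def tlp (l : List Tm) : List Tm :=
  l.map (fun τ => ⟨τ.w, .T τ.al, .T τ.be⟩) ++ l.map fun τ => ⟨τ.w, .F τ.al, .F τ.be⟩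

variable {M a om m x y : ℝ} {H v : ℝ → S}

theorem pair_lp (j : ℕ) (l : List Tm) : pair (tlp^[j] l) M a om m x y H v =
    (om ^ 2 + m ^ 2) ^ j * pair l M a om m x y H v := by
  induction j with
  | zero => simp
  | succ j ih =>
    rw [Function.iterate_succ_apply', tlp, P354RM.pair_app, P354RM.pair_map _ (om ^ 2) (H' := H)
      (v' := v), P354RM.pair_map _ (m ^ 2) (H' := H) (v' := v), ih]
    · ring
    · intro τ r; simp only [Op.cv, P354RM.ri_sc]; simp; ring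
    · intro τ r; simp only [Op.cv, P354RM.ri_sc]; simp; ring

theorem oks_lp {l : List Tm} {n : ℕ} (h : Oks l n x y) (j : ℕ) : Oks (tlp^[j] l) (n + j) x y := by
  induction j with
  | zero => exact h
  | succ j ih =>
    rw [Function.iterate_succ_apply']
    exact Oks.app (ih.map _ fun _ b =>
        ⟨b.sw, b.out, b.sa, b.sb, Nat.succ_le_succ b.oa, Nat.succ_le_succ b.ob⟩)
      (ih.map _ fun _ b => ⟨b.sw, b.out, b.sa, b.sb, Nat.succ_le_succ b.oa, Nat.succ_le_succ b.ob⟩)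

/-- The multiplier of one level. -/
def lK (a0 e x x' R R' : ℝ) (d : Op) (j : ℕ) : List Tm :=
  tlp^[j] [⟨fun p => ct x x' R R' p.2.2 * ph a0 e p.2.2, oD d, oK (oD d)⟩]

theorem oks_lK {a0 x x' R R' p q : ℝ} (h0 : a0 ≠ 0) (e : ℝ) (h1 : p ≤ x) (h2 : x < x') (h3 : R < R')
    (h4 : R' ≤ q) {d : Op} (hd : d.Sm) (j : ℕ) : Oks (lK a0 e x x' R R' d j) (d.ord + 1 + j) p q := by
  refine oks_lp (fun τ hτ => ?_) j
  rw [List.mem_singleton.1 hτ]
  refine ⟨((ct_sm _ _ _ _).mul (ph_sm h0 e)).comp (by fun_prop : ContDiff ℝ ∞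
    fun p : ℝ × ℝ × ℝ => p.2.2), fun M a r hr => ?_, P354RM.oD_sm hd, P354RM.oK_sm (P354RM.oD_sm hd),
    (P354RM.oD_ord d).le, by simp only [P354RM.oK_ord, P354RM.oD_ord]; exact le_rfl⟩
  rcases not_and_or.1 hr with c | c
  · simp [ct_l R R' h2 ((not_le.1 c).le.trans h1)]
  · simp [ct_r x x' h3 (h4.trans (not_le.1 c).le)]

theorem cut2 {F : ℝ → ℝ} (hF : Continuous F) {p x y q : ℝ} (h1 : p ≤ x) (h2 : y ≤ q)
    (h3 : ∀ r, r ≤ x → F r = 0) (h4 : ∀ r, y ≤ r → F r = 0) :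
    ∫ r in p..q, F r = ∫ r in x..y, F r := by
  rw [← P354ME.int_cut hF h2 h4, ← integral_add_adjacent_intervals (hF.intervalIntegrable p x)
    (hF.intervalIntegrable x y), integral_congr (g := fun _ => 0) (a := p) (b := x)
      fun r hr => h3 r (by rw [uIcc_of_le h1] at hr; exact hr.2)]
  simp

theorem pair_lK {a0 x x' R R' p q : ℝ} (h0 : a0 ≠ 0) (e : ℝ) (h1 : p ≤ x) (h2 : x < x') (h3 : R < R')
    (h4 : R' ≤ q) {d : Op} (hd : d.Sm) (j : ℕ) (hH : ContDiff ℝ ∞ H) (hv : ContDiff ℝ ∞ v) :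
    pair (lK a0 e x x' R R' d j) M a om m p q H v = -((om ^ 2 + m ^ 2) ^ j *
      ∫ r in x..R', ct x x' R R' r * ph a0 e r * K a r om m *
        ri (I • D M a om m (d.cv M a om m v) r) (D M a om m (d.cv M a om m H) r)) := by
  have k1 := (ph_sm h0 e).continuous
  have k2 := (ct_sm x x' R R').continuous
  have k3 := (cd_K a om m).continuous
  have k4 := cont_ri ((P354M0.cont_D (P354RM.cd_cv (M := M) (a := a) (om := om) (m := m) hv d hd)
    M a om m).const_smul I) (P354M0.cont_D (P354RM.cd_cv (M := M) (a := a) (om := om) (m := m) hH d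
      hd) M a om m)
  have k : Continuous fun r => ct x x' R R' r * ph a0 e r * K a r om m *
      ri (I • D M a om m (d.cv M a om m v) r) (D M a om m (d.cv M a om m H) r) :=
    ((k2.mul k1).mul k3).mul k4
  rw [lK, pair_lp, ← mul_neg, ← cut2 k h1 h4 (fun r hr => by simp [ct_l R R' h2 hr])
    (fun r hr => by simp [ct_r x x' h3 hr]), ← intervalIntegral.integral_neg]
  simp only [pair, List.map_cons, List.map_nil, List.sum_cons, List.sum_nil, add_zero,
    P354RM.cv_oK, P354RM.cv_oD]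
  refine congrArg _ (integral_congr fun r _ => ?_)
  simp only [← ri.eq_1, ri_real, ri_comm _ (I • _)]
  ring

end Vale.Agent.P354RP
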