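import Vale.Agent.P354RP.Lev

/-!
The chain of spin 2, the terms of lower order, the recovery of the first derivatives.
-/

open scoped ContDiff InnerProductSpace
open Complex (I)
open Set MeasureTheory intervalIntegral Filter Topology
open Vale.Agent.P354BF Vale.Agent.P354XN Vale.Agent.P354XT
open Vale.Agent.P354XH (K ka)
open Vale.Agent.P354RM (cd_der V V_one V_two V_succ cont_V V_nonneg lam_V V_Wn Wn_nonneg cont_Wn le_V)
open Vale.Agent.P354M0 (Lv UNC cont_D)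

noncomputable section

namespace Vale.Agent.P354RP

variable {S : Type} [NormedAddCommGroup S] [InnerProductSpace ℂ S] {G : Ang S} {v z H : ℝ → S}
  {k M a om m r : ℝ} {j : ℕ}

theorem P1_eq (hG : G.Is) (hv : G.Sm v) (k M a om m : ℝ) : G.P 1 k M a om m (deriv v) =
    fun r => deriv (G.P 2 k M a om m v) r - ((6 * om : ℝ) : ℂ) • I • v r := funext fun r => by
  rw [dP hG hv, show (2 : ℝ) - 1 = 1 by norm_num]; push_cast; module

theorem dP1 (hG : G.Is) (hv : G.Sm v) (k M a om m r : ℝ) : deriv (G.P 1 k M a om m (deriv v)) r =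
    deriv (deriv (G.P 2 k M a om m v)) r - ((6 * om : ℝ) : ℂ) • I • deriv v r := by
  rw [P1_eq hG hv]
  exact (((hG.sm_deriv (hG.sm_P hv 2 k M a om m)).has r).sub
    (((hv.has r).const_smul I).const_smul _)).deriv

theorem P0_eq (hG : G.Is) (hv : G.Sm v) (k M a om m r : ℝ) :
    G.P 0 k M a om m (deriv (deriv v)) r =
      deriv (deriv (G.P 2 k M a om m v)) r - ((8 * om : ℝ) : ℂ) • I • deriv v r := by
  have := dP hG (hG.sm_deriv hv) 1 k M a om m r
  rw [dP1 hG hv, sub_self] at this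
  rw [sub_eq_iff_eq_add.1 this]; push_cast; module

theorem DP1 (hG : G.Is) (hv : G.Sm v) (k M a om m r : ℝ) :
    D M a om m (G.P 1 k M a om m (deriv v)) r - D M a om m (deriv (G.P 2 k M a om m v)) r =
      ((-(6 * om) : ℝ) : ℂ) • I • D M a om m v r := by
  rw [D, dP1 hG hv, P1_eq hG hv, D, D]; push_cast; module

theorem Lv_eq (k M a om m : ℝ) (y : ℝ → S) (r : ℝ) : Lv M a om m (deriv y) r =
    G.P 1 k M a om m y r - ((2 * r * om : ℝ) : ℂ) • I • y r + G.lop k a om m (y r) := by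
  rw [Lv, P_real]; push_cast; module

theorem V3_ge (om m : ℝ) (z : ℝ → S) (r : ℝ) : lam om m ^ 3 * ‖z r‖ ^ 2 +
    lam om m ^ 2 * ‖deriv z r‖ ^ 2 + lam om m * ‖deriv (deriv z) r‖ ^ 2 +
      ‖deriv (deriv (deriv z)) r‖ ^ 2 = V om m 3 z r := by
  rw [V_succ, V_two, iteratedDeriv_succ, iteratedDeriv_succ, iteratedDeriv_one]; ring

theorem V3_Wn (hG : G.Is) (hz : G.Sm z) (j : ℕ) :
    lam om m ^ j * V om m 3 z r ≤ Wn G om m (j + 3) z r :=
  le_trans (mul_le_mul_of_nonneg_left (le_add_of_nonneg_right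
    (Finset.sum_nonneg fun _ _ => V_nonneg 2)) (pow_pos (lam_pos om m) j).le) (V_Wn hG hz j)

theorem V2_Wn (hG : G.Is) (hz : G.Sm z) (j : ℕ) :
    lam om m ^ (j + 1) * V om m 2 z r ≤ Wn G om m (j + 3) z r := by
  rw [pow_succ, mul_assoc]
  exact (mul_le_mul_of_nonneg_left (lam_V 2) (pow_pos (lam_pos om m) j).le).trans (V3_Wn hG hz j)

theorem V1_Wn (hG : G.Is) (hz : G.Sm z) (j : ℕ) :
    lam om m ^ (j + 2) * V om m 1 z r ≤ Wn G om m (j + 3) z r := by
  rw [pow_succ, mul_assoc]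
  exact (mul_le_mul_of_nonneg_left (lam_V 1) (pow_pos (lam_pos om m) _).le).trans (V2_Wn hG hz j)

theorem d1u_Wn (hG : G.Is) (hv : G.Sm v) (j : ℕ) :
    lam om m ^ j * d1 G om m (deriv (deriv v)) r ≤ Wn G om m (j + 3) v r := by
  refine le_trans (mul_le_mul_of_nonneg_left ?_ (pow_pos (lam_pos om m) j).le) (V_Wn hG hv j)
  have l0 := lam_pos om m
  rw [d1, ← V3_ge]
  have p1 := mul_nonneg (pow_pos l0 3).le (sq_nonneg ‖v r‖)
  have p2 := mul_nonneg (pow_pos l0 2).le (sq_nonneg ‖deriv v r‖)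
  refine add_le_add (by linarith) (Finset.sum_le_sum fun i _ => ?_)
  have := le_V (om := om) (m := m) (v := fun r => G.L i (v r)) (r := r) 2
  rwa [hG.iter_L hv, iteratedDeriv_succ, iteratedDeriv_one] at this

theorem Wn_mono (n : ℕ) : Wn G om m n z r ≤ Wn G om m (n + 1) z r := by
  have l1 := one_le_lam om m
  unfold Wn
  gcongr <;> omega

theorem cas_Wn (j : ℕ) : lam om m ^ j * ‖G.cas (z r)‖ ^ 2 ≤ Wn G om m (j + 2) z r := by
  have l0 := lam_pos om m
  rw [Wn, Finset.sum_range_succ' _ 1]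
  simp only [iteratedDeriv_zero, Nat.add_sub_cancel, Nat.sub_zero]
  exact le_add_of_nonneg_of_le (by positivity) (le_add_of_nonneg_left (by positivity))

variable (G) in
/-- The terms of lower order. -/
def Lo (j : ℕ) (om m : ℝ) (v H : ℝ → S) (r : ℝ) : ℝ :=
  lam om m ^ (j + 2) * V om m 2 v r + (Wn G om m (j + 3) v r + Wn G om m (j + 3) H r)

theorem Lo_a : lam om m ^ (j + 2) * V om m 2 v r ≤ Lo G j om m v H r :=
  le_add_of_nonneg_right (add_nonneg (Wn_nonneg _) (Wn_nonneg _))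

theorem Lo_nonneg : 0 ≤ Lo G j om m v H r :=
  (mul_nonneg (pow_pos (lam_pos om m) _).le (V_nonneg 2)).trans Lo_a

theorem cont_Lo (hG : G.Is) (hv : G.Sm v) (hH : G.Sm H) : Continuous (Lo G j om m v H) :=
  (continuous_const.mul (cont_V hv.cd 2)).add ((cont_Wn hG hv _).add (cont_Wn hG hH _))

theorem Lo_b (hG : G.Is) (hH : G.Sm H) : lam om m ^ j * (lam om m ^ 2 * V om m 2 v r +
    (lam om m ^ 3 * ‖H r‖ ^ 2 + lam om m ^ 2 * ‖deriv H r‖ ^ 2 +
      lam om m * ‖deriv (deriv H) r‖ ^ 2)) ≤ Lo G j om m v H r := by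
  have := V3_Wn (om := om) (m := m) (r := r) hG hH j
  rw [← V3_ge] at this
  rw [Lo, pow_add]
  linarith [mul_nonneg (pow_pos (lam_pos om m) j).le (sq_nonneg ‖deriv (deriv (deriv H)) r‖),
    Wn_nonneg (G := G) (om := om) (m := m) (v := v) (r := r) (j + 3)]

theorem sg1 (hG : G.Is) (hv : G.Sm v) :
    lam om m ^ (j + 2) * sg om m (deriv v) (G.P 1 k M a om m (deriv v)) r ^ 2 ≤
      245 * Lo G j om m v (G.P 2 k M a om m v) r := by
  have L1 := one_le_La om m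
  have L0 := La_pos om m
  have e : ∀ z : S, |6 * om| * ‖z‖ ≤ 6 * (La om m * ‖z‖) := fun z => by
    rw [abs_mul, abs_of_pos (by norm_num : (0 : ℝ) < 6), mul_assoc]; gcongr; exact om_La om m
  have e1 := n2 1 (6 * om) (deriv (G.P 2 k M a om m v) r) (v r)
  have e2 := n2 1 (6 * om) (deriv (deriv (G.P 2 k M a om m v)) r) (deriv v r)
  simp only [Complex.ofReal_one, one_smul, abs_one, one_mul] at e1 e2
  have e3 : La om m * sg om m (deriv v) (G.P 1 k M a om m (deriv v)) r ≤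
      La om m * ‖deriv (deriv v) r‖ + 7 * (La om m ^ 2 * ‖deriv v r‖) + 6 * (La om m ^ 3 * ‖v r‖) +
        La om m * ‖deriv (G.P 2 k M a om m v) r‖ + ‖deriv (deriv (G.P 2 k M a om m v)) r‖ := by
    rw [sg, dP1 hG hv, P1_eq hG hv, mul_add, mul_div_cancel₀ _ L0.ne']
    have c1 : La om m * ‖deriv v r‖ ≤ La om m * (La om m * ‖deriv v r‖) :=
      le_mul_of_one_le_left (by positivity) L1
    have c2 : La om m * (La om m * ‖v r‖) ≤ La om m * (La om m * (La om m * ‖v r‖)) :=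
      le_mul_of_one_le_left (by positivity) L1
    linarith [mul_le_mul_of_nonneg_left (e1.trans (add_le_add le_rfl (e _))) L0.le, e2, e (deriv v r)]
  have e4 := pow_le_pow_left₀ (mul_nonneg L0.le (by unfold sg; positivity)) e3 2
  refine le_trans ?_ (mul_le_mul_of_nonneg_left (Lo_b hG (hG.sm_P hv 2 k M a om m)) (by norm_num))
  rw [pow_add, mul_assoc, mul_left_comm 245, V_two, ← La_sq]
  refine mul_le_mul_of_nonneg_left ?_ (by positivity)
  have e5 := mul_le_mul_of_nonneg_left e4 (sq_nonneg (La om m))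
  generalize sg om m (deriv v) (G.P 1 k M a om m (deriv v)) r = σ at *
  generalize La om m = L at *
  generalize ‖deriv (deriv (G.P 2 k M a om m v)) r‖ = n5 at *
  generalize ‖deriv (G.P 2 k M a om m v) r‖ = n4 at *
  have : ∀ p1 p2 p3 p4 p5 : ℝ, (p1 + 7 * p2 + 6 * p3 + p4 + p5) ^ 2 ≤
      245 * (p1 ^ 2 + p2 ^ 2 + p3 ^ 2 + p4 ^ 2 + p5 ^ 2) := fun p1 p2 p3 p4 p5 => by
    nlinarith [sq_nonneg (p1 - 7 * p2), sq_nonneg (p1 - 6 * p3), sq_nonneg (p1 - p4),
      sq_nonneg (p1 - p5), sq_nonneg (7 * p2 - 6 * p3), sq_nonneg (7 * p2 - p4),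
      sq_nonneg (7 * p2 - p5), sq_nonneg (6 * p3 - p4), sq_nonneg (6 * p3 - p5), sq_nonneg (p4 - p5),
      sq_nonneg p1, sq_nonneg p3, sq_nonneg p4, sq_nonneg p5]
  have e6 := mul_le_mul_of_nonneg_left (this (L * ‖deriv (deriv v) r‖) (L ^ 2 * ‖deriv v r‖)
    (L ^ 3 * ‖v r‖) (L * n4) n5) (sq_nonneg L)
  linarith only [e5, e6, (by positivity : 0 ≤ L ^ 6 * ‖G.P 2 k M a om m v r‖ ^ 2)]

theorem sg2 (hG : G.Is) (hH : G.Sm H) :
    lam om m ^ (j + 3) * sg om m v H r ^ 2 ≤ 4 * Lo G j om m v H r := by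
  have L0 := La_pos om m
  have e3 : La om m * sg om m v H r = La om m * ‖deriv v r‖ + La om m ^ 2 * ‖v r‖ +
      La om m * ‖H r‖ + ‖deriv H r‖ := by rw [sg]; field_simp
  refine le_trans ?_ (mul_le_mul_of_nonneg_left (Lo_b hG hH) (by norm_num))
  rw [pow_add, mul_assoc, mul_left_comm 4, V_two, ← La_sq]
  refine mul_le_mul_of_nonneg_left ?_ (by positivity)
  generalize sg om m v H r = σ at *
  generalize La om m = L at *
  have : ∀ p1 p2 p3 p4 : ℝ, (p1 + p2 + p3 + p4) ^ 2 ≤ 4 * (p1 ^ 2 + p2 ^ 2 + p3 ^ 2 + p4 ^ 2) :=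
    fun p1 p2 p3 p4 => by
      linarith [sq_nonneg (p1 - p2), sq_nonneg (p1 - p3), sq_nonneg (p1 - p4), sq_nonneg (p2 - p3),
        sq_nonneg (p2 - p4), sq_nonneg (p3 - p4)]
  have e6 := mul_le_mul_of_nonneg_left (this (L * ‖deriv v r‖) (L ^ 2 * ‖v r‖) (L * ‖H r‖)
    ‖deriv H r‖) (by positivity : 0 ≤ L ^ 4)
  rw [← e3] at e6
  linarith only [e6, (by positivity : 0 ≤ L ^ 4 * ‖deriv (deriv v) r‖ ^ 2),
    (by positivity : 0 ≤ L ^ 2 * ‖deriv (deriv H) r‖ ^ 2)]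

theorem le_sg (om m : ℝ) (y H : ℝ → S) (r : ℝ) : ‖H r‖ ^ 2 ≤ sg om m y H r ^ 2 := by
  have := La_pos om m
  refine pow_le_pow_left₀ (norm_nonneg _) ?_ 2
  rw [sg]
  linarith [norm_nonneg (deriv y r), mul_nonneg this.le (norm_nonneg (y r)),
    div_nonneg (norm_nonneg (deriv H r)) this.le]

theorem D_V1 {B Y s : ℝ} (hz : Zn B M a r) (hc : Cr Y s M a r om m) (y : ℝ → S) :
    ‖D M a om m y r‖ ^ 2 ≤ 2 * Y ^ 2 * V om m 1 y r := by
  have := pow_le_pow_left₀ (norm_nonneg _) (D_le hz hc y) 2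
  rw [mul_pow] at this
  linarith [mul_le_mul_of_nonneg_left (V1_ge om m y r) (sq_nonneg Y)]

theorem PD_sg {B Y s : ℝ} (hG : G.Is) {y : ℝ → S} (hy : G.Sm y) (hz : Zn B M a r)
    (hc : Cr Y s M a r om m) : ‖G.P (s + 1) k M a om m (D M a om m y) r‖ ^ 2 ≤
      16 * Y ^ 2 * (lam om m * sg om m y (G.P s k M a om m y) r ^ 2) := by
  have L1 := one_le_La om m
  have L0 := La_pos om m
  have Y0 : 0 < Y := one_pos.trans_le hc.Y1
  have e := (norm_le_norm_add_norm_sub' _ (D M a om m (G.P s k M a om m y) r)).trans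
    (add_le_add (D_le hz hc _) (PD_le hG hy hc k))
  have e1 := mul_le_mul_of_nonneg_right hc.ka (norm_nonneg (deriv y r))
  have e2 : Y * (‖deriv y r‖ + La om m * ‖y r‖) ≤ La om m * (Y * (‖deriv y r‖ + La om m * ‖y r‖)) :=
    le_mul_of_one_le_left (by positivity) L1
  have e3 : La om m * sg om m y (G.P s k M a om m y) r = La om m * ‖deriv y r‖ + La om m ^ 2 * ‖y r‖ +
      La om m * ‖G.P s k M a om m y r‖ + ‖deriv (G.P s k M a om m y) r‖ := by rw [sg]; field_simp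
  have e4 : ‖G.P (s + 1) k M a om m (D M a om m y) r‖ ≤
      4 * Y * (La om m * sg om m y (G.P s k M a om m y) r) := by
    rw [e3]
    linarith [(by positivity : 0 ≤ Y * (La om m * ‖deriv y r‖)),
      (by positivity : 0 ≤ Y * (La om m ^ 2 * ‖y r‖)),
      (by positivity : 0 ≤ Y * (La om m * ‖G.P s k M a om m y r‖)),
      (by positivity : 0 ≤ Y * ‖deriv (G.P s k M a om m y) r‖)]
  rw [← La_sq]
  exact (pow_le_pow_left₀ (norm_nonneg _) e4 2).trans_eq (by ring)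

/-- The flux of the last member of the chain. -/
theorem Lv_le (hG : G.Is) (hv : G.Sm v) {B Z : ℝ} (hk : |k| ≤ B) (ha : |a| ≤ B) (hr : |r| ≤ Z) :
    lam om m ^ (j + 2) * ‖Lv M a om m (deriv (deriv v)) r‖ ^ 2 ≤
      4 * (1 + (B + 2 * B ^ 2) ^ 2) * Wn G om m (j + 4) (deriv v) r +
      4 * (245 + 4 * Z ^ 2) * Lo G j om m v (G.P 2 k M a om m v) r := by
  have l0 := lam_pos om m
  have L0 := La_pos om m
  have e1 := lop_le hG hk ha om m (deriv v r)
  have e2 := n2 1 (2 * r * om) (G.P 1 k M a om m (deriv v) r) (deriv v r)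
  simp only [Complex.ofReal_one, one_smul, abs_one, one_mul] at e2
  have e3 : |2 * r * om| * ‖deriv v r‖ ≤ 2 * Z * (La om m * ‖deriv v r‖) := by
    have := (abs_nonneg r).trans hr
    rw [abs_mul, abs_mul, abs_two, mul_assoc (2 * |r|)]; gcongr; exact om_La om m
  have e4 : ‖Lv M a om m (deriv (deriv v)) r‖ ≤ ‖G.P 1 k M a om m (deriv v) r‖ +
      2 * Z * (La om m * ‖deriv v r‖) + ‖G.cas (deriv v r)‖ +
      (B + 2 * B ^ 2) * (lam om m * ‖deriv v r‖) := by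
    rw [Lv_eq (G := G) k]; linarith [norm_add_le (G.P 1 k M a om m (deriv v) r -
      ((2 * r * om : ℝ) : ℂ) • I • deriv v r) (G.lop k a om m (deriv v r))]
  have e5 : ∀ p1 p2 p3 p4 : ℝ, (p1 + p2 + p3 + p4) ^ 2 ≤ 4 * (p1 ^ 2 + p2 ^ 2 + p3 ^ 2 + p4 ^ 2) :=
    fun p1 p2 p3 p4 => by
      linarith [sq_nonneg (p1 - p2), sq_nonneg (p1 - p3), sq_nonneg (p1 - p4), sq_nonneg (p2 - p3),
        sq_nonneg (p2 - p4), sq_nonneg (p3 - p4)]
  have e6 := mul_le_mul_of_nonneg_left ((pow_le_pow_left₀ (norm_nonneg _) e4 2).trans (e5 _ _ _ _))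
    (pow_pos l0 (j + 2)).le
  have f1 := (mul_le_mul_of_nonneg_left (le_sg om m (deriv v) (G.P 1 k M a om m (deriv v)) r)
    (pow_pos l0 (j + 2)).le).trans (sg1 hG hv)
  have f2 : lam om m ^ (j + 2) * (La om m * ‖deriv v r‖) ^ 2 ≤
      Lo G j om m v (G.P 2 k M a om m v) r := by
    refine le_trans (mul_le_mul_of_nonneg_left ?_ (pow_pos l0 _).le) Lo_a
    rw [mul_pow, La_sq, V_two]
    linarith [sq_nonneg ‖deriv (deriv v) r‖, (by positivity : 0 ≤ lam om m * (lam om m * ‖v r‖ ^ 2))]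
  have f3 := cas_Wn (G := G) (om := om) (m := m) (z := deriv v) (r := r) (j + 2)
  have f4 : lam om m ^ (j + 2) * (lam om m * ‖deriv v r‖) ^ 2 ≤ Wn G om m (j + 4) (deriv v) r := by
    refine le_trans ?_ (V1_Wn hG (hG.sm_deriv hv) (j + 1))
    rw [V_one, show j + 1 + 2 = j + 2 + 1 from rfl, pow_succ _ (j + 2)]
    linarith [(by positivity : 0 ≤ lam om m ^ (j + 2) * lam om m * ‖deriv (deriv v) r‖ ^ 2)]
  linarith only [e6, f1, f3, mul_le_mul_of_nonneg_left f2 (sq_nonneg Z),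
    mul_le_mul_of_nonneg_left f4 (sq_nonneg (B + 2 * B ^ 2))]

end Vale.Agent.P354RP
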