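import Vale.Agent.P354RP.Lo

/-!
The recovery of the first derivatives, the absorption in the zone of trapping, the errors of the
energy.
-/

open scoped ContDiff InnerProductSpace
open Complex (I)
open Set MeasureTheory intervalIntegral Filter Topology
open Vale.Agent.P354BF Vale.Agent.P354XN Vale.Agent.P354XT
open Vale.Agent.P354XH (K ka)
open Vale.Agent.P354RM (cd_der V V_one V_two V_succ cont_V V_nonneg lam_V V_Wn Wn_nonneg cont_Wn
  cont_d1 cv_bd An_cv cm cm_sm cm_ord cv_Nc cd_Nc oD oD_sm oD_ord cv_oD d1_eq V_mono)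
open Vale.Agent.P354M0 (Lv UNC cont_D)
open Vale.Agent.P354ME (Er d1_nonneg)

noncomputable section

namespace Vale.Agent.P354RP

theorem le3 {f g1 g2 g3 : ℝ → ℝ} {x y l c : ℝ} (hxy : x ≤ y) (k : Continuous f)
    (k1 : Continuous g1) (k2 : Continuous g2) (k3 : Continuous g3)
    (h : ∀ r ∈ Icc x y, l * f r ≤ g1 r + g2 r + c * g3 r) :
    l * (∫ r in x..y, f r) ≤ (∫ r in x..y, g1 r) + (∫ r in x..y, g2 r) + c * ∫ r in x..y, g3 r := by
  rw [← intervalIntegral.integral_const_mul, ← intervalIntegral.integral_const_mul,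
    ← P354M0.int_add k1 k2, ← P354M0.int_add (by fun_prop) (by fun_prop)]
  exact integral_mono_on hxy (Continuous.intervalIntegrable (by fun_prop) _ _)
    (Continuous.intervalIntegrable (by fun_prop) _ _) h

theorem pw_div (l x : ℝ) (hl : 0 < l) (j : ℕ) : l ^ (j + 1) * (x / l) = l ^ j * x := by
  rw [pow_succ]; field_simp

theorem rec2 {M0 a0 x2 x3 x4 y4 y3 y2 : ℝ} (ha : |a0| < M0) (h1 : rp M0 a0 < x2) (h2 : x2 < x3)
    (h3 : x3 < x4) (h4 : x4 ≤ y4) (h5 : y4 < y3) (h6 : y3 < y2) : ∃ C dl : ℝ, 0 ≤ C ∧ 0 < dl ∧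
    ∀ M a : ℝ, |M - M0| < dl → |a - a0| < dl →
    ∀ (S : Type) [NormedAddCommGroup S] [InnerProductSpace ℂ S] (G : Ang S), G.Is → |G.s| = 2 →
    ∀ (j : ℕ) (om m : ℝ) (v : ℝ → S), G.Md m v →
      (∫ r in x4..y4, lam om m ^ (j + 4) * d1 G om m v r) ≤
        C * ((∫ r in x2..y2, lam om m ^ (j + 3) * ‖D M a om m (deriv v) r‖ ^ 2) +
          (∫ r in x2..y2, lam om m ^ (j + 2) * d1 G om m (deriv (deriv v)) r) +
          (∫ r in x3..y3, lam om m ^ (j + 4) * ‖D M a om m v r‖ ^ 2) +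
          ∫ r in x2..y2, Lo G j om m v (G.P 2 G.s M a om m v) r) := by
  obtain ⟨C1, d1', c1, p1, H1⟩ := non ha (h1.trans h2) h3 h4 h5
  obtain ⟨C2, d2, c2, p2, H2⟩ := non ha h1 h2 (by linarith) h6
  refine ⟨C1 * (5 + 246 * C2), min d1' d2, by positivity, lt_min p1 p2,
    fun M a hM ha' S _ _ G hG hs j om m v hv => ?_⟩
  have hy := hG.md_deriv hv
  have H1 := H1 M a (hM.trans_le (min_le_left _ _)) (ha'.trans_le (min_le_left _ _)) S G hG hs 2
    om m v (by norm_num) (by norm_num) hv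
  have H2 := H2 M a (hM.trans_le (min_le_right _ _)) (ha'.trans_le (min_le_right _ _)) S G hG hs 1
    om m _ (by norm_num) (by norm_num) hy
  have l0 := lam_pos om m
  have sH := hG.sm_P hv.1 2 G.s M a om m
  have k1 := hv.1.cont
  have k2 := hy.1.cont
  have k3 := (hG.sm_deriv hy.1).cont
  have k4 := cont_D hv.1.cd M a om m
  have k5 := cont_D hy.1.cd M a om m
  have k6 := sH.cont
  have k7 := (hG.sm_P hy.1 1 G.s M a om m).cont
  have k8 := cont_Lo (j := j) (om := om) (m := m) hG hv.1 sH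
  have k9 := cont_d1 (om := om) (m := m) hy.1
  have k10 := cont_d1 (om := om) (m := m) (hG.sm_deriv hy.1)
  have a1 := le3 (l := lam om m ^ (j + 4)) (c := 1) (by linarith : x3 ≤ y3)
    (f := fun r => ‖D M a om m v r‖ ^ 2 + ‖deriv v r‖ ^ 2 + ‖v r‖ ^ 2 +
      ‖G.P 2 G.s M a om m v r‖ ^ 2 / lam om m)
    (g1 := fun r => lam om m ^ (j + 4) * ‖D M a om m v r‖ ^ 2)
    (g2 := fun r => lam om m ^ (j + 3) * d1 G om m (deriv v) r) (by fun_prop) (by fun_prop)
    (by fun_prop) k8 fun r _ => by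
      have e1 := Lo_b (j := j) (om := om) (m := m) (v := v) (r := r) hG sH
      have e2 := An_nonneg (A := G) (deriv v r)
      rw [mul_add, pw_div _ _ l0 (j + 3), d1_eq, V_one]
      rw [V_two] at e1
      simp only [pow_add] at e1 ⊢
      have := pow_pos l0 j
      linarith only [e1, (by positivity : 0 ≤ lam om m ^ j * lam om m ^ 3 *
        (‖deriv (deriv v) r‖ ^ 2 + An G (deriv v r))), (by positivity : 0 ≤ lam om m ^ j *
        (lam om m ^ 3 * ‖deriv v r‖ ^ 2 + lam om m ^ 2 * ‖deriv (deriv v) r‖ ^ 2 +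
          lam om m ^ 2 * ‖deriv (G.P 2 G.s M a om m v) r‖ ^ 2 +
          lam om m * ‖deriv (deriv (G.P 2 G.s M a om m v)) r‖ ^ 2))]
  have a2 := le3 (l := lam om m ^ (j + 3)) (c := 246) (by linarith : x2 ≤ y2)
    (f := fun r => ‖D M a om m (deriv v) r‖ ^ 2 + ‖deriv (deriv v) r‖ ^ 2 + ‖deriv v r‖ ^ 2 +
      ‖G.P 1 G.s M a om m (deriv v) r‖ ^ 2 / lam om m)
    (g1 := fun r => lam om m ^ (j + 3) * ‖D M a om m (deriv v) r‖ ^ 2)
    (g2 := fun r => lam om m ^ (j + 2) * d1 G om m (deriv (deriv v)) r) (by fun_prop) (by fun_prop)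
    (by fun_prop) k8 fun r _ => by
      have e1 := Lo_a (G := G) (j := j) (om := om) (m := m) (v := v) (r := r)
        (H := G.P 2 G.s M a om m v)
      have e2 := An_nonneg (A := G) (deriv (deriv v) r)
      have e3 := (mul_le_mul_of_nonneg_left (le_sg om m (deriv v) (G.P 1 G.s M a om m (deriv v)) r)
        (pow_pos l0 (j + 2)).le).trans (sg1 hG hv.1)
      rw [mul_add, pw_div _ _ l0 (j + 2), d1_eq, V_one]
      rw [V_two] at e1
      simp only [pow_add] at e1 e3 ⊢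
      have := pow_pos l0 j
      linarith only [e1, e3, (by positivity : 0 ≤ lam om m ^ j * lam om m ^ 2 *
        (‖deriv (deriv (deriv v)) r‖ ^ 2 + An G (deriv (deriv v) r))), (by positivity :
        0 ≤ lam om m ^ j * (lam om m ^ 4 * ‖v r‖ ^ 2 + lam om m ^ 2 * ‖deriv (deriv v) r‖ ^ 2))]
  have a3 := int_sub (φ := Lo G j om m v (G.P 2 G.s M a om m v)) k8.continuousOn
    (fun r _ => Lo_nonneg) h2.le (by linarith : x3 ≤ y3) h6.le
  have n1 : 0 ≤ ∫ r in x2..y2, lam om m ^ (j + 3) * ‖D M a om m (deriv v) r‖ ^ 2 :=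
    integral_nonneg (by linarith) fun r _ => by positivity
  have n2 : 0 ≤ ∫ r in x2..y2, lam om m ^ (j + 2) * d1 G om m (deriv (deriv v)) r :=
    integral_nonneg (by linarith) fun r _ => mul_nonneg (by positivity) (d1_nonneg _ _ _ _)
  have n3 : 0 ≤ ∫ r in x3..y3, lam om m ^ (j + 4) * ‖D M a om m v r‖ ^ 2 :=
    integral_nonneg (by linarith) fun r _ => by positivity
  have n4 : 0 ≤ ∫ r in x2..y2, Lo G j om m v (G.P 2 G.s M a om m v) r :=
    integral_nonneg (by linarith) fun r _ => Lo_nonneg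
  have b1 := mul_le_mul_of_nonneg_left H1 (pow_pos l0 (j + 4)).le
  have b2 := mul_le_mul_of_nonneg_left H2 (pow_pos l0 (j + 3)).le
  rw [← intervalIntegral.integral_const_mul] at b1 b2
  have c12 := mul_nonneg c1 c2
  linarith only [b1, mul_le_mul_of_nonneg_left a1 c1, mul_le_mul_of_nonneg_left b2 c1,
    mul_le_mul_of_nonneg_left a2 c12, mul_le_mul_of_nonneg_left a3 c1, mul_nonneg c1 n1,
    mul_nonneg c1 n2, mul_nonneg c1 n3, mul_nonneg c1 n4, mul_nonneg c12 n1, mul_nonneg c12 n2,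
    mul_nonneg c12 n3]

theorem rec1 {M0 a0 x3 x4 y4 y3 : ℝ} (ha : |a0| < M0) (h1 : rp M0 a0 < x3) (h3 : x3 < x4)
    (h4 : x4 ≤ y4) (h5 : y4 < y3) : ∃ C dl : ℝ, 0 ≤ C ∧ 0 < dl ∧
    ∀ M a : ℝ, |M - M0| < dl → |a - a0| < dl →
    ∀ (S : Type) [NormedAddCommGroup S] [InnerProductSpace ℂ S] (G : Ang S), G.Is → |G.s| = 2 →
    ∀ (j : ℕ) (om m : ℝ) (v : ℝ → S), G.Md m v →
      (∫ r in x4..y4, lam om m ^ (j + 3) * d1 G om m v r) ≤
        C * ∫ r in x3..y3, Lo G j om m v (G.P 2 G.s M a om m v) r := by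
  obtain ⟨C1, d1', c1, p1, H1⟩ := non ha h1 h3 h4 h5
  obtain ⟨B, d2, -, p2, q2, HZ⟩ := zn_near ha h1
  obtain ⟨Y, -, HY⟩ := cr_ex 0 M0 a0 x3 y3
  refine ⟨C1 * (2 * Y ^ 2 + 2), min d1' d2, by positivity, lt_min p1 p2,
    fun M a hM ha' S _ _ G hG hs j om m v hv => ?_⟩
  have H1 := H1 M a (hM.trans_le (min_le_left _ _)) (ha'.trans_le (min_le_left _ _)) S G hG hs 2
    om m v (by norm_num) (by norm_num) hv
  have hM2 := hM.trans_le (min_le_right _ _)
  have ha2 := ha'.trans_le (min_le_right _ _)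
  have l0 := lam_pos om m
  have sH := hG.sm_P hv.1 2 G.s M a om m
  have k1 := hv.1.cont
  have k2 := (hG.sm_deriv hv.1).cont
  have k4 := cont_D hv.1.cd M a om m
  have k6 := sH.cont
  have a1 := le3 (l := lam om m ^ (j + 3)) (c := 2 * Y ^ 2 + 2) (by linarith : x3 ≤ y3)
    (f := fun r => ‖D M a om m v r‖ ^ 2 + ‖deriv v r‖ ^ 2 + ‖v r‖ ^ 2 +
      ‖G.P 2 G.s M a om m v r‖ ^ 2 / lam om m) (g1 := fun _ => 0) (g2 := fun _ => 0) (by fun_prop)
    (by fun_prop) (by fun_prop) (cont_Lo (j := j) (om := om) (m := m) hG hv.1 sH) fun r hr => by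
      have e1 := Lo_b (j := j) (om := om) (m := m) (v := v) (r := r) hG sH
      have e2 := D_V1 (HZ M a hM2 ha2 r hr.1) (HY M a r (hM2.le.trans q2) (ha2.le.trans q2) hr om m) v
      have e3 : lam om m ^ (j + 3) * V om m 1 v r ≤ Lo G j om m v (G.P 2 G.s M a om m v) r := by
        rw [pow_succ, mul_assoc]
        exact (mul_le_mul_of_nonneg_left (lam_V 1) (pow_pos l0 _).le).trans Lo_a
      have e4 : ‖deriv v r‖ ^ 2 + ‖v r‖ ^ 2 ≤ V om m 1 v r := by
        rw [V_one]; linarith [le_mul_of_one_le_left (sq_nonneg ‖v r‖) (one_le_lam om m)]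
      have e5 : lam om m ^ (j + 2) * ‖G.P 2 G.s M a om m v r‖ ^ 2 ≤
          Lo G j om m v (G.P 2 G.s M a om m v) r := by
        refine le_trans ?_ e1
        have := V_nonneg (om := om) (m := m) (v := v) (r := r) 2
        rw [pow_add, mul_assoc]
        refine mul_le_mul_of_nonneg_left (le_add_of_nonneg_of_le (by positivity) ?_) (by positivity)
        rw [add_assoc]
        exact le_add_of_le_of_nonneg (mul_le_mul_of_nonneg_right
          (pow_le_pow_right₀ (one_le_lam om m) (by norm_num)) (sq_nonneg _)) (by positivity)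
      rw [mul_add, pw_div _ _ l0 (j + 2)]
      linarith only [e5, e3, mul_le_mul_of_nonneg_left e2 (pow_pos l0 (j + 3)).le,
        mul_le_mul_of_nonneg_left e4 (pow_pos l0 (j + 3)).le,
        mul_le_mul_of_nonneg_left e3 (sq_nonneg Y)]
  have b1 := mul_le_mul_of_nonneg_left H1 (pow_pos l0 (j + 3)).le
  rw [← intervalIntegral.integral_const_mul] at b1
  simp only [intervalIntegral.integral_zero] at a1
  linarith only [b1, mul_le_mul_of_nonneg_left a1 c1]

/-- The density of the uncertainty estimate. -/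
def ud {S : Type} [NormedAddCommGroup S] [InnerProductSpace ℂ S] (M a om m : ℝ) (z : ℝ → S)
    (r : ℝ) : ℝ := ‖D M a om m z r‖ ^ 2 + ka M a r om m ^ 2 * ‖z r‖ ^ 2

theorem unc3 {M0 a0 x x' y' y ε : ℝ} (h0 : a0 ≠ 0) (ha : |a0| < M0) (h1 : rp M0 a0 < x)
    (h2 : x < x') (h3 : x' ≤ y') (h4 : y' < y) (hε : 0 < ε) : ∃ C dl : ℝ, 0 ≤ C ∧ 0 < dl ∧
    ∀ M a : ℝ, |M - M0| < dl → |a - a0| < dl →
    ∀ (S : Type) [NormedAddCommGroup S] [InnerProductSpace ℂ S] (G : Ang S), G.Is →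
    ∀ (j : ℕ) (om m : ℝ) (v : ℝ → S), G.Sm v →
      (∫ r in x'..y', lam om m ^ (j + 2) * V om m 2 v r) ≤
        ε * ((∫ r in x..y, lam om m ^ (j + 2) * ud M a om m (deriv (deriv v)) r) +
          (∫ r in x..y, lam om m ^ (j + 3) * ud M a om m (deriv v) r) +
          ∫ r in x..y, lam om m ^ (j + 4) * ud M a om m v r) +
        C * ∫ r in x..y, Wn G om m (j + 3) v r := by
  obtain ⟨C, dl, c0, d0, H⟩ := P354M0.unc M0 a0 x x' y' y h0 ha h1 h2 h3 h4 ε hε
  refine ⟨C, dl, c0, d0, fun M a hM ha' S _ _ G hG j om m v hv => ?_⟩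
  have l0 := lam_pos om m
  have hy := hG.sm_deriv hv
  have hu := hG.sm_deriv hy
  have b : ∀ (i : ℕ) (z : ℝ → S), G.Sm z → (∫ r in x'..y', lam om m ^ (i + 1) * ‖z r‖ ^ 2) ≤
      ε * (∫ r in x..y, lam om m ^ (i + 1) * ud M a om m z r) +
      C * ∫ r in x..y, lam om m ^ i * ‖z r‖ ^ 2 := fun i z hz => by
    have := mul_le_mul_of_nonneg_left (H M a hM ha' S om m z hz.cd) (pow_pos l0 i).le
    simp only [pow_succ, mul_assoc, intervalIntegral.integral_const_mul (lam om m ^ i), ud] at this ⊢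
    linarith
  have k1 := hv.cont
  have k2 := hy.cont
  have k3 := hu.cont
  have s : ∀ (i : ℕ) (p q : ℝ), ∫ r in p..q, lam om m ^ i * V om m 2 v r =
      (∫ r in p..q, lam om m ^ i * ‖deriv (deriv v) r‖ ^ 2) +
      (∫ r in p..q, lam om m ^ (i + 1) * ‖deriv v r‖ ^ 2) +
      ∫ r in p..q, lam om m ^ (i + 2) * ‖v r‖ ^ 2 := fun i p q => by
    rw [← P354M0.int_add (by fun_prop) (by fun_prop), ← P354M0.int_add (by fun_prop) (by fun_prop)]
    exact integral_congr fun r _ => by simp only [V_two]; ring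
  have a1 : ∫ r in x..y, lam om m ^ (j + 1) * V om m 2 v r ≤ ∫ r in x..y, Wn G om m (j + 3) v r :=
    integral_mono_on (by linarith) ((continuous_const.mul (cont_V hv.cd 2)).intervalIntegrable _ _)
      ((cont_Wn hG hv _).intervalIntegrable _ _) fun r _ => V2_Wn hG hv j
  rw [s] at a1 ⊢
  linarith only [b (j + 1) _ hu, b (j + 2) _ hy, b (j + 3) _ hv, mul_le_mul_of_nonneg_left a1 c0]

/-- The errors of the energy of the member d v of the chain, d of order i ≤ 2. -/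
theorem er_le {f : ℝ × ℝ × ℝ → ℝ} (hf : ContDiff ℝ ∞ f) (M0 a0 x y : ℝ) {d : Op} (hd : d.Sm)
    {i i' : ℕ} (hi : d.ord ≤ i) (h2 : i + i' = 2) : ∃ C : ℝ, 0 ≤ C ∧ ∀ M a r : ℝ, |M - M0| ≤ 1 →
    |a - a0| ≤ 1 → r ∈ Icc x y →
    ∀ (S : Type) [NormedAddCommGroup S] [InnerProductSpace ℂ S] (G : Ang S), G.Is →
    ∀ (j : ℕ) (om m : ℝ) (v : ℝ → S), G.Md m v →
      lam om m ^ (j + 1 + i' + 1) * ‖d.cv M a om m (Nc G (fun r => f (M, a, r)) M a om m v) r -
        Nc G (fun r => f (M, a, r)) M a om m (d.cv M a om m v) r‖ ^ 2 +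
      lam om m ^ (j + 1 + i') * d1 G om m (d.cv M a om m v) r ≤ C * Wn G om m (j + 4) v r := by
  obtain ⟨C1, c1, H1⟩ := cv_bd M0 a0 x y (cm f d) (cm_sm hf d hd) ((cm_ord d).trans hi)
  obtain ⟨C2, c2, H2⟩ := cv_bd M0 a0 x y d hd hi
  obtain ⟨C3, c3, H3⟩ := cv_bd M0 a0 x y (.R d) hd (Nat.succ_le_succ hi)
  obtain ⟨C4, c4, H4⟩ := An_cv (x := x) (y := y) (M0 := M0) (a0 := a0) d hd hi
  refine ⟨C1 + C2 + C3 + C4, by positivity, fun M a r h1 h3 h4 S _ _ G hG j om m v hv => ?_⟩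
  have l0 := lam_pos om m
  have up : ∀ (z : ℝ → S) (k p : ℕ), lam om m ^ p * V om m k z r ≤ V om m (k + p) z r :=
    fun z k p => by
      induction p with
      | zero => simp
      | succ p ih =>
        rw [pow_succ', mul_assoc]
        exact (mul_le_mul_of_nonneg_left ih l0.le).trans (lam_V _)
  have e1 := up v i (i' + 1)
  have e2 := up v (i + 1) i'
  have e3 : lam om m ^ i' * ∑ k, V om m i (fun r => G.L k (v r)) r ≤
      ∑ k, V om m 2 (fun r => G.L k (v r)) r := by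
    rw [Finset.mul_sum]; exact Finset.sum_le_sum fun k _ => h2 ▸ up _ i i'
  rw [show i + (i' + 1) = 3 by omega] at e1
  rw [show i + 1 + i' = 3 by omega] at e2
  have e4 := V_Wn (om := om) (m := m) (r := r) hG hv.1 (j + 1)
  have n1 := V_nonneg (om := om) (m := m) (v := v) (r := r) 3
  have n2 : 0 ≤ ∑ k, V om m 2 (fun r => G.L k (v r)) r := Finset.sum_nonneg fun _ _ => V_nonneg 2
  have f1 := H1 M a r h1 h3 h4 S om m v hv.1.cd
  have f2 := H2 M a r h1 h3 h4 S om m v hv.1.cd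
  have f3 := H3 M a r h1 h3 h4 S om m v hv.1.cd
  have f4 := H4 M a r h1 h3 h4 S G hG om m v hv
  rw [cv_Nc hf hv.1.cd d hd, add_sub_cancel_left, d1_eq, V_one]
  refine le_trans ?_ (mul_le_mul_of_nonneg_left e4 (by positivity))
  rw [add_assoc (j + 1), pow_add, pow_add _ (j + 1), mul_assoc, mul_assoc, ← mul_add,
    mul_left_comm]
  refine mul_le_mul_of_nonneg_left ?_ (by positivity)
  have p1 := (pow_pos l0 (i' + 1)).le
  have p2 := (pow_pos l0 i').le
  have g2 := mul_le_mul_of_nonneg_left f2 p1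
  rw [pow_succ] at g2 e1
  simp only [Op.cv] at f3
  rw [pow_succ]
  linarith only [mul_le_mul_of_nonneg_left f1 (mul_nonneg p2 l0.le), g2,
    mul_le_mul_of_nonneg_left f3 p2, mul_le_mul_of_nonneg_left f4 p2,
    mul_le_mul_of_nonneg_left e1 c1, mul_le_mul_of_nonneg_left e1 c2,
    mul_le_mul_of_nonneg_left e2 c3, mul_le_mul_of_nonneg_left e3 c4, mul_nonneg c1 n2,
    mul_nonneg c2 n2, mul_nonneg c3 n2, mul_nonneg c4 n1]

end Vale.Agent.P354RP
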