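import Vale.Agent.P354RP.Pt

/-!
One step of the recovery for positive spin, at one point.
-/

open scoped ContDiff InnerProductSpace
open Complex (I)
open Vale.Agent.P354BF Vale.Agent.P354XN
open Vale.Agent.P354XH (K ka)
open Vale.Agent.P354XT (lam)

noncomputable section

namespace Vale.Agent.P354RP

theorem absorb {c0 C1 C2 : ℝ} (h0 : 0 < c0) (h2 : 0 < C2) : ∃ c C : ℝ, 0 < c ∧ 0 ≤ C ∧
    ∀ g s E Tm Te Y : ℝ, s ^ 2 ≤ 4 * (g + E ^ 2) → c0 * g ≤ Tm → Te ≤ C1 * s * E →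
      Y ≤ C2 * s ^ 2 → c * Y ≤ Tm - Te + C * E ^ 2 := by
  refine ⟨c0 / (8 * C2), c0 + 2 * C1 ^ 2 / c0, by positivity, by positivity,
    fun g s E Tm Te Y a b c d => ?_⟩
  have e1 : c0 / (8 * C2) * Y ≤ c0 / 8 * s ^ 2 :=
    (mul_le_mul_of_nonneg_left d (by positivity)).trans_eq (by field_simp)
  have e2 : C1 * s * E ≤ c0 / 8 * s ^ 2 + 2 * C1 ^ 2 / c0 * E ^ 2 := by
    have : c0 / 8 * s ^ 2 + 2 * C1 ^ 2 / c0 * E ^ 2 - C1 * s * E =
        (c0 * s - 4 * C1 * E) ^ 2 / (8 * c0) := by field_simp; ring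
    have : 0 ≤ (c0 * s - 4 * C1 * E) ^ 2 / (8 * c0) := by positivity
    linarith
  nlinarith [mul_le_mul_of_nonneg_left a h0.le]

/-- The inequality between numbers. -/
theorem stepR {γ B : ℝ} (hγ : 0 < γ) (hB : 1 ≤ B) : ∃ A c C : ℝ, 0 ≤ A ∧ 0 < c ∧ 0 ≤ C ∧
    ∀ a1 a2 a3 a4 b1 b2 b3 b4 V x1 x2 La Lb E : ℝ, 0 ≤ a1 → 0 ≤ a2 → 0 ≤ a4 → 0 ≤ b1 → 0 ≤ b2 →
      0 ≤ b4 → 0 ≤ La → 0 ≤ Lb → a3 ≤ E → V ≤ 2 * E → a4 ≤ E → b3 ≤ B ^ 2 * E → b4 ≤ E →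
      x1 ≤ 3 * B * La * E → x2 ≤ (La + Lb) * E → La ≤ a4 + 3 * B ^ 4 * (a1 + a2) →
      Lb ≤ b4 + 3 * B ^ 4 * (b1 + b2) → b1 ≤ 3 * B * (a1 + a2) + E →
      c * (La ^ 2 + Lb ^ 2) ≤ γ / 4 * a1 ^ 2 - 14 * B * a1 * a2 - (22 * a1 + 2 * B * a2) * a3 -
        a1 * V + A * (a2 ^ 2 - 8 * B ^ 4 * ((a1 + a2) * a4) - 2 * a1 * (B ^ 2 * a3) - x1 -
          6 * a4 ^ 2) + (b2 ^ 2 - 8 * B ^ 4 * ((b1 + b2) * b4) - 2 * b1 * b3 - x2 - 6 * b4 ^ 2) +
        C * E ^ 2 := by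
  set A := 392 * B ^ 2 / γ + 1 with hA
  have B0 : 0 < B := one_pos.trans_le hB
  have A0 : 0 ≤ A := by positivity
  obtain ⟨c, C, c0, C0, H⟩ := absorb (c0 := min (γ / 8) 1) (C1 := 26 * B + A * (25 * B ^ 5) +
    60 * B ^ 5) (C2 := 178 * B ^ 10) (by positivity) (by positivity)
  refine ⟨A, c, C, A0, c0, C0, fun a1 a2 a3 a4 b1 b2 b3 b4 V x1 x2 La Lb E p1 p2 p4 q1 q2 q4 l1 l2
    h1 h2 h3 h4 h5 h6 h7 h8 h9 h10 => ?_⟩
  have E0 : 0 ≤ E := p4.trans h3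
  obtain ⟨s, hs⟩ : ∃ s, s = a1 + a2 + b2 + E := ⟨_, rfl⟩
  have s0 : 0 ≤ s := by rw [hs]; positivity
  have pw : ∀ i j : ℕ, i ≤ j → B ^ i * (s * E) ≤ B ^ j * (s * E) := fun i j e =>
    mul_le_mul_of_nonneg_right (pow_le_pow_right₀ hB e) (mul_nonneg s0 E0)
  have ps : ∀ i j : ℕ, i ≤ j → B ^ i * s ≤ B ^ j * s := fun i j e =>
    mul_le_mul_of_nonneg_right (pow_le_pow_right₀ hB e) s0
  have sa : a1 + a2 ≤ s := by linarith
  have up : ∀ {x : ℝ} (i : ℕ), 0 ≤ x → x ≤ B ^ i * x := fun i e =>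
    le_mul_of_one_le_left e (one_le_pow₀ hB)
  have sb : b1 ≤ 3 * B * s := by rw [hs]; linarith only [h10, up 1 E0, up 1 q2, q2, E0]
  have sb2 : b1 + b2 ≤ 4 * B * s := by
    rw [hs]; linarith only [h10, up 1 E0, up 1 q2, q2, E0, up 1 p1, up 1 p2, p1, p2]
  have sl : La ≤ 3 * B ^ 4 * s := by rw [hs]; linarith only [h8, h3, up 4 E0, up 4 q2, q2, E0]
  have sl2 : Lb ≤ 13 * B ^ 5 * s := by
    linarith only [mul_le_mul_of_nonneg_left sb2 (by positivity : 0 ≤ 3 * B ^ 4), up 5 s0, h9, h5,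
      hs, p1, p2, q2]
  have m : ∀ {p q P Q : ℝ}, 0 ≤ p → p ≤ P * s → q ≤ Q * E → 0 ≤ Q → p * q ≤ P * Q * (s * E) :=
    fun {p q P Q} e1 e2 e3 e4 => (mul_le_mul_of_nonneg_left e3 e1).trans
      ((mul_le_mul_of_nonneg_right e2 (mul_nonneg e4 E0)).trans_eq (by ring))
  have t1 := m (p := 22 * a1 + 2 * B * a2) (P := 24 * B) (Q := 1) (by positivity) (by
    rw [hs]; linarith only [up 1 E0, up 1 q2, q2, E0, up 1 p1, up 1 p2, p1, p2])
    (h1.trans_eq (one_mul E).symm) zero_le_one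
  have t2 := m (p := a1) (P := B) p1 (by
    rw [hs]; linarith only [up 1 E0, up 1 q2, q2, E0, up 1 p1, up 1 p2, p1, p2]) h2 (by norm_num)
  have t3 := m (p := a1 + a2) (P := 1) (Q := 1) (by positivity) (by linarith)
    (h3.trans_eq (one_mul E).symm) zero_le_one
  have t4 := m (p := a1) (P := 1) (Q := B ^ 2) p1 (by linarith)
    (mul_le_mul_of_nonneg_left h1 (sq_nonneg B)) (sq_nonneg B)
  have t5 := m (q := E) (Q := 1) l1 sl (one_mul E).ge zero_le_one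
  have t6 := m (p := a4) (P := 1) (Q := 1) p4 (by linarith) (h3.trans_eq (one_mul E).symm)
    zero_le_one
  have t7 := m (Q := 1) (add_nonneg q1 q2) sb2 (h5.trans_eq (one_mul E).symm) zero_le_one
  have t8 := m q1 sb h4 (sq_nonneg B)
  have t9 := m (q := E) (Q := 1) l2 sl2 (one_mul E).ge zero_le_one
  have t10 := m (p := b4) (P := 1) (Q := 1) q4 (by linarith) (h5.trans_eq (one_mul E).symm)
    zero_le_one
  have u1 : 8 * B ^ 4 * ((a1 + a2) * a4) + 2 * a1 * (B ^ 2 * a3) + x1 + 6 * a4 ^ 2 ≤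
      25 * B ^ 5 * (s * E) := by
    linarith only [mul_le_mul_of_nonneg_left t3 (by positivity : 0 ≤ 8 * B ^ 4), t4, t6, h6,
      pw 4 5 (by norm_num), pw 2 5 (by norm_num), pw 0 5 (by norm_num),
      mul_le_mul_of_nonneg_left t5 B0.le]
  have u2 : 8 * B ^ 4 * ((b1 + b2) * b4) + 2 * b1 * b3 + x2 + 6 * b4 ^ 2 ≤ 60 * B ^ 5 * (s * E) := by
    linarith only [mul_le_mul_of_nonneg_left t7 (by positivity : 0 ≤ 8 * B ^ 4), t5, t8, t9, t10,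
      h7, pw 4 5 (by norm_num), pw 3 5 (by norm_num), pw 0 5 (by norm_num)]
  have := H (a1 ^ 2 + a2 ^ 2 + b2 ^ 2) s E (γ / 4 * a1 ^ 2 - 14 * B * a1 * a2 + A * a2 ^ 2 + b2 ^ 2)
    ((22 * a1 + 2 * B * a2) * a3 + a1 * V + A * (8 * B ^ 4 * ((a1 + a2) * a4) +
      2 * a1 * (B ^ 2 * a3) + x1 + 6 * a4 ^ 2) + (8 * B ^ 4 * ((b1 + b2) * b4) + 2 * b1 * b3 + x2 +
      6 * b4 ^ 2)) (La ^ 2 + Lb ^ 2) ?_ ?_ ?_ ?_
  · linarith only [this]
  · rw [hs]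
    linarith only [sq_nonneg (a1 - a2), sq_nonneg (a1 - b2), sq_nonneg (a1 - E), sq_nonneg (a2 - b2),
      sq_nonneg (a2 - E), sq_nonneg (b2 - E)]
  · have e1 : γ / 8 * a1 ^ 2 - 14 * B * a1 * a2 + 392 * B ^ 2 / γ * a2 ^ 2 =
        (γ * a1 - 56 * B * a2) ^ 2 / (8 * γ) := by field_simp; ring
    have e2 : 0 ≤ (γ * a1 - 56 * B * a2) ^ 2 / (8 * γ) := by positivity
    have e3 := mul_le_mul_of_nonneg_right (min_le_left (γ / 8) 1) (sq_nonneg a1)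
    have e4 := mul_le_mul_of_nonneg_right (min_le_right (γ / 8) 1) (sq_nonneg a2)
    have e5 := mul_le_mul_of_nonneg_right (min_le_right (γ / 8) 1) (sq_nonneg b2)
    rw [hA]; linarith only [e1, e2, e3, e4, e5, mul_nonneg hγ.le (sq_nonneg a1)]
  · linarith only [mul_le_mul_of_nonneg_left u1 A0, u2, t1, t2]
  · have e1 := pow_le_pow_left₀ l1 (sl.trans (by linarith [ps 4 5 (by norm_num)] :
      3 * B ^ 4 * s ≤ 3 * B ^ 5 * s)) 2
    have e2 := pow_le_pow_left₀ l2 sl2 2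
    linarith only [e1, e2]

/-- Crude bounds for the terms of lower order. -/
structure Cr (Y s M a r om m : ℝ) : Prop where
  Y1 : 1 ≤ Y
  r1 : r ≤ Y
  r2 : r ^ 2 ≤ Y
  K : |K a r om m| ≤ Y * La om m
  ka : |ka M a r om m| ≤ Y * La om m
  ka1 : |ka1 M a r om m| ≤ Y * La om m
  cz : |De M a r * (om * (6 * r - 6 * M)) + (1 - s) * (2 * r - 2 * M) * P354RP.ka1 M a r om m| ≤
    Y * La om m
  cy : |2 * s * (om * r * (2 * r - 2 * M) - P354XH.K a r om m - 2 * om * De M a r)| ≤ Y * La om m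
  cu : |4 * s * (M ^ 2 - a ^ 2)| ≤ Y

variable {S : Type} [NormedAddCommGroup S] [InnerProductSpace ℂ S] {A : Ang S}

/-- The degenerate density. -/
def bd (M a om m : ℝ) (z : ℝ → S) (r : ℝ) : ℝ :=
  r ^ 2 * ‖D M a om m z r‖ ^ 2 + ka M a r om m ^ 2 * ‖z r‖ ^ 2

/-- The terms of lower order. -/
def sg (om m : ℝ) (y H : ℝ → S) (r : ℝ) : ℝ :=
  ‖deriv y r‖ + La om m * ‖y r‖ + ‖H r‖ + ‖deriv H r‖ / La om m

theorem n2 (p q : ℝ) (u v : S) : ‖(p : ℂ) • u - (q : ℂ) • I • v‖ ≤ |p| * ‖u‖ + |q| * ‖v‖ := by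
  refine (norm_sub_le _ _).trans ?_
  rw [norm_real, norm_real, norm_I]

variable {B Y s M a r om m : ℝ} {y : ℝ → S}

theorem D_le (hz : Zn B M a r) (hc : Cr Y s M a r om m) (y : ℝ → S) :
    ‖D M a om m y r‖ ≤ Y * (‖deriv y r‖ + La om m * ‖y r‖) := by
  refine (n2 _ _ _ _).trans ?_
  rw [abs_of_nonneg hz.De0]
  nlinarith [mul_le_mul_of_nonneg_right (hz.De1.trans hc.r2) (norm_nonneg (deriv y r)),
    mul_le_mul_of_nonneg_right hc.K (norm_nonneg (y r))]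

theorem dD_le (hA : A.Is) (hy : A.Sm y) (hz : Zn B M a r) :
    ‖deriv (D M a om m y) r‖ ≤
      ‖D M a om m (deriv y) r‖ + 2 * r * (‖deriv y r‖ + La om m * ‖y r‖) := by
  have r0 := hz.r0
  rw [deriv_D hA hy, add_sub_assoc]
  refine (norm_add_le _ _).trans (add_le_add le_rfl ((n2 _ _ _ _).trans ?_))
  rw [abs_of_nonneg (by linarith [hz.Mr]), abs_mul, abs_of_pos (by positivity : 0 < 2 * r)]
  nlinarith [mul_nonneg hz.M0 (norm_nonneg (deriv y r)), mul_le_mul_of_nonneg_left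
    (mul_le_mul_of_nonneg_right (om_La om m) (norm_nonneg (y r))) r0.le]

theorem PD_le (hA : A.Is) (hy : A.Sm y) (hc : Cr Y s M a r om m) (k : ℝ) :
    ‖A.P (s + 1) k M a om m (D M a om m y) r - D M a om m (A.P s k M a om m y) r‖ ≤
      2 * (|ka M a r om m| * ‖deriv y r‖) + Y * (‖deriv y r‖ + La om m * ‖y r‖) := by
  rw [P_D hA hy, add_sub_assoc (D _ _ _ _ _ r), add_assoc, add_sub_cancel_left]
  refine (norm_add_le _ _).trans ((add_le_add (norm_sub_le _ _) le_rfl).trans ?_)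
  rw [norm_real, norm_real, norm_real, norm_I, norm_I, abs_mul, abs_two]
  nlinarith [mul_le_mul_of_nonneg_right hc.cu (norm_nonneg (deriv y r)),
    mul_le_mul_of_nonneg_right hc.cy (norm_nonneg (y r))]

theorem Kz_le (hz : Zn B M a r) (y : ℝ → S) : |K a r om m| * ‖kz M a om m y r‖ ≤
    |ka M a r om m| * ‖D M a om m y r‖ + r ^ 2 * (|ka M a r om m| * ‖deriv y r‖) := by
  have e : |K a r om m| * ‖y r‖ ≤ ‖D M a om m y r‖ + r ^ 2 * ‖deriv y r‖ := by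
    have e1 : (K a r om m : ℂ) • I • y r = (De M a r : ℂ) • deriv y r - D M a om m y r := by
      rw [D]; abel
    rw [← norm_I (y r), ← norm_real, e1]
    refine (norm_sub_le _ _).trans ?_
    rw [norm_real, abs_of_nonneg hz.De0]
    linarith [mul_le_mul_of_nonneg_right hz.De1 (norm_nonneg (deriv y r))]
  rw [kz, norm_real]
  nlinarith [mul_le_mul_of_nonneg_left e (abs_nonneg (ka M a r om m))]

theorem dkz_le (hy : A.Sm y) (hc : Cr Y s M a r om m) : ‖deriv (kz M a om m y) r‖ ≤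
    |ka M a r om m| * ‖deriv y r‖ + Y * (La om m * ‖y r‖) := by
  rw [deriv_kz hy]
  refine (norm_add_le _ _).trans ?_
  rw [norm_real, norm_real]
  nlinarith [mul_le_mul_of_nonneg_right hc.ka1 (norm_nonneg (y r))]

theorem Pkz_le (hA : A.Is) (hy : A.Sm y) (hc : Cr Y s M a r om m) (k : ℝ) :
    ‖A.P s k M a om m (kz M a om m y) r‖ ≤
      Y * La om m * (‖A.P s k M a om m y r‖ + ‖y r‖ + 2 * ‖D M a om m y r‖) := by
  rw [P_kz hA hy]
  refine (norm_add_le _ _).trans ((add_le_add (norm_add_le _ _) le_rfl).trans ?_)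
  rw [norm_real, norm_real, norm_real, abs_mul, abs_two]
  nlinarith [mul_le_mul_of_nonneg_right hc.ka (norm_nonneg (A.P s k M a om m y r)),
    mul_le_mul_of_nonneg_right hc.ka1 (norm_nonneg (D M a om m y r)),
    mul_le_mul_of_nonneg_right hc.cz (norm_nonneg (y r))]

end Vale.Agent.P354RP
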