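import Vale.Agent.P354RP.Step

/-!
One step of the recovery for positive spin.
-/

open scoped ContDiff InnerProductSpace
open Complex (I)
open Set MeasureTheory intervalIntegral
open Vale.Agent.P354BF Vale.Agent.P354XN
open Vale.Agent.P354XH (K ka)
open Vale.Agent.P354XT (lam)

noncomputable section

namespace Vale.Agent.P354RP

theorem der_div {g : ℝ → ℝ} {g1 r p k : ℝ} (hg : HasDerivAt g g1 r) (hr : 0 < r) (g0 : 0 ≤ g r)
    (gp : g r ≤ p) (hk : |g1| ≤ k * p / r) :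
    ∃ h1, HasDerivAt (fun x => g x / x) h1 r ∧ |h1| ≤ (k + 1) * (p / r) / r := by
  refine ⟨_, hg.div (hasDerivAt_id r) hr.ne', ?_⟩
  simp only [mul_one]
  rw [le_div_iff₀ hr] at hk
  rw [abs_div, abs_of_pos (by positivity : 0 < r ^ 2), div_le_iff₀ (by positivity)]
  have e := abs_sub (g1 * r) (g r)
  rw [abs_mul, abs_of_pos hr, abs_of_nonneg g0] at e
  rw [show (k + 1) * (p / r) / r * r ^ 2 = (k + 1) * p by field_simp]
  linarith

/-- The cut off and the weight at one point. -/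
structure Wp (γ κ Φ s a : ℝ) (χ φ : ℝ → ℝ) (r : ℝ) : Prop where
  c0 : 0 ≤ χ r
  c1 : χ r ≤ 1
  cd : |deriv χ r| ≤ κ / r
  f0 : 0 < φ r
  f1 : φ r ≤ Φ
  fd : |deriv φ r| ≤ 14 * φ r / r
  key : γ / 4 * φ r / r ≤ deriv φ r + (6 + 4 * s) * r * φ r / (r ^ 2 + a ^ 2)

variable {S : Type} [NormedAddCommGroup S] [InnerProductSpace ℂ S]

/-- The current of one step. -/
def QS (c M a om m : ℝ) (χ φ : ℝ → ℝ) (y : ℝ → S) (x : ℝ) : ℝ :=
  QK M a om m (fun x => χ x * φ x) (D M a om m y) x +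
    QL M a (fun x => c * (χ x * φ x / x)) (D M a om m y) x +
    QL M a (fun x => χ x * φ x / x / x / x) (kz M a om m y) x

theorem cut_le {c f a1 a3 E k : ℝ} (f0 : 0 ≤ f) (p1 : 0 ≤ a1) (p3 : 0 ≤ a3) (h : a3 ≤ E)
    (hk : |c| * f ≤ k) : -(k * E ^ 2) - 2 * (max (-c) 0 * f * a1 ^ 2) ≤
      c * f * a1 ^ 2 - |c * f| * a1 * a3 := by
  have e1 : |c| * f * a3 ^ 2 ≤ k * E ^ 2 :=
    mul_le_mul hk (pow_le_pow_left₀ p3 h 2) (sq_nonneg _) ((by positivity : 0 ≤ |c| * f).trans hk)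
  rw [abs_mul, abs_of_nonneg f0]
  rcases le_total 0 c with e | e
  · rw [abs_of_nonneg e] at e1 ⊢
    rw [max_eq_right (neg_nonpos.2 e)]
    nlinarith [mul_nonneg (mul_nonneg e f0) (sq_nonneg (a1 - a3)),
      mul_nonneg (mul_nonneg e f0) (mul_nonneg p1 p3)]
  · rw [abs_of_nonpos e] at e1 ⊢
    rw [max_eq_left (neg_nonneg.2 e)]
    nlinarith [mul_nonneg (mul_nonneg (neg_nonneg.2 e) f0) (sq_nonneg (a1 - a3)),
      mul_nonneg (mul_nonneg (neg_nonneg.2 e) f0) (mul_nonneg p1 p3)]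

theorem stepE {B Y r Λ σ1 σ2 σ3 σ4 U DU a3 a4 β3 β4 V F1 F2 E : ℝ} (hB : 1 ≤ B) (hY : 1 ≤ Y)
    (r0 : 0 < r) (rB : 1 ≤ B * r) (r1 : r ≤ Y) (r2 : r ^ 2 ≤ Y) (hΛ : 1 ≤ Λ) (z1 : 0 ≤ σ1)
    (z2 : 0 ≤ σ2) (z3 : 0 ≤ σ3) (z4 : 0 ≤ σ4) (z5 : 0 ≤ U) (z6 : 0 ≤ DU) (z7 : 0 ≤ a4)
    (z8 : 0 ≤ β4) (n5 : β3 ≤ U + Y * (Λ * σ2)) (n6 : F2 ≤ Y * Λ * (σ3 + σ2 + 2 * a4))
    (n7 : V ≤ 2 * U + Y * (σ1 + Λ * σ2)) (n8 : a3 ≤ DU + 2 * r * (σ1 + Λ * σ2))
    (n9 : a4 ≤ Y * (σ1 + Λ * σ2)) (n11 : β4 ≤ Y * (Λ * σ2))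
    (n12 : F1 ≤ Y * (Λ * σ4 + Λ * σ3) + (2 * U + Y * (σ1 + Λ * σ2)))
    (hE : E = r ^ 2 * DU + r * U + 2 * B ^ 2 * Y ^ 2 * (σ1 + Λ * σ2 + σ3 + σ4)) :
    r ^ 2 * a3 ≤ E ∧ r * V ≤ 2 * E ∧ a4 ≤ E ∧ β3 ≤ B * E ∧ β4 / r ≤ E ∧
      a4 * F1 ≤ 3 * B * (Λ * a4) * E ∧ β4 / r * (F2 / r) ≤ (Λ * a4 + Λ * β4 / r) * E := by
  have B0 : 0 < B := one_pos.trans_le hB
  have Y0 : 0 < Y := one_pos.trans_le hY
  have L0 : 0 < Λ := one_pos.trans_le hΛ
  obtain ⟨τ, hτ⟩ : ∃ τ, τ = σ1 + Λ * σ2 := ⟨_, rfl⟩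
  obtain ⟨σ, hσ⟩ : ∃ σ, σ = τ + σ3 + σ4 := ⟨_, rfl⟩
  rw [← hτ] at n7 n8 n9 n12 hE
  rw [← hσ] at hE
  have t0 : 0 ≤ τ := by rw [hτ]; positivity
  have t1 : τ ≤ σ := by linarith only [hσ, z3, z4]
  have s0 : 0 ≤ σ := t0.trans t1
  have t2 : Λ * σ2 ≤ σ := by linarith only [hτ, t1, z1]
  have t3 : σ2 ≤ Λ * σ2 := le_mul_of_one_le_left z2 hΛ
  have y1 : Y * τ ≤ Y * σ := mul_le_mul_of_nonneg_left t1 Y0.le
  have y2 : Y * (Λ * σ2) ≤ Y * σ := mul_le_mul_of_nonneg_left t2 Y0.le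
  have y3 : Y * σ ≤ Y * (Y * σ) := le_mul_of_one_le_left (by positivity) hY
  have y4 : Y * (Y * σ) ≤ B * (Y * (Y * σ)) := le_mul_of_one_le_left (by positivity) hB
  have y5 : B * (Y * (Y * σ)) ≤ B * (B * (Y * (Y * σ))) := le_mul_of_one_le_left (by positivity) hB
  have y6 : 0 ≤ Y * σ := by positivity
  have p1 : 0 ≤ r ^ 2 * DU := by positivity
  have p2 : 0 ≤ r * U := by positivity
  have e0 : 2 * (B * (B * (Y * (Y * σ)))) ≤ E := by linarith only [hE, p1, p2]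
  have e1 : r * U ≤ E := by linarith only [hE, p1, y3, y4, y5, y6]
  have E0 : 0 ≤ E := p2.trans e1
  have u1 : U ≤ B * (r * U) := by nlinarith only [rB, z5]
  have iv : 1 / r ≤ B := by rw [div_le_iff₀ r0]; exact rB
  have dv : ∀ {x : ℝ}, 0 ≤ x → x / r ≤ B * x := fun {x} e => by
    rw [div_eq_mul_one_div, mul_comm]; exact mul_le_mul_of_nonneg_right iv e
  have b4 : β4 / r ≤ B * (Y * σ) := (dv z8).trans (mul_le_mul_of_nonneg_left (n11.trans y2) B0.le)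
  have b5 : B * (Y * σ) ≤ E := by
    linarith only [e0, mul_le_mul_of_nonneg_left y3 B0.le, y3, y4, y5, y6]
  refine ⟨?_, ?_, ?_, ?_, b4.trans b5, ?_, ?_⟩
  · have : r ^ 2 * r * τ ≤ Y * Y * σ := mul_le_mul (mul_le_mul r2 r1 r0.le Y0.le) t1 t0 (by positivity)
    linarith only [mul_le_mul_of_nonneg_left n8 (sq_nonneg r), this, hE, p2, y4, y5]
  · have : r * (Y * τ) ≤ Y * (Y * σ) := mul_le_mul r1 y1 (by positivity) Y0.le
    linarith only [mul_le_mul_of_nonneg_left n7 r0.le, this, hE, p1, y3, y4, y5, y6]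
  · linarith only [n9, y1, y3, y4, y5, y6, e0]
  · have : B * (r * U + Y * σ) ≤ B * E :=
      mul_le_mul_of_nonneg_left (by linarith only [hE, p1, y3, y4, y5, y6]) B0.le
    linarith only [n5, u1, y2, this, le_mul_of_one_le_left y6 hB]
  · have c1 : Y * τ ≤ Λ * (Y * τ) := le_mul_of_one_le_left (by positivity) hΛ
    have c2 : Λ * (Y * σ) ≤ Λ * (B * E) := mul_le_mul_of_nonneg_left
      ((by linarith only [e0, y3, y4, y5, y6] : Y * σ ≤ E).trans (le_mul_of_one_le_left E0 hB)) L0.le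
    have c3 : B * (r * U) ≤ Λ * (B * E) := (mul_le_mul_of_nonneg_left e1 B0.le).trans
      (le_mul_of_one_le_left (by positivity) hΛ)
    have c4 : F1 ≤ 3 * (Λ * (B * E)) := by
      rw [hσ] at c2; linarith only [n12, c1, c2, c3, u1]
    linarith only [mul_le_mul_of_nonneg_left c4 z7]
  · have q0 : 0 ≤ β4 / r := by positivity
    have c1 : F2 / r ≤ B * (Y * Λ * (σ3 + σ2 + 2 * a4)) :=
      (div_le_div_of_nonneg_right n6 r0.le).trans (dv (by positivity))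
    have c2 : B * (Y * (σ3 + σ2)) ≤ E := le_trans (mul_le_mul_of_nonneg_left
      (mul_le_mul_of_nonneg_left (by linarith only [hσ, hτ, t3, z1, z4]) Y0.le) B0.le) b5
    have c3 : 2 * (B * Y) * (β4 / r) ≤ E := by
      linarith only [mul_le_mul_of_nonneg_left b4 (by positivity : 0 ≤ 2 * (B * Y)), e0]
    rw [mul_div_assoc]
    linarith only [mul_le_mul_of_nonneg_left c1 q0,
      mul_le_mul_of_nonneg_left c2 (mul_nonneg L0.le q0),
      mul_le_mul_of_nonneg_left c3 (mul_nonneg L0.le z7)]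

theorem stepP {γ B κ : ℝ} (hγ : 0 < γ) (hB : 1 ≤ B) (hκ : 0 ≤ κ) : ∃ A c C : ℝ, 0 < c ∧ 0 ≤ C ∧
    ∀ (Y Φ s M a r om m : ℝ) (χ φ : ℝ → ℝ), 0 ≤ s → s ≤ 2 → Zn B M a r → Cr Y s M a r om m →
    Wp γ κ Φ s a χ φ r → DifferentiableAt ℝ χ r → DifferentiableAt ℝ φ r →
    ∀ (S : Type) [NormedAddCommGroup S] [InnerProductSpace ℂ S] (G : Ang S), G.Is → |G.s| = 2 →
    ∀ y : ℝ → S, G.Md m y → ∃ q, HasDerivAt (QS A M a om m χ φ y) q r ∧
      c * (χ r * φ r / r ^ 3 * (lam om m * bd M a om m y r)) -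
      (χ r * φ r * K a r om m * ri (I • D M a om m y r) (D M a om m (G.P s G.s M a om m y) r) +
        C * (φ r * r * bd M a om m (deriv y) r) +
        2 * (max (-deriv χ r) 0 * φ r * (|K a r om m| * ‖D M a om m y r‖) ^ 2) +
        C * (B * Φ * (2 * B ^ 2 * Y ^ 2) ^ 2) * sg om m y (G.P s G.s M a om m y) r ^ 2) ≤ q := by
  obtain ⟨A, c, C, A0, c0, C0, H⟩ := stepR hγ hB
  have B0 : 0 < B := one_pos.trans_le hB
  refine ⟨A, c, 3 * (C + κ + A * (κ + 21) * B + (κ + 23) * B), c0, by positivity,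
    fun Y Φ s M a r om m χ φ s0 s2 hz hc hw dχ dφ S _ _ G hG hs y hy => ?_⟩
  have r0 := hz.r0
  have f0 := hw.f0
  have x0 := hw.c0
  have Y0 : 0 < Y := one_pos.trans_le hc.Y1
  have L0 := La_pos om m
  have hg := dχ.hasDerivAt.mul dφ.hasDerivAt
  have g0 : 0 ≤ χ r * φ r := by positivity
  have g1 : χ r * φ r ≤ φ r := mul_le_of_le_one_left f0.le hw.c1
  have d1 : |deriv χ r| * φ r ≤ κ * (φ r / r) :=
    (mul_le_mul_of_nonneg_right hw.cd f0.le).trans_eq (by ring)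
  have d2 : |χ r * deriv φ r| ≤ 14 * (χ r * φ r / r) := by
    rw [abs_mul, abs_of_nonneg x0]
    exact (mul_le_mul_of_nonneg_left hw.fd x0).trans_eq (by ring)
  have ef : χ r * φ r / r ≤ φ r / r := div_le_div_of_nonneg_right g1 r0.le
  obtain ⟨h1, i1, j1⟩ := der_div (k := κ + 14) hg r0 g0 g1 ((abs_add_le _ _).trans (by
    rw [abs_mul, abs_of_pos f0, add_mul, add_div, mul_div_assoc, mul_div_assoc]
    linarith only [d1, d2, ef]))
  obtain ⟨h2, i2, j2⟩ := der_div i1 r0 (by positivity) ef j1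
  obtain ⟨h3, i3, j3⟩ := der_div i2 r0 (by positivity) (div_le_div_of_nonneg_right ef r0.le) j2
  have mw := md_D hG hy M a om m
  have mz := md_kz hy M a om m
  obtain ⟨q1, k1, l1⟩ := curK hG mw.1 hz (t := s + 1) (by linarith) (by linarith) G.s om m hg g0
  obtain ⟨q2, k2, l2⟩ := curL hG mw.1 hz (t := s + 1) (by linarith) (by linarith) G.s om m
    (i1.const_mul A) (by positivity)
  obtain ⟨q3, k3, l3⟩ := curL hG mz.1 hz s0 (by linarith) G.s om m i3 (by positivity)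
  refine ⟨_, (k1.add k2).add k3, ?_⟩
  have m1 := mu_le2 hG hs hz om m (mw.2 r)
  have m2 := mu_le2 hG hs hz om m (mz.2 r)
  have n1 := La_mul hG hz om m (D M a om m y r)
  have n2 := La_mul hG hz om m (kz M a om m y r)
  have n3 := ka_mul hG hz om m (D M a om m y r)
  have n4 := Kz_le hz (om := om) (m := m) y
  have n5 := dkz_le hy.1 hc
  have n6 := Pkz_le hG hy.1 hc G.s
  have n7 := PD_le hG hy.1 hc G.s
  have n8 := dD_le (om := om) (m := m) hG hy.1 hz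
  have n9 := D_le hz hc y
  have n10 := D_le hz hc (G.P s G.s M a om m y)
  have n11 : ‖kz M a om m y r‖ ≤ Y * (La om m * ‖y r‖) := by
    rw [kz, norm_real, ← mul_assoc]; exact mul_le_mul_of_nonneg_right hc.ka (norm_nonneg _)
  have n12 : ‖G.P (s + 1) G.s M a om m (D M a om m y) r‖ ≤ _ :=
    (norm_le_norm_add_norm_sub' _ (D M a om m (G.P s G.s M a om m y) r)).trans (add_le_add n10 n7)
  have n13 : |χ r * φ r * K a r om m * (ri (I • D M a om m y r) (G.P (s + 1) G.s M a om m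
      (D M a om m y) r) - ri (I • D M a om m y r) (D M a om m (G.P s G.s M a om m y) r))| ≤
      χ r * φ r / r * (|K a r om m| * ‖D M a om m y r‖ * (r * ‖G.P (s + 1) G.s M a om m
        (D M a om m y) r - D M a om m (G.P s G.s M a om m y) r‖)) := by
    rw [← ri_sub, abs_mul, abs_mul, abs_of_nonneg g0]
    exact (mul_le_mul_of_nonneg_left (abs_j _ _) (by positivity)).trans_eq (by field_simp)
  have b1 : lam om m * bd M a om m y r =
      r ^ 2 * ((La om m * ‖D M a om m y r‖) ^ 2 + (La om m * ‖kz M a om m y r‖ / r) ^ 2) := by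
    rw [bd, kz, norm_real, div_pow, mul_pow, mul_pow, mul_pow, La_sq, sq_abs]; field_simp
  have b2 : bd M a om m (deriv y) r = (r * ‖D M a om m (deriv y) r‖) ^ 2 +
      (|ka M a r om m| * ‖deriv y r‖) ^ 2 := by rw [bd, mul_pow, mul_pow, sq_abs]
  have b3 : ‖deriv (G.P s G.s M a om m y) r‖ =
      La om m * (‖deriv (G.P s G.s M a om m y) r‖ / La om m) := by field_simp
  rw [b3] at n12
  rw [b1, b2, sg]
  simp only [Pi.mul_apply] at l1
  generalize ell G G.s a om m (D M a om m y r) = e1 at *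
  generalize ell G G.s a om m (kz M a om m y r) = e2 at *
  generalize ri (I • D M a om m y r) (G.P (s + 1) G.s M a om m (D M a om m y) r) = p1 at *
  generalize ri (I • D M a om m y r) (D M a om m (G.P s G.s M a om m y) r) = p2 at *
  have z1 : 0 ≤ |K a r om m| * ‖D M a om m y r‖ := by positivity
  have z2 : 0 ≤ |K a r om m| * ‖kz M a om m y r‖ := by positivity
  have z3 : 0 ≤ |ka M a r om m| * ‖deriv y r‖ := by positivity
  have z4 : 0 ≤ ‖deriv (G.P s G.s M a om m y) r‖ / La om m := by positivity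
  generalize |K a r om m| * ‖D M a om m y r‖ = a1 at *
  generalize |K a r om m| * ‖kz M a om m y r‖ = β1 at *
  generalize |ka M a r om m| * ‖deriv y r‖ = U at *
  generalize ‖deriv (G.P s G.s M a om m y) r‖ / La om m = σ4 at *
  have z5 := norm_nonneg (mu G a om m (D M a om m y r))
  have z6 := norm_nonneg (mu G a om m (kz M a om m y r))
  have z7 := norm_nonneg (deriv (D M a om m y) r)
  have z8 := norm_nonneg (deriv (kz M a om m y) r)
  have z9 := norm_nonneg (D M a om m y r)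
  have z10 := norm_nonneg (kz M a om m y r)
  have z11 := norm_nonneg (D M a om m (deriv y) r)
  have z12 := norm_nonneg (deriv y r)
  have z13 := norm_nonneg (y r)
  have z14 := norm_nonneg (G.P s G.s M a om m y r)
  generalize ‖mu G a om m (D M a om m y r)‖ = a2 at *
  generalize ‖mu G a om m (kz M a om m y r)‖ = β2 at *
  generalize ‖deriv (D M a om m y) r‖ = a3 at *
  generalize ‖deriv (kz M a om m y) r‖ = β3 at *
  generalize ‖G.P (s + 1) G.s M a om m (D M a om m y) r - D M a om m (G.P s G.s M a om m y) r‖ = V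
    at *
  generalize ‖G.P (s + 1) G.s M a om m (D M a om m y) r‖ = F1 at *
  generalize ‖G.P s G.s M a om m (kz M a om m y) r‖ = F2 at *
  generalize ‖D M a om m y r‖ = a4 at *
  generalize ‖kz M a om m y r‖ = β4 at *
  generalize ‖D M a om m (deriv y) r‖ = DU at *
  generalize ‖deriv y r‖ = σ1 at *
  generalize ‖y r‖ = σ2 at *
  generalize ‖G.P s G.s M a om m y r‖ = σ3 at *
  have L1 := one_le_La om m
  generalize La om m = Λ at *
  obtain ⟨E, hE⟩ : ∃ E, E = r ^ 2 * DU + r * U + 2 * B ^ 2 * Y ^ 2 * (σ1 + Λ * σ2 + σ3 + σ4) :=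
    ⟨_, rfl⟩
  obtain ⟨E1, E2, E3, E4, E5, E6, E7⟩ := stepE hB hc.Y1 r0 hz.rB hc.r1 hc.r2 L1 z12 z13 z14 z4 z3
    z11 z9 z10 n5 n6 n7 n8 n9 n11 n12 hE
  have E0 : 0 ≤ E := z9.trans E3
  have dv : ∀ {x : ℝ}, 0 ≤ x → x / r ≤ B * x := fun {x} e => by
    rw [div_eq_mul_one_div, mul_comm]; exact mul_le_mul_of_nonneg_right hz.inv e
  have T := H a1 a2 (r ^ 2 * a3) a4 (β1 / r) (β2 / r) (β3 / r) (β4 / r) (r * V) (a4 * F1)
    (β4 / r * (F2 / r)) (Λ * a4) (Λ * β4 / r) E z1 z5 z9 (by positivity) (by positivity)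
    (by positivity) (by positivity) (by positivity) E1 E2 E3
    ((dv z8).trans ((mul_le_mul_of_nonneg_left E4 B0.le).trans_eq (by ring))) E5 E6 E7 n1
    ((div_le_div_of_nonneg_right n2 r0.le).trans_eq (by ring)) (by
      rw [div_le_iff₀ r0]
      have : r * U ≤ E := by rw [hE]; linarith only [mul_nonneg (sq_nonneg r) z11, (by positivity :
        0 ≤ 2 * B ^ 2 * Y ^ 2 * (σ1 + Λ * σ2 + σ3 + σ4))]
      linarith only [n3, n4, mul_le_mul_of_nonneg_left this r0.le])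
  simp only [Pi.mul_apply] at l2 l3
  obtain ⟨e, he⟩ : ∃ e, e = χ r * φ r / r := ⟨_, rfl⟩
  obtain ⟨f, hf⟩ : ∃ f, f = φ r / r := ⟨_, rfl⟩
  have key := mul_le_mul_of_nonneg_right (mul_le_mul_of_nonneg_left hw.key x0) (sq_nonneg a1)
  have cut := cut_le (c := deriv χ r) f0.le z1 (by positivity) E1 d1
  have o1 : χ r * φ r / r ^ 3 * (r ^ 2 * ((Λ * a4) ^ 2 + (Λ * β4 / r) ^ 2)) =
      e * ((Λ * a4) ^ 2 + (Λ * β4 / r) ^ 2) := by rw [he]; field_simp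
  have o2 : φ r * r * ((r * DU) ^ 2 + U ^ 2) = f * ((r ^ 2 * DU) ^ 2 + (r * U) ^ 2) := by
    rw [hf]; field_simp
  have o3 : χ r * (γ / 4 * φ r / r) = γ / 4 * e := by rw [he]; ring
  have o4 : ∀ x, e / r / r * x = e * (x / r ^ 2) := fun x => by field_simp
  have o5 : (β2 ^ 2 - 8 * B ^ 4 * ((β1 + β2) * β4) - 2 * β1 * β3 - β4 * F2 - 6 * β4 ^ 2) / r ^ 2 =
      (β2 / r) ^ 2 - 8 * B ^ 4 * ((β1 / r + β2 / r) * (β4 / r)) - 2 * (β1 / r) * (β3 / r) -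
        β4 / r * (F2 / r) - 6 * (β4 / r) ^ 2 := by field_simp
  rw [o1, o2]
  rw [o3] at key
  rw [← he] at l1 l2 l3 n13 d2 ef
  rw [← hf] at ef d1 j1 j3 cut
  have e0 : 0 ≤ e := by rw [he]; positivity
  have f1 : 0 ≤ f := e0.trans ef
  have fΦ : f ≤ B * Φ := by
    rw [hf]; exact (dv f0.le).trans (mul_le_mul_of_nonneg_left hw.f1 B0.le)
  have ra : r * a3 ≤ B * E :=
    (hz.le_r (by positivity)).trans (mul_le_mul_of_nonneg_left (by linarith only [E1]) B0.le)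
  have aa : a3 ≤ B ^ 2 * (r ^ 2 * a3) := by
    linarith only [hz.le_r z7, mul_le_mul_of_nonneg_left (hz.le_r (mul_nonneg r0.le z7)) B0.le]
  have w1 : (|A * h1| * r ^ 2 + 6 * (A * e) * r) * (a4 * a3) ≤ A * (κ + 21) * B * (f * E ^ 2) := by
    have c1 : |h1| * r ≤ (κ + 14 + 1) * f := (le_div_iff₀ r0).1 j1
    have c2 : a4 * (r * a3) ≤ E * (B * E) := mul_le_mul E3 ra (by positivity) E0
    rw [abs_mul, abs_of_nonneg A0]
    calc _ = A * (|h1| * r + 6 * e) * (a4 * (r * a3)) := by ring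
      _ ≤ A * ((κ + 14 + 1) * f + 6 * f) * (E * (B * E)) := by gcongr
      _ = _ := by ring
  have w2 : (|h3| * r ^ 2 + 6 * (e / r / r) * r) * (β4 * β3) ≤ (κ + 23) * B * (f * E ^ 2) := by
    have c1 : |h3| * r ^ 3 ≤ (κ + 14 + 1 + 1 + 1) * f :=
      (mul_le_mul_of_nonneg_right j3 (by positivity)).trans_eq (by field_simp)
    have c2 : β4 / r * β3 ≤ E * (B * E) := mul_le_mul E5 E4 z8 E0
    calc _ = (|h3| * r ^ 3 + 6 * e) * (β4 / r * β3) := by field_simp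
      _ ≤ ((κ + 14 + 1 + 1 + 1) * f + 6 * f) * (E * (B * E)) := by gcongr
      _ = _ := by ring
  have w3 : A * e * (a2 ^ 2 - 8 * B ^ 4 * ((a1 + a2) * a4) - 2 * a1 * (B ^ 2 * (r ^ 2 * a3)) -
      a4 * F1 - 6 * a4 ^ 2) ≤ A * e * (e1 - 2 * a1 * a3 - a4 * F1 - 6 * a4 ^ 2) :=
    mul_le_mul_of_nonneg_left (by linarith only [m1, mul_le_mul_of_nonneg_left aa z1])
      (mul_nonneg A0 e0)
  have w4 := mul_le_mul_of_nonneg_left (show β2 ^ 2 - 8 * B ^ 4 * ((β1 + β2) * β4) - 2 * β1 * β3 -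
    β4 * F2 - 6 * β4 ^ 2 ≤ e2 - 2 * β1 * β3 - β4 * F2 - 6 * β4 ^ 2 by linarith only [m2])
    (by positivity : 0 ≤ e / r / r)
  rw [o4, o5] at w4
  have w5 := mul_le_mul_of_nonneg_right d2 (by positivity : 0 ≤ a1 * (r ^ 2 * a3))
  have w6 := mul_le_mul_of_nonneg_left (mul_le_mul_of_nonneg_right ef (sq_nonneg E)) C0
  obtain ⟨C', hC⟩ : ∃ C', C' = C + κ + A * (κ + 21) * B + (κ + 23) * B := ⟨_, rfl⟩
  have w7 : f * E ^ 2 ≤ 3 * (f * ((r ^ 2 * DU) ^ 2 + (r * U) ^ 2)) +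
      3 * (B * Φ * (2 * B ^ 2 * Y ^ 2) ^ 2 * (σ1 + Λ * σ2 + σ3 + σ4) ^ 2) := by
    obtain ⟨Z, hZ⟩ : ∃ Z, Z = 2 * B ^ 2 * Y ^ 2 * (σ1 + Λ * σ2 + σ3 + σ4) := ⟨_, rfl⟩
    have c1 : E ^ 2 ≤ 3 * ((r ^ 2 * DU) ^ 2 + (r * U) ^ 2) + 3 * Z ^ 2 := by
      rw [hE, ← hZ]
      linarith only [sq_nonneg (r ^ 2 * DU - r * U), sq_nonneg (r ^ 2 * DU - Z), sq_nonneg (r * U - Z)]
    rw [mul_assoc (B * Φ), ← mul_pow, ← hZ]
    linarith only [mul_le_mul_of_nonneg_left c1 f1, mul_le_mul_of_nonneg_right fΦ (sq_nonneg Z)]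
  have w8 := mul_le_mul_of_nonneg_left w7 (show 0 ≤ C' by rw [hC]; positivity)
  rw [← hC]
  have w9 : C' * (f * E ^ 2) = C * (f * E ^ 2) + κ * f * E ^ 2 + A * (κ + 21) * B * (f * E ^ 2) +
      (κ + 23) * B * (f * E ^ 2) := by rw [hC]; ring
  have w10 : (deriv χ r * φ r + χ r * deriv φ r +
      (2 + 4 * (s + 1)) * r * (χ r * φ r) / (r ^ 2 + a ^ 2)) * a1 ^ 2 = deriv χ r * φ r * a1 ^ 2 +
      χ r * (deriv φ r + (6 + 4 * s) * r * φ r / (r ^ 2 + a ^ 2)) * a1 ^ 2 := by ring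
  rw [w10] at l1
  linarith only [l1, l2, l3, key, cut, w1, w2, w3, w4, w5, w6, w8, w9, (abs_le.1 n13).2,
    mul_le_mul_of_nonneg_left T e0]

end Vale.Agent.P354RP
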