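import Vale.Agent.P354RP.Step2
import Vale.Agent.P354RM.Chn
import Vale.Agent.P354M0.Cut
import Vale.Agent.P354ME.Main

/-!
One step of the recovery for positive spin, integrated, with the explicit weights.
-/

open scoped ContDiff InnerProductSpace
open Complex (I)
open Set MeasureTheory intervalIntegral Filter Topology
open Vale.Agent.P354BF Vale.Agent.P354XN
open Vale.Agent.P354XH (K ka)
open Vale.Agent.P354XT (lam up dn up_sm dn_sm up_nonneg up_le dn_nonneg dn_le up_zero up_one dn_one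
  dn_zero)
open Vale.Agent.P354RM (box_bd cd_der cd_has)
open Vale.Agent.P354M0 (up_d0 up_dl up_dr up_db)

noncomputable section

namespace Vale.Agent.P354RP

theorem zn_near {M0 a0 x : ℝ} (ha : |a0| < M0) (hx : rp M0 a0 < x) : ∃ B dl, 2 ≤ B ∧ 0 < dl ∧
    dl ≤ 1 ∧ ∀ M a, |M - M0| < dl → |a - a0| < dl → ∀ r, x ≤ r → Zn B M a r := by
  have M0p : 0 < M0 := (abs_nonneg _).trans_lt ha
  have Mx : M0 < x := lt_of_le_of_lt (le_add_of_nonneg_right (Real.sqrt_nonneg _)) hx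
  have x0 : 0 < x := M0p.trans Mx
  have e1 : ∀ᶠ p : ℝ × ℝ in 𝓝 (M0, a0), |p.2| < p.1 :=
    ContinuousAt.eventually_lt (by fun_prop) (by fun_prop) ha
  have e2 : ∀ᶠ p : ℝ × ℝ in 𝓝 (M0, a0), p.1 < x :=
    ContinuousAt.eventually_lt (by fun_prop) (by fun_prop) Mx
  have e3 : ∀ᶠ p : ℝ × ℝ in 𝓝 (M0, a0), 0 < De p.1 p.2 x :=
    ContinuousAt.eventually_lt (by fun_prop) (by unfold De; fun_prop) (P354XH.De_pos ha hx)
  obtain ⟨dl, d0, d1, H⟩ := P354ME.near_box (e1.and (e2.and e3))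
  have i0 : 0 < 1 / x := by positivity
  refine ⟨M0 + 2 + 1 / x, dl, by linarith, d0, d1, fun M a hM ha' r hr => ?_⟩
  obtain ⟨h1, h2, h3⟩ := H M a hM ha'
  refine ⟨by linarith, h1.le, h2.le.trans hr, by linarith [(abs_lt.1 hM).2], ?_, ?_⟩
  · have : 1 ≤ 1 / x * r := by rw [one_div_mul_eq_div, one_le_div x0]; exact hr
    nlinarith
  · simp only [De] at h3 ⊢
    nlinarith [mul_nonneg (sub_nonneg.2 hr) (show 0 ≤ r + x - 2 * M by linarith)]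

theorem lin_bd (M0 a0 x y : ℝ) {p q : ℝ × ℝ × ℝ → ℝ} (hp : Continuous p) (hq : Continuous q) :
    ∃ C, 1 ≤ C ∧ ∀ M a r, |M - M0| ≤ 1 → |a - a0| ≤ 1 → r ∈ Icc x y → ∀ om m F,
      F = p (M, a, r) * om + q (M, a, r) * m → |F| ≤ C * La om m := by
  obtain ⟨C1, c1, H1⟩ := box_bd M0 a0 x y hp
  obtain ⟨C2, c2, H2⟩ := box_bd M0 a0 x y hq
  refine ⟨C1 + C2, by linarith, fun M a r h1 h2 h3 om m F e => ?_⟩
  rw [e, add_mul]
  refine (abs_add_le _ _).trans (add_le_add ?_ ?_) <;> rw [abs_mul]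
  · exact mul_le_mul (H1 M a r h1 h2 h3) (om_La om m) (abs_nonneg _) (by linarith)
  · exact mul_le_mul (H2 M a r h1 h2 h3) (m_La om m) (abs_nonneg _) (by linarith)

theorem cr_ex (s M0 a0 x y : ℝ) : ∃ Y, 1 ≤ Y ∧ ∀ M a r, |M - M0| ≤ 1 → |a - a0| ≤ 1 →
    r ∈ Icc x y → ∀ om m, Cr Y s M a r om m := by
  obtain ⟨C1, c1, H1⟩ := box_bd M0 a0 x y (c := fun p => p.2.2) (by fun_prop)
  obtain ⟨C2, c2, H2⟩ := box_bd M0 a0 x y (c := fun p => p.2.2 ^ 2) (by fun_prop)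
  obtain ⟨C3, c3, H3⟩ := box_bd M0 a0 x y (c := fun p => 4 * s * (p.1 ^ 2 - p.2.1 ^ 2)) (by fun_prop)
  obtain ⟨C4, c4, H4⟩ := lin_bd M0 a0 x y (p := fun p => p.2.2 ^ 2 + p.2.1 ^ 2)
    (q := fun p => -p.2.1) (by fun_prop) (by fun_prop)
  obtain ⟨C5, c5, H5⟩ := lin_bd M0 a0 x y (p := fun p => p.2.2 ^ 3 - 3 * p.1 * p.2.2 ^ 2 +
    p.2.1 ^ 2 * p.2.2 + p.2.1 ^ 2 * p.1) (q := fun p => p.2.1 * (p.2.2 - p.1)) (by fun_prop)
    (by fun_prop)
  obtain ⟨C6, c6, H6⟩ := lin_bd M0 a0 x y (p := fun p => 3 * p.2.2 ^ 2 - 6 * p.1 * p.2.2 + p.2.1 ^ 2)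
    (q := fun p => p.2.1) (by fun_prop) (by fun_prop)
  obtain ⟨C7, c7, H7⟩ := lin_bd M0 a0 x y (p := fun p => De p.1 p.2.1 p.2.2 * (6 * p.2.2 - 6 * p.1) +
    (1 - s) * (2 * p.2.2 - 2 * p.1) * (3 * p.2.2 ^ 2 - 6 * p.1 * p.2.2 + p.2.1 ^ 2))
    (q := fun p => (1 - s) * (2 * p.2.2 - 2 * p.1) * p.2.1) (by unfold De; fun_prop) (by fun_prop)
  obtain ⟨C8, c8, H8⟩ := lin_bd M0 a0 x y (p := fun p => 2 * s * (p.2.2 * (2 * p.2.2 - 2 * p.1) -
    (p.2.2 ^ 2 + p.2.1 ^ 2) - 2 * De p.1 p.2.1 p.2.2)) (q := fun p => 2 * s * p.2.1)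
    (by unfold De; fun_prop) (by fun_prop)
  refine ⟨C1 + C2 + C3 + C4 + C5 + C6 + C7 + C8, by linarith, fun M a r h1 h2 h3 om m => ?_⟩
  have L := (La_pos om m).le
  refine ⟨by linarith, by linarith [(abs_le.1 (H1 M a r h1 h2 h3)).2],
    by linarith [(abs_le.1 (H2 M a r h1 h2 h3)).2],
    (H4 M a r h1 h2 h3 om m _ (by simp only [K]; ring)).trans (by gcongr; linarith),
    (H5 M a r h1 h2 h3 om m _ (by simp only [ka]; ring)).trans (by gcongr; linarith),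
    (H6 M a r h1 h2 h3 om m _ (by simp only [ka1]; ring)).trans (by gcongr; linarith),
    (H7 M a r h1 h2 h3 om m _ (by simp only [ka1]; ring)).trans (by gcongr; linarith),
    (H8 M a r h1 h2 h3 om m _ (by simp only [K]; ring)).trans (by gcongr; linarith),
    (H3 M a r h1 h2 h3).trans (by linarith)⟩

/-- The cut off. -/
def ct (x x' R R' r : ℝ) : ℝ := up x x' r * dn R R' r

theorem ct_sm (x x' R R' : ℝ) : ContDiff ℝ ∞ (ct x x' R R') := (up_sm _ _).mul (dn_sm _ _)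
theorem ct_nonneg (x x' R R' r : ℝ) : 0 ≤ ct x x' R R' r :=
  mul_nonneg (up_nonneg _ _ _) (dn_nonneg _ _ _)
theorem ct_le (x x' R R' r : ℝ) : ct x x' R R' r ≤ 1 :=
  mul_le_one₀ (up_le _ _ _) (dn_nonneg _ _ _) (dn_le _ _ _)
theorem ct_l {x x' r : ℝ} (R R' : ℝ) (h : x < x') (hr : r ≤ x) : ct x x' R R' r = 0 := by
  rw [ct, up_zero h hr, zero_mul]
theorem ct_r (x x' : ℝ) {R R' r : ℝ} (h : R < R') (hr : R' ≤ r) : ct x x' R R' r = 0 := by
  rw [ct, dn_zero h hr, mul_zero]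
theorem ct_one {x x' R R' r : ℝ} (h : x < x') (h' : R < R') (hr : r ∈ Icc x' R) :
    ct x x' R R' r = 1 := by rw [ct, up_one h hr.1, dn_one h' hr.2, mul_one]

theorem ct_d (x x' R R' r : ℝ) : deriv (ct x x' R R') r =
    deriv (up x x') r * dn R R' r - up x x' r * deriv (up R R') r :=
  (((cd_has (up_sm x x') r).mul ((cd_has (up_sm R R') r).const_sub 1)).congr_deriv
    (by rw [dn]; ring)).deriv

theorem ct_db {x x' : ℝ} (x0 : 0 < x) (h : x < x') : ∃ κ, 0 ≤ κ ∧ ∀ R R' r, R < R' →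
    R' ≤ 6 * (R' - R) → x ≤ r → |deriv (ct x x' R R') r| ≤ κ / r ∧
      (r < R → 0 ≤ deriv (ct x x' R R') r) := by
  obtain ⟨k, k0, H⟩ := up_db
  have d : 0 < x' - x := sub_pos.2 h
  have x1 : 0 < x' := x0.trans h
  refine ⟨k * x' / (x' - x) + 6 * k, by positivity, fun R R' r hR h6 hr => ?_⟩
  have r0 : 0 < r := x0.trans_le hr
  have e : ∀ a b : ℝ, a < b → 0 < b → deriv (up a b) r ≤ k * b / (b - a) / r := fun a b ab b0 => by
    have : 0 < b - a := sub_pos.2 ab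
    rcases le_or_gt r b with c | c
    · refine (H a b r ab).trans ?_
      rw [le_div_iff₀ r0, div_mul_eq_mul_div]; gcongr
    · rw [up_dr ab c]; positivity
  have p1 := mul_nonneg (up_d0 h r) (dn_nonneg R R' r)
  have p2 := mul_nonneg (up_nonneg x x' r) (up_d0 hR r)
  have p3 := (mul_le_of_le_one_right (up_d0 h r) (dn_le R R' r)).trans (e x x' h x1)
  have p4 : up x x' r * deriv (up R R') r ≤ 6 * k / r := by
    refine (mul_le_of_le_one_left (up_d0 hR r) (up_le x x' r)).trans ?_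
    rcases le_or_gt R' 0 with c | c
    · rw [up_dr hR (c.trans_lt r0)]; positivity
    refine (e R R' hR c).trans (div_le_div_of_nonneg_right ?_ r0.le)
    rw [div_le_iff₀ (sub_pos.2 hR)]; nlinarith
  have p5 : 0 ≤ k * x' / (x' - x) / r := by positivity
  have p6 : 0 ≤ 6 * k / r := by positivity
  rw [ct_d, add_div]
  exact ⟨abs_le.2 ⟨by linarith, by linarith⟩, fun c => by rw [up_dl hR c]; linarith⟩

/-- The weight. -/
def ph (a0 e r : ℝ) : ℝ := (r ^ 2 + a0 ^ 2) ^ e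

theorem ph_pos {a0 : ℝ} (h : a0 ≠ 0) (e r : ℝ) : 0 < ph a0 e r :=
  Real.rpow_pos_of_pos (by positivity) _

theorem ph_sm {a0 : ℝ} (h : a0 ≠ 0) (e : ℝ) : ContDiff ℝ ∞ (ph a0 e) :=
  ContDiff.rpow_const_of_ne (by fun_prop) fun r => by positivity

theorem ph_d {a0 : ℝ} (h : a0 ≠ 0) (e r : ℝ) :
    deriv (ph a0 e) r = 2 * e * r * ph a0 e r / (r ^ 2 + a0 ^ 2) := by
  have s : 0 < r ^ 2 + a0 ^ 2 := by positivity
  have : HasDerivAt (ph a0 e) _ r :=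
    (((hasDerivAt_id r).pow 2).add_const (a0 ^ 2)).rpow_const (p := e) (Or.inl s.ne')
  rw [this.deriv, ph]
  simp only [id, Pi.pow_apply]
  rw [Real.rpow_sub_one s.ne']; push_cast; ring

theorem ph_le {a0 e r R : ℝ} (he : e ≤ 0) (R0 : 0 < R) (h : R ≤ r) : ph a0 e r ≤ R ^ (2 * e) := by
  rw [Real.rpow_mul R0.le, Real.rpow_two]
  exact Real.rpow_le_rpow_of_nonpos (by positivity) (by nlinarith [sq_nonneg a0]) he

theorem ph_key {γ s a0 a B M r : ℝ} (hγ : 0 < γ) (h1 : γ ≤ 1) (s0 : 0 ≤ s) (s2 : s ≤ 2)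
    (h : a0 ≠ 0) (hz : Zn B M a r) (h0 : a0 ^ 2 ≤ r ^ 2) (hd : 56 * B ^ 2 * |a ^ 2 - a0 ^ 2| ≤ γ) :
    |deriv (ph a0 (γ / 2 - (3 + 2 * s))) r| ≤ 14 * ph a0 (γ / 2 - (3 + 2 * s)) r / r ∧
    γ / 4 * ph a0 (γ / 2 - (3 + 2 * s)) r / r ≤ deriv (ph a0 (γ / 2 - (3 + 2 * s))) r +
      (6 + 4 * s) * r * ph a0 (γ / 2 - (3 + 2 * s)) r / (r ^ 2 + a ^ 2) := by
  have r0 := hz.r0
  have p := ph_pos h (γ / 2 - (3 + 2 * s)) r
  rw [ph_d h]
  generalize ph a0 (γ / 2 - (3 + 2 * s)) r = φ at p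
  have s1 : 0 < r ^ 2 + a0 ^ 2 := by positivity
  have s3 : 0 < r ^ 2 + a ^ 2 := by positivity
  constructor
  · rw [abs_div, abs_of_pos s1, abs_mul, abs_mul, abs_of_pos p, abs_of_pos r0,
      div_le_div_iff₀ s1 r0]
    have : |2 * (γ / 2 - (3 + 2 * s))| ≤ 14 := abs_le.2 ⟨by linarith, by linarith⟩
    nlinarith [mul_le_mul_of_nonneg_right this (by positivity : 0 ≤ r * φ * r),
      mul_nonneg p.le (sq_nonneg a0)]
  · have e1 : 1 / (2 * r) ≤ r / (r ^ 2 + a0 ^ 2) := by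
      rw [div_le_div_iff₀ (by positivity) s1]; nlinarith
    have e2 : 56 * (a ^ 2 - a0 ^ 2) ≤ γ * r ^ 2 := by
      have c1 : 1 ≤ B ^ 2 * r ^ 2 := by rw [← mul_pow]; exact one_le_pow₀ hz.rB
      nlinarith [mul_le_mul_of_nonneg_right hd (sq_nonneg r), le_abs_self (a ^ 2 - a0 ^ 2),
        mul_le_mul_of_nonneg_right c1 (abs_nonneg (a ^ 2 - a0 ^ 2))]
    have e3 : r / (r ^ 2 + a0 ^ 2) - γ / (56 * r) ≤ r / (r ^ 2 + a ^ 2) := by
      rw [sub_le_iff_le_add, div_add_div _ _ s3.ne' (by positivity), div_le_div_iff₀ s1 (by positivity)]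
      have c1 : r ^ 2 * r ^ 2 ≤ (r ^ 2 + a ^ 2) * (r ^ 2 + a0 ^ 2) := by
        gcongr <;> nlinarith [sq_nonneg a, sq_nonneg a0]
      nlinarith [mul_le_mul_of_nonneg_left c1 hγ.le, mul_le_mul_of_nonneg_left e2 (sq_nonneg r)]
    have e4 := mul_le_mul_of_nonneg_left e3 (by positivity : 0 ≤ (6 + 4 * s) * φ)
    have e5 := mul_le_mul_of_nonneg_left e1 (by positivity : 0 ≤ γ * φ)
    have e6 : (6 + 4 * s) * (γ * φ / r) ≤ 14 * (γ * φ / r) :=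
      mul_le_mul_of_nonneg_right (by linarith) (by positivity)
    have e7 : γ / (56 * r) = γ / r / 56 := by field_simp
    have e8 : 1 / (2 * r) = 1 / r / 2 := by field_simp
    rw [e7] at e4; rw [e8] at e5
    ring_nf at e4 e5 e6 ⊢
    linarith

variable {S : Type} [NormedAddCommGroup S] [InnerProductSpace ℂ S]

theorem cont_bd {z : ℝ → S} (hz : ContDiff ℝ ∞ z) (M a om m : ℝ) : Continuous (bd M a om m z) := by
  have := P354M0.cont_D hz M a om m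
  have := (cd_ka M a om m).continuous
  have := hz.continuous
  unfold bd; fun_prop

theorem bd_nonneg (M a om m : ℝ) (z : ℝ → S) (r : ℝ) : 0 ≤ bd M a om m z r := by
  unfold bd; positivity

/-- Comparison of integrals over nested intervals. -/
theorem nest {φ ψ : ℝ → ℝ} {x0 x y y0 : ℝ} (h1 : x0 ≤ x) (h2 : x ≤ y) (h3 : y ≤ y0)
    (hφ : ContinuousOn φ (Icc x y)) (hψ : ContinuousOn ψ (Icc x0 y0))
    (h0 : ∀ r ∈ Icc x0 y0, 0 ≤ ψ r) (h : ∀ r ∈ Icc x y, φ r ≤ ψ r) :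
    ∫ r in x..y, φ r ≤ ∫ r in x0..y0, ψ r :=
  (integral_mono_on h2 (ii h2 hφ) (ii h2 (hψ.mono (Icc_subset_Icc h1 h3))) h).trans
    (int_sub hψ h0 h1 h2 h3)

end Vale.Agent.P354RP
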