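import Vale.Agent.P354RP.Step3

/-!
The integrated step of the recovery, and the recovery of first derivatives from D and d_r.
-/

open scoped ContDiff InnerProductSpace
open Complex (I)
open Set MeasureTheory intervalIntegral Filter Topology
open Vale.Agent.P354BF Vale.Agent.P354XN
open Vale.Agent.P354XH (K ka)
open Vale.Agent.P354XT (lam d1)
open Vale.Agent.P354RM (box_bd cd_der cd_has)
open Vale.Agent.P354ME (cont_ri near_box)

noncomputable section

namespace Vale.Agent.P354RP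

theorem int5 {Q F1 F2 F3 F4 F5 : ℝ → ℝ} {x y c1 c3 c4 c5 : ℝ} (hxy : x ≤ y)
    (k1 : ContinuousOn F1 (Icc x y)) (k2 : ContinuousOn F2 (Icc x y))
    (k3 : ContinuousOn F3 (Icc x y)) (k4 : ContinuousOn F4 (Icc x y))
    (k5 : ContinuousOn F5 (Icc x y)) (h0 : Q x = 0) (h1 : Q y = 0)
    (h : ∀ r ∈ Icc x y, ∃ q, HasDerivAt Q q r ∧
      c1 * F1 r - (F2 r + c3 * F3 r + c4 * F4 r + c5 * F5 r) ≤ q) :
    c1 * (∫ r in x..y, F1 r) ≤ (∫ r in x..y, F2 r) + c3 * (∫ r in x..y, F3 r) +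
      c4 * (∫ r in x..y, F4 r) + c5 * ∫ r in x..y, F5 r := by
  have := int_le hxy (by fun_prop) h
  rw [h0, h1, integral_sub (ii hxy (by fun_prop)) (ii hxy (by fun_prop)),
    integral_add (ii hxy (by fun_prop)) (ii hxy (by fun_prop)),
    integral_add (ii hxy (by fun_prop)) (ii hxy (by fun_prop)),
    integral_add (ii hxy (by fun_prop)) (ii hxy (by fun_prop))] at this
  simp only [intervalIntegral.integral_const_mul] at this
  linarith

theorem cont_sg {S : Type} [NormedAddCommGroup S] [InnerProductSpace ℂ S] {y H : ℝ → S}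
    (hy : ContDiff ℝ ∞ y) (hH : ContDiff ℝ ∞ H) (om m : ℝ) : Continuous (sg om m y H) := by
  have := hy.continuous
  have := hH.continuous
  have := (cd_der hy).continuous
  have := (cd_der hH).continuous
  unfold sg; fun_prop

theorem step {M0 a0 γ s x x' : ℝ} (h0 : a0 ≠ 0) (ha : |a0| < M0) (hγ : 0 < γ) (h1 : γ ≤ 1)
    (s0 : 0 ≤ s) (s2 : s ≤ 2) (hx : rp M0 a0 < x) (hx' : x < x') : ∃ c C : ℝ, 0 < c ∧ 0 ≤ C ∧
    ∀ R R' : ℝ, x' ≤ R → R < R' → R' ≤ 6 * (R' - R) → ∃ C1 dl : ℝ, 0 ≤ C1 ∧ 0 < dl ∧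
    ∀ M a : ℝ, |M - M0| < dl → |a - a0| < dl →
    ∀ (S : Type) [NormedAddCommGroup S] [InnerProductSpace ℂ S] (G : Ang S), G.Is → |G.s| = 2 →
    ∀ (om m : ℝ) (y Z : ℝ → S), G.Md m y → Continuous Z →
      c * (∫ r in x'..R, ph a0 (γ / 2 - (3 + 2 * s)) r / r ^ 3 * (lam om m * bd M a om m y r)) ≤
      (∫ r in x..R', ct x x' R R' r * ph a0 (γ / 2 - (3 + 2 * s)) r * K a r om m *
        ri (I • D M a om m y r) (Z r)) +
      C * (∫ r in x..R', ph a0 (γ / 2 - (3 + 2 * s)) r * r * bd M a om m (deriv y) r) +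
      C * (∫ r in R..R', ph a0 (γ / 2 - (3 + 2 * s)) r / r *
        (|K a r om m| * ‖D M a om m y r‖) ^ 2) +
      C1 * ∫ r in x..R', (sg om m y (G.P s G.s M a om m y) r ^ 2 +
        ‖D M a om m (G.P s G.s M a om m y) r - Z r‖ ^ 2) := by
  obtain ⟨B, d1', B2, p1, q1, HZ⟩ := zn_near ha hx
  have B1 : 1 ≤ B := by linarith
  have B0 : 0 < B := by linarith
  have Z0 := HZ M0 a0 (by simpa using p1) (by simpa using p1)
  have x0 : 0 < x := (Z0 x le_rfl).r0
  obtain ⟨κ, κ0, Hκ⟩ := ct_db x0 hx'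
  obtain ⟨A, c, C, c0, C0, H⟩ := stepP hγ B1 κ0
  obtain ⟨d2, p2, -, Ha⟩ := near_box (M0 := M0) (a0 := a0)
    (P := fun p => 56 * B ^ 2 * |p.2 ^ 2 - a0 ^ 2| < γ)
    (ContinuousAt.eventually_lt (by fun_prop) (by fun_prop) (by simpa using hγ))
  refine ⟨c / 2, C + 2 * κ, by positivity, by positivity, fun R R' hR hR' h6 => ?_⟩
  obtain ⟨Y, Y1, HY⟩ := cr_ex s M0 a0 x R'
  have Y0 : 0 < Y := by linarith
  obtain ⟨Φ, Φ1, HΦ⟩ := box_bd M0 a0 x R' (c := fun p => ph a0 (γ / 2 - (3 + 2 * s)) p.2.2)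
    ((ph_sm h0 _).continuous.comp (by fun_prop))
  have Φ0 : 0 < Φ := by linarith
  refine ⟨C * (B * Φ * (2 * B ^ 2 * Y ^ 2) ^ 2) + B * Φ * (Y ^ 4 / (2 * c)), min d1' d2,
    by positivity, lt_min p1 p2, fun M a hM ha' S _ _ G hG hs om m y Z hy hZ => ?_⟩
  have hM1 := hM.trans_le (min_le_left _ _)
  have ha1 := ha'.trans_le (min_le_left _ _)
  have HZ' := HZ M a hM1 ha1
  have key := fun r (hr : x ≤ r) => ph_key hγ h1 s0 s2 h0 (HZ' r hr) (Z0 r hr).ar
    (Ha M a (hM.trans_le (min_le_right _ _)) (ha'.trans_le (min_le_right _ _))).le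
  have HΦ' := fun r hr => (abs_le.1 (HΦ M a r (hM1.le.trans q1) (ha1.le.trans q1) hr)).2
  have sφ := ph_sm h0 (γ / 2 - (3 + 2 * s))
  have pφ := ph_pos h0 (γ / 2 - (3 + 2 * s))
  simp only at HΦ'
  generalize ph a0 (γ / 2 - (3 + 2 * s)) = φ at *
  have sχ := ct_sm x x' R R'
  have xR : x ≤ R := hx'.le.trans hR
  have xR' : x ≤ R' := xR.trans hR'.le
  have sH := hG.sm_P hy.1 s G.s M a om m
  have k1 := sφ.continuous
  have k2 := sχ.continuous
  have k3 := (cd_der sχ).continuous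
  have k4 := cont_bd hy.1.cd M a om m
  have k5 := cont_bd (cd_der hy.1.cd) M a om m
  have k6 := (cd_K a om m).continuous
  have k7 := P354M0.cont_D hy.1.cd M a om m
  have k8 := P354M0.cont_D sH.cd M a om m
  have k9 := cont_sg hy.1.cd sH.cd om m
  have k10 := cont_ri (k7.const_smul I) hZ
  have nz : ∀ {p q : ℝ}, x ≤ p → ∀ r ∈ Icc p q, r ≠ 0 := fun e r hr =>
    (x0.trans_le (e.trans hr.1)).ne'
  have c1 : ContinuousOn (fun r => ct x x' R R' r * φ r / r ^ 3 * (lam om m * bd M a om m y r))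
      (Icc x R') := ((k2.mul k1).continuousOn.div (by fun_prop)
        fun r hr => pow_ne_zero 3 (nz le_rfl r hr)).mul (by fun_prop)
  have c4 : Continuous fun r => max (-deriv (ct x x' R R') r) 0 * φ r *
      (|K a r om m| * ‖D M a om m y r‖) ^ 2 := by fun_prop
  have main := int5 (Q := QS A M a om m (ct x x' R R') φ y) (c1 := c / 2) (c3 := C) (c4 := 2)
    (c5 := C * (B * Φ * (2 * B ^ 2 * Y ^ 2) ^ 2) + B * Φ * (Y ^ 4 / (2 * c)))
    (F2 := fun r => ct x x' R R' r * φ r * K a r om m * ri (I • D M a om m y r) (Z r))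
    (F3 := fun r => φ r * r * bd M a om m (deriv y) r)
    (F5 := fun r => sg om m y (G.P s G.s M a om m y) r ^ 2 +
      ‖D M a om m (G.P s G.s M a om m y) r - Z r‖ ^ 2) xR' c1 (((k2.mul k1).mul k6).mul
      k10).continuousOn (by fun_prop) c4.continuousOn (by fun_prop)
    (by simp [QS, QK, QL, ct_l R R' hx' le_rfl]) (by simp [QS, QK, QL, ct_r x x' hR' le_rfl])
    fun r hr => by
      have hz := HZ' r hr.1
      have hc := HY M a r (hM1.le.trans q1) (ha1.le.trans q1) hr om m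
      obtain ⟨q, hq, e⟩ := H Y Φ s M a r om m (ct x x' R R') φ s0 s2 hz hc
        ⟨ct_nonneg _ _ _ _ _, ct_le _ _ _ _ _, (Hκ R R' r hR' h6 hr.1).1, pφ r, HΦ' r hr,
          (key r hr.1).1, (key r hr.1).2⟩ (cd_has sχ r).differentiableAt
        (cd_has sφ r).differentiableAt S G hG hs y hy
      refine ⟨q, hq, le_trans ?_ e⟩
      have r0 := hz.r0
      have g0 : 0 ≤ ct x x' R R' r * φ r := mul_nonneg (ct_nonneg _ _ _ _ _) (pφ r).le
      have g1 : ct x x' R R' r * φ r / r ≤ B * Φ := by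
        rw [div_eq_mul_one_div, mul_comm B]
        exact mul_le_mul ((mul_le_of_le_one_left (pφ r).le (ct_le _ _ _ _ _)).trans (HΦ' r hr))
          hz.inv (by positivity) Φ0.le
      generalize ct x x' R R' r * φ r = g at *
      have L0 := La_pos om m
      obtain ⟨n, hn⟩ : ∃ n, n = La om m * ‖D M a om m y r‖ := ⟨_, rfl⟩
      obtain ⟨E, hE⟩ : ∃ E, E = ‖D M a om m (G.P s G.s M a om m y) r - Z r‖ := ⟨_, rfl⟩
      have e1 : |g * K a r om m * (ri (I • D M a om m y r) (D M a om m (G.P s G.s M a om m y) r) -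
          ri (I • D M a om m y r) (Z r))| ≤ g / r * (n * (Y ^ 2 * E)) := by
        rw [← ri_sub, abs_mul, abs_mul, abs_of_nonneg g0, hn]
        have E0 : 0 ≤ E := hE ▸ norm_nonneg _
        calc _ ≤ g * (Y * La om m) * (‖D M a om m y r‖ * E) := by
              gcongr; exacts [hc.K, hE ▸ abs_j _ _]
          _ = g / r * (La om m * ‖D M a om m y r‖ * (r * Y * E)) := by field_simp
          _ ≤ _ := by gcongr; rw [sq]; gcongr; exact hc.r1
      have e2 : g / r * n ^ 2 ≤ g / r ^ 3 * (lam om m * bd M a om m y r) := by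
        rw [hn, mul_pow, La_sq, bd]
        have := lam_pos om m
        calc _ = g / r ^ 3 * (lam om m * (r ^ 2 * ‖D M a om m y r‖ ^ 2 + 0)) := by field_simp; ring
          _ ≤ _ := by gcongr; positivity
      have e3 : n * (Y ^ 2 * E) ≤ c / 2 * n ^ 2 + Y ^ 4 / (2 * c) * E ^ 2 := by
        have : c / 2 * n ^ 2 + Y ^ 4 / (2 * c) * E ^ 2 - n * (Y ^ 2 * E) =
          (c * n - Y ^ 2 * E) ^ 2 / (2 * c) := by field_simp; ring
        have : 0 ≤ (c * n - Y ^ 2 * E) ^ 2 / (2 * c) := by positivity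
        linarith
      have e4 := mul_le_mul_of_nonneg_left e3 (by positivity : 0 ≤ g / r)
      have e5 := mul_le_mul_of_nonneg_right g1 (by positivity : 0 ≤ Y ^ 4 / (2 * c) * E ^ 2)
      have e6 : 0 ≤ C * (B * Φ * (2 * B ^ 2 * Y ^ 2) ^ 2) * E ^ 2 := by positivity
      have e7 : 0 ≤ B * Φ * (Y ^ 4 / (2 * c)) * sg om m y (G.P s G.s M a om m y) r ^ 2 := by
        positivity
      rw [← hE]
      linarith only [(abs_le.1 e1).2, mul_le_mul_of_nonneg_left e2 c0.le, e4, e5, e6, e7]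
  have b1 : ∫ r in x'..R, φ r / r ^ 3 * (lam om m * bd M a om m y r) ≤ _ :=
    nest hx'.le hR hR'.le ((k1.continuousOn.div (by fun_prop)
      fun r hr => pow_ne_zero 3 (nz hx'.le r hr)).mul (by fun_prop)) c1 (fun r hr => by
        have := ct_nonneg x x' R R' r; have := pφ r; have := x0.trans_le hr.1
        have := lam_pos om m; have := bd_nonneg M a om m y r; positivity)
      fun r hr => by rw [ct_one hx' hR' hr, one_mul]
  have c5 : ContinuousOn (fun r => φ r / r * (|K a r om m| * ‖D M a om m y r‖) ^ 2) (Icc R R') :=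
    (k1.continuousOn.div (by fun_prop) (nz xR)).mul (by fun_prop)
  have b2 : ∫ r in x..R', max (-deriv (ct x x' R R') r) 0 * φ r *
      (|K a r om m| * ‖D M a om m y r‖) ^ 2 ≤
      κ * ∫ r in R..R', φ r / r * (|K a r om m| * ‖D M a om m y r‖) ^ 2 := by
    rw [← integral_add_adjacent_intervals (c4.intervalIntegrable x R) (c4.intervalIntegrable R R'),
      ← intervalIntegral.integral_const_mul]
    have t1 := integral_mono_on_of_le_Ioo (μ := volume) (g := fun _ => (0 : ℝ)) xR (c4.intervalIntegrable x R)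
      intervalIntegrable_const fun r hr => by
        rw [max_eq_right (neg_nonpos.2 ((Hκ R R' r hR' h6 hr.1.le).2 hr.2))]; simp
    have t2 := integral_mono_on hR'.le (c4.intervalIntegrable R R')
      (ii hR'.le (c5.const_mul κ)) fun r hr => by
        have r0 := x0.trans_le (xR.trans hr.1)
        have e : max (-deriv (ct x x' R R') r) 0 ≤ κ / r :=
          max_le ((neg_le_abs _).trans (Hκ R R' r hR' h6 (xR.trans hr.1)).1) (by positivity)
        have := pφ r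
        calc _ ≤ κ / r * φ r * (|K a r om m| * ‖D M a om m y r‖) ^ 2 := by gcongr
          _ = _ := by ring
    simp only [intervalIntegral.integral_zero] at t1
    linarith
  have b3 : 0 ≤ ∫ r in x..R', φ r * r * bd M a om m (deriv y) r :=
    integral_nonneg xR' fun r hr => by
      have := pφ r; have := x0.trans_le hr.1; have := bd_nonneg M a om m (deriv y) r; positivity
  have b4 : 0 ≤ ∫ r in R..R', φ r / r * (|K a r om m| * ‖D M a om m y r‖) ^ 2 :=
    integral_nonneg hR'.le fun r hr => by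
      have := pφ r; have := x0.trans_le (xR.trans hr.1); positivity
  linarith only [main, mul_le_mul_of_nonneg_left b1 (half_pos c0).le, b2, mul_nonneg κ0 b3,
    mul_nonneg C0 b4]

theorem nonR {B β : ℝ} (hB : 1 ≤ B) (hβ : 0 ≤ β) : ∃ c C : ℝ, 0 < c ∧ 0 ≤ C ∧
    ∀ l a1 a2 n L An x E : ℝ, 0 ≤ a1 → 0 ≤ a2 → 0 ≤ n → 0 ≤ L → a1 ≤ E → n ≤ E → x ≤ L * E →
      L ≤ n + 3 * B ^ 4 * (a1 + a2) → a2 ^ 2 - 8 * B ^ 4 * ((a1 + a2) * n) ≤ l →
      An ≤ l + β * L ^ 2 → c * (L ^ 2 + An) ≤ l - x + C * E ^ 2 := by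
  have b4 : 1 ≤ B ^ 4 := one_le_pow₀ hB
  obtain ⟨c, C, c0, C0, H⟩ := absorb (c0 := 1 / 2) (C1 := 12 * B ^ 4)
    (C2 := 16 * B ^ 8 * (1 + β)) (by norm_num) (by positivity)
  refine ⟨min c (1 / 2), C, lt_min c0 (by norm_num), C0,
    fun l a1 a2 n L An x E p1 p2 p3 p4 h1 h2 h3 h4 h5 h6 => ?_⟩
  have E0 : 0 ≤ E := p1.trans h1
  have e1 : L ≤ 4 * B ^ 4 * (a2 + E) := by nlinarith
  have e2 : (a1 + a2) * n ≤ (a2 + E) * E := mul_le_mul (by linarith) h2 p3 (by positivity)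
  have e3 := mul_le_mul_of_nonneg_left e2 (by positivity : 0 ≤ 8 * B ^ 4)
  have e4 := H (a2 ^ 2) (a2 + E) E (1 / 2 * a2 ^ 2) (8 * B ^ 4 * ((a2 + E) * E) + x)
    ((1 + β) * L ^ 2) (by nlinarith [sq_nonneg (a2 - E)]) le_rfl
    (by linarith [mul_le_mul_of_nonneg_right e1 E0]) (by
      have := mul_le_mul_of_nonneg_left (pow_le_pow_left₀ p4 e1 2) (by positivity : 0 ≤ 1 + β)
      linarith)
  have m0 : 0 < min c (1 / 2) := lt_min c0 (by norm_num)
  have m1 := mul_le_mul_of_nonneg_right (min_le_left c (1 / 2)) (by positivity : 0 ≤ (1 + β) * L ^ 2)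
  have m2 := min_le_right c (1 / 2)
  generalize min c (1 / 2) = d at *
  have e5 : 0 ≤ 8 * B ^ 4 * ((a2 + E) * E) := by positivity
  have e6 := mul_le_mul_of_nonneg_left (show a2 ^ 2 - 8 * B ^ 4 * ((a2 + E) * E) ≤ l by linarith)
    (show 0 ≤ 1 - d by linarith)
  linarith only [e4, m1, mul_le_mul_of_nonneg_left h6 m0.le, e6, mul_nonneg m0.le e5,
    mul_le_mul_of_nonneg_right m2 (sq_nonneg a2)]

/-- First derivatives from D and d_r. -/
theorem non {M0 a0 x x' y' y : ℝ} (ha : |a0| < M0) (hx : rp M0 a0 < x) (h1 : x < x') (h2 : x' ≤ y')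
    (h3 : y' < y) : ∃ C dl : ℝ, 0 ≤ C ∧ 0 < dl ∧ ∀ M a : ℝ, |M - M0| < dl → |a - a0| < dl →
    ∀ (S : Type) [NormedAddCommGroup S] [InnerProductSpace ℂ S] (G : Ang S), G.Is → |G.s| = 2 →
    ∀ (t om m : ℝ) (z : ℝ → S), 0 ≤ t → t ≤ 3 → G.Md m z →
      (∫ r in x'..y', d1 G om m z r) ≤ C * ∫ r in x..y, (‖D M a om m z r‖ ^ 2 + ‖deriv z r‖ ^ 2 +
        ‖z r‖ ^ 2 + ‖G.P t G.s M a om m z r‖ ^ 2 / lam om m) := by
  obtain ⟨B, dl, B2, p1, q1, HZ⟩ := zn_near ha hx
  have B1 : 1 ≤ B := by linarith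
  obtain ⟨c, C, c0, C0, H⟩ := nonR B1 (show 0 ≤ B + B ^ 2 by positivity)
  obtain ⟨Y, Y1, HY⟩ := cr_ex 0 M0 a0 x y
  have sχ := ct_sm x x' y' y
  obtain ⟨T, T1, HT⟩ := box_bd M0 a0 x y (c := fun p => deriv (ct x x' y' y) p.2.2)
    ((cd_der sχ).continuous.comp (by fun_prop))
  have Y0 : 0 < Y := by linarith
  have T0 : 0 < T := by linarith
  refine ⟨(c + C + 8 + (T + 6) * Y) * (4 * Y ^ 2) / c, dl, by positivity, p1,
    fun M a hM ha' S _ _ G hG hs t om m z t0 t3 hz => ?_⟩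
  have xy : x ≤ y := by linarith
  have k1 := sχ.continuous
  have k2 := P354RM.cont_d1 (om := om) (m := m) hz.1
  have k3 := P354M0.cont_D hz.1.cd M a om m
  have k4 := hz.1.cont
  have k5 := (hG.sm_deriv hz.1).cont
  have k6 := (hG.sm_P hz.1 t G.s M a om m).cont
  have main := int5 (Q := QL M a (ct x x' y' y) z) (c1 := c) (c3 := 0) (c4 := 0)
    (c5 := (c + C + 8 + (T + 6) * Y) * (4 * Y ^ 2)) (F1 := fun r => ct x x' y' y r * d1 G om m z r)
    (F2 := fun _ => 0) (F3 := fun _ => 0) (F4 := fun _ => 0)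
    (F5 := fun r => ‖D M a om m z r‖ ^ 2 + ‖deriv z r‖ ^ 2 + ‖z r‖ ^ 2 +
      ‖G.P t G.s M a om m z r‖ ^ 2 / lam om m) xy (by fun_prop) (by fun_prop) (by fun_prop)
    (by fun_prop) (by fun_prop) (by simp [QL, ct_l y' y h1 le_rfl])
    (by simp [QL, ct_r x x' h3 le_rfl]) fun r hr => by
      have hr' := HZ M a hM ha' r hr.1
      have hc := HY M a r (hM.le.trans q1) (ha'.le.trans q1) hr om m
      have hT : |deriv (ct x x' y' y) r| ≤ T := HT M a r (hM.le.trans q1) (ha'.le.trans q1) hr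
      have g0 := ct_nonneg x x' y' y r
      have g1 := ct_le x x' y' y r
      obtain ⟨q, hq, e⟩ := curL hG hz.1 hr' t0 t3 G.s om m (cd_has sχ r) g0
      refine ⟨q, hq, le_trans ?_ e⟩
      have L0 := La_pos om m
      have r0 := hr'.r0
      have e0 : |K a r om m| * ‖z r‖ ≤ ‖D M a om m z r‖ + Y * ‖deriv z r‖ := by
        have e1 : (K a r om m : ℂ) • I • z r = (De M a r : ℂ) • deriv z r - D M a om m z r := by
          rw [D]; abel
        rw [← norm_I (z r), ← norm_real, e1]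
        refine (norm_sub_le _ _).trans ?_
        rw [norm_real, abs_of_nonneg hr'.De0]
        linarith [mul_le_mul_of_nonneg_right (hr'.De1.trans hc.r2) (norm_nonneg (deriv z r))]
      have e1 := An_le hG (hs.le.trans B2) hr'.aB om m (z r)
      have e2 : ‖G.P t G.s M a om m z r‖ ^ 2 / lam om m =
        (‖G.P t G.s M a om m z r‖ / La om m) ^ 2 := by rw [div_pow, La_sq]
      have e3 : ‖z r‖ * ‖G.P t G.s M a om m z r‖ =
        La om m * ‖z r‖ * (‖G.P t G.s M a om m z r‖ / La om m) := by field_simp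
      have e4 : d1 G om m z r = ‖deriv z r‖ ^ 2 + ((La om m * ‖z r‖) ^ 2 + An G (z r)) := by
        rw [mul_pow, La_sq, d1, An]; ring
      rw [mul_assoc, ← La_sq, ← mul_pow] at e1
      have z4 : 0 ≤ ‖G.P t G.s M a om m z r‖ / La om m := by positivity
      have m1 := mu_le2 hG hs hr' om m (hz.2 r)
      have m2 := La_mul hG hr' om m (z r)
      rw [e2, e3, e4]
      have z1 := norm_nonneg (D M a om m z r)
      have z2 := norm_nonneg (deriv z r)
      have z3 := norm_nonneg (z r)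
      have z5 : 0 ≤ |K a r om m| * ‖z r‖ := by positivity
      generalize ‖G.P t G.s M a om m z r‖ / La om m = n4 at *
      generalize |K a r om m| * ‖z r‖ = a1 at *
      generalize ‖D M a om m z r‖ = n1 at *
      generalize ‖deriv z r‖ = n2 at *
      obtain ⟨E, hE⟩ : ∃ E, E = Y * (n1 + n2 + ‖z r‖ + n4) := ⟨_, rfl⟩
      have u : n1 + n2 + ‖z r‖ + n4 ≤ E := hE ▸ le_mul_of_one_le_left (by positivity) Y1
      have u1 : a1 ≤ E := by
        rw [hE]; nlinarith only [e0, Y1, z1, z3, z4]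
      have E0 : 0 ≤ E := z5.trans u1
      have T' := mul_le_mul_of_nonneg_left (H _ a1 _ _ _ _ (La om m * ‖z r‖ * n4) E z5
        (norm_nonneg _) z3 (by positivity) u1 (by linarith only [u, z1, z2, z4])
        (mul_le_mul_of_nonneg_left (by linarith only [u, z1, z2, z3]) (by positivity)) m2 m1 e1) g0
      have u2 : n2 ≤ E := by linarith only [u, z1, z3, z4]
      have u3 : ‖z r‖ ≤ E := by linarith only [u, z1, z2, z4]
      have v1 : n2 ^ 2 ≤ E ^ 2 := pow_le_pow_left₀ z2 u2 2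
      have v2 : ‖z r‖ ^ 2 ≤ E ^ 2 := pow_le_pow_left₀ z3 u3 2
      have v3 : a1 * n2 ≤ E * E := mul_le_mul u1 u2 z2 E0
      have v4 : (|deriv (ct x x' y' y) r| * r ^ 2 + 6 * ct x x' y' y r * r) * (‖z r‖ * n2) ≤
          (T * Y + 6 * 1 * Y) * (E * E) := by gcongr; exacts [hc.r2, hc.r1]
      have v5 : E ^ 2 ≤ 4 * Y ^ 2 * (n1 ^ 2 + n2 ^ 2 + ‖z r‖ ^ 2 + n4 ^ 2) := by
        rw [hE, mul_pow, mul_comm 4, mul_assoc]
        refine mul_le_mul_of_nonneg_left ?_ (sq_nonneg Y)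
        linarith only [sq_nonneg (n1 - n2), sq_nonneg (n1 - ‖z r‖), sq_nonneg (n1 - n4),
          sq_nonneg (n2 - ‖z r‖), sq_nonneg (n2 - n4), sq_nonneg (‖z r‖ - n4)]
      have v6 := mul_le_mul_of_nonneg_left v5 (by positivity : 0 ≤ c + C + 8 + (T + 6) * Y)
      have v7 : ct x x' y' y r * (c * n2 ^ 2 + C * E ^ 2 + 2 * (a1 * n2) + 6 * ‖z r‖ ^ 2) ≤
          1 * (c * E ^ 2 + C * E ^ 2 + 2 * (E * E) + 6 * E ^ 2) := by gcongr
      linarith only [T', v4, v6, v7]
  have b1 := nest h1.le h2 h3.le (φ := d1 G om m z) (ψ := fun r => ct x x' y' y r * d1 G om m z r)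
    k2.continuousOn (by fun_prop)
    (fun r _ => mul_nonneg (ct_nonneg _ _ _ _ _) (P354ME.d1_nonneg om m z r))
    fun r hr => by rw [ct_one h1 h3 hr, one_mul]
  rw [div_mul_eq_mul_div, le_div_iff₀' c0]
  simp only [intervalIntegral.integral_zero] at main
  linarith only [main, mul_le_mul_of_nonneg_left b1 c0.le]

end Vale.Agent.P354RP
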